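import Mathlib
import Vale.Agent.P245.Gauss

/-!
Coordinate calculus for the generator of a weighted measure `exp (-V)`: integration by parts and
the integrated Bochner identity for compactly supported test functions.
-/

open MeasureTheory Filter
open scoped ContDiff RealInnerProductSpace Topology

namespace Vale.Agent.P245.Sub

variable {n : ℕ}

/-- The coordinate vector. -/
noncomputable def bas (i : Fin n) : Euc n := EuclideanSpace.single i (1 : ℝ)

/-- Partial derivative. -/
noncomputable def pd (i : Fin n) (f : Euc n → ℝ) (x : Euc n) : ℝ := fderiv ℝ f x (bas i)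

/-- The generator `Δ - ∇V·∇`. -/
noncomputable def Lop (V u : Euc n → ℝ) (x : Euc n) : ℝ :=
  ∑ i, (pd i (pd i u) x - pd i V x * pd i u x)

/-- The weight. -/
noncomputable def wV (V : Euc n → ℝ) (x : Euc n) : ℝ := Real.exp (-V x)

variable {V u f g : Euc n → ℝ}

lemma wV_pos (V : Euc n → ℝ) (x : Euc n) : 0 < wV V x := Real.exp_pos _

lemma contDiff_wV (hV : ContDiff ℝ ∞ V) : ContDiff ℝ ∞ (wV V) :=
  Real.contDiff_exp.comp hV.neg

lemma contDiff_pd (hf : ContDiff ℝ ∞ f) (i : Fin n) : ContDiff ℝ ∞ (pd i f) :=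
  (hf.fderiv_right (m := ∞) le_rfl).clm_apply contDiff_const

lemma hasCompactSupport_pd (hf : HasCompactSupport f) (i : Fin n) : HasCompactSupport (pd i f) :=
  hf.fderiv_apply ℝ (bas i)

lemma differentiable_of (hf : ContDiff ℝ ∞ f) : Differentiable ℝ f :=
  hf.differentiable (by simp)

lemma pd_mul (hf : ContDiff ℝ ∞ f) (hg : ContDiff ℝ ∞ g) (i : Fin n) (x : Euc n) :
    pd i (fun y => f y * g y) x = pd i f x * g x + f x * pd i g x := by
  simp only [pd]
  rw [fderiv_fun_mul (differentiable_of hf x) (differentiable_of hg x)]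
  simp only [add_apply, smul_apply, smul_eq_mul]
  ring

lemma pd_wV (hV : ContDiff ℝ ∞ V) (i : Fin n) (x : Euc n) :
    pd i (wV V) x = -(pd i V x) * wV V x := by
  have h : HasFDerivAt (wV V) (Real.exp (-V x) • (-fderiv ℝ V x)) x :=
    ((differentiable_of hV x).hasFDerivAt.neg).exp
  simp only [pd, h.fderiv, smul_apply, smul_eq_mul, neg_apply, wV]
  ring

lemma ibp (hf : ContDiff ℝ ∞ f) (hg : ContDiff ℝ ∞ g) (hfs : HasCompactSupport f) (i : Fin n) :
    ∫ x, pd i f x * g x = -∫ x, f x * pd i g x := by
  have h1 : Integrable fun x => pd i f x * g x :=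
    ((contDiff_pd hf i).continuous.mul hg.continuous).integrable_of_hasCompactSupport
      ((hasCompactSupport_pd hfs i).mul_right)
  have h2 : Integrable fun x => f x * pd i g x :=
    (hf.continuous.mul (contDiff_pd hg i).continuous).integrable_of_hasCompactSupport hfs.mul_right
  have h3 : Integrable fun x => f x * g x :=
    (hf.continuous.mul hg.continuous).integrable_of_hasCompactSupport hfs.mul_right
  have := integral_mul_fderiv_eq_neg_fderiv_mul_of_integrable (μ := volume) (v := bas i) h1 h2 h3
    (fun x _ => differentiable_of hf x) (fun x _ => differentiable_of hg x)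
  simp only [pd]
  rw [this, neg_neg]

lemma integrable_mul (hf : Continuous f) (hg : Continuous g) (hfs : HasCompactSupport f) :
    Integrable fun x => f x * g x :=
  (hf.mul hg).integrable_of_hasCompactSupport hfs.mul_right

lemma contDiff_Lop (hV : ContDiff ℝ ∞ V) (hu : ContDiff ℝ ∞ u) : ContDiff ℝ ∞ (Lop V u) :=
  ContDiff.sum fun i _ =>
    (contDiff_pd (contDiff_pd hu i) i).sub ((contDiff_pd hV i).mul (contDiff_pd hu i))

lemma hasCompactSupport_Lop (hus : HasCompactSupport u) : HasCompactSupport (Lop V u) := by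
  refine HasCompactSupport.intro hus.isCompact (fun x hx => ?_)
  have h0 : u =ᶠ[𝓝 x] 0 := notMem_tsupport_iff_eventuallyEq.1 hx
  have h1 : ∀ i, pd i u =ᶠ[𝓝 x] 0 := fun i => by
    filter_upwards [h0.fderiv (𝕜 := ℝ)] with y hy
    simp only [pd, hy, Pi.zero_def, fderiv_fun_const]
    simp
  refine Finset.sum_eq_zero fun i _ => ?_
  have h2 : pd i (pd i u) x = 0 := by
    simp only [pd] at h1 ⊢
    rw [(h1 i).fderiv_eq]
    simp
  rw [h2, (h1 i).eq_of_nhds]
  simp

/-- Green's formula. -/
lemma green (hV : ContDiff ℝ ∞ V) (hu : ContDiff ℝ ∞ u) (hus : HasCompactSupport u)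
    (hg : ContDiff ℝ ∞ g) :
    ∫ x, Lop V u x * g x * wV V x = -∫ x, (∑ i, pd i u x * pd i g x) * wV V x := by
  have hW := contDiff_wV hV
  have hp : ∀ i, ∀ x, (pd i (pd i u) x - pd i V x * pd i u x) * g x * wV V x
      = pd i (fun y => pd i u y * wV V y) x * g x := fun i x => by
    rw [pd_mul (contDiff_pd hu i) hW, pd_wV hV]; ring
  have hc : ∀ i, HasCompactSupport fun y => pd i u y * wV V y := fun i =>
    (hasCompactSupport_pd hus i).mul_right
  have hd : ∀ i, ContDiff ℝ ∞ fun y => pd i u y * wV V y := fun i => (contDiff_pd hu i).mul hW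
  simp only [Lop, Finset.sum_mul, hp]
  rw [integral_finsetSum, integral_finsetSum, ← Finset.sum_neg_distrib]
  · refine Finset.sum_congr rfl fun i _ => ?_
    rw [ibp (hd i) hg (hc i) i]
    congr 1
    exact integral_congr_ae (Eventually.of_forall fun x => by ring)
  · exact fun i _ => ((contDiff_pd hu i).continuous.mul (contDiff_pd hg i).continuous |>.mul
      hW.continuous).integrable_of_hasCompactSupport
      (((hasCompactSupport_pd hus i).mul_right).mul_right)
  · exact fun i _ => integrable_mul (contDiff_pd (hd i) i).continuous hg.continuous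
      (hasCompactSupport_pd (hc i) i)

lemma pd_comm (hf : ContDiff ℝ ∞ f) (i j : Fin n) (x : Euc n) :
    pd i (pd j f) x = pd j (pd i f) x := by
  have h : ∀ k l : Fin n, pd k (pd l f) x = fderiv ℝ (fderiv ℝ f) x (bas k) (bas l) := fun k l => by
    have hd : DifferentiableAt ℝ (fderiv ℝ f) x :=
      (hf.fderiv_right (m := ∞) le_rfl).differentiable (by simp) x
    unfold pd
    rw [fderiv_clm_apply hd (differentiableAt_const _)]
    simp
  rw [h, h]
  exact (hf.contDiffAt.isSymmSndFDerivAt (by simp only [minSmoothness_of_isRCLikeNormedField]; exact WithTop.coe_le_coe.2 le_top)) _ _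

lemma pd_sub (hf : ContDiff ℝ ∞ f) (hg : ContDiff ℝ ∞ g) (i : Fin n) (x : Euc n) :
    pd i (fun y => f y - g y) x = pd i f x - pd i g x := by
  simp only [pd]
  rw [fderiv_fun_sub (differentiable_of hf x) (differentiable_of hg x)]
  simp

lemma pd_Lop (hV : ContDiff ℝ ∞ V) (hu : ContDiff ℝ ∞ u) (i : Fin n) (x : Euc n) :
    pd i (Lop V u) x = Lop V (pd i u) x - ∑ j, pd i (pd j V) x * pd j u x := by
  have hd : ∀ j, ContDiff ℝ ∞ fun y => pd j (pd j u) y - pd j V y * pd j u y := fun j =>
    (contDiff_pd (contDiff_pd hu j) j).sub ((contDiff_pd hV j).mul (contDiff_pd hu j))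
  have hs : pd i (Lop V u) x
      = ∑ j, pd i (fun y => pd j (pd j u) y - pd j V y * pd j u y) x := by
    show fderiv ℝ (fun y => ∑ j, _) x (bas i) = _
    rw [fderiv_fun_sum fun j _ => differentiable_of (hd j) x]
    simp [pd]
  rw [hs, Lop, ← Finset.sum_sub_distrib]
  refine Finset.sum_congr rfl fun j _ => ?_
  rw [pd_sub (contDiff_pd (contDiff_pd hu j) j) ((contDiff_pd hV j).mul (contDiff_pd hu j)),
    pd_mul (contDiff_pd hV j) (contDiff_pd hu j)]
  have e1 : pd j (pd i u) = pd i (pd j u) := funext fun y => pd_comm hu j i y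
  rw [pd_comm (contDiff_pd hu j) i j, ← e1, e1, pd_comm hu i j x]
  ring

/-- The integrated Bochner identity. -/
theorem bochner (hV : ContDiff ℝ ∞ V) (hu : ContDiff ℝ ∞ u) (hus : HasCompactSupport u) :
    ∫ x, Lop V u x ^ 2 * wV V x
      = (∑ i, ∫ x, (∑ j, pd j (pd i u) x ^ 2) * wV V x)
        + ∫ x, (∑ i, ∑ j, pd i (pd j V) x * pd j u x * pd i u x) * wV V x := by
  have hW := (contDiff_wV hV).continuous
  have hL := contDiff_Lop hV hu
  have e0 : ∫ x, Lop V u x ^ 2 * wV V x
      = -∫ x, (∑ i, pd i u x * pd i (Lop V u) x) * wV V x := by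
    rw [← green hV hu hus hL]
    exact integral_congr_ae (Eventually.of_forall fun x => by ring)
  have e1 : ∀ i, ∫ x, (∑ j, pd j (pd i u) x ^ 2) * wV V x
      = -∫ x, Lop V (pd i u) x * pd i u x * wV V x := fun i => by
    rw [green hV (contDiff_pd hu i) (hasCompactSupport_pd hus i) (contDiff_pd hu i), neg_neg]
    exact integral_congr_ae (Eventually.of_forall fun x => by simp [sq])
  have i1 : ∀ i, Integrable fun x => Lop V (pd i u) x * pd i u x * wV V x := fun i =>
    (((contDiff_Lop hV (contDiff_pd hu i)).continuous.mul (contDiff_pd hu i).continuous).mul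
      hW).integrable_of_hasCompactSupport
      ((hasCompactSupport_Lop (hasCompactSupport_pd hus i)).mul_right.mul_right)
  have i2 : ∀ i, Integrable fun x =>
      (∑ j, pd i (pd j V) x * pd j u x * pd i u x) * wV V x := fun i => by
    simp only [Finset.sum_mul]
    exact integrable_finsetSum _ fun j _ =>
      ((((contDiff_pd (contDiff_pd hV j) i).continuous.mul (contDiff_pd hu j).continuous).mul
        (contDiff_pd hu i).continuous).mul hW).integrable_of_hasCompactSupport
        ((hasCompactSupport_pd hus i).mul_left.mul_right)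
  have e2 : ∀ x, (∑ i, pd i u x * pd i (Lop V u) x) * wV V x
      = (∑ i, Lop V (pd i u) x * pd i u x * wV V x)
        - ∑ i, (∑ j, pd i (pd j V) x * pd j u x * pd i u x) * wV V x := fun x => by
    simp only [pd_Lop hV hu, Finset.sum_mul, ← Finset.sum_sub_distrib, mul_sub, sub_mul,
      Finset.mul_sum]
    refine Finset.sum_congr rfl fun i _ => ?_
    congr 1
    · ring
    · exact Finset.sum_congr rfl fun j _ => by ring
  rw [e0]
  simp only [e2, e1, Finset.sum_neg_distrib]
  rw [integral_sub (integrable_finsetSum _ fun i _ => i1 i) (integrable_finsetSum _ fun i _ => i2 i),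
    integral_finsetSum _ fun i _ => i1 i, neg_sub, sub_eq_neg_add]
  congr 1
  exact integral_congr_ae (Eventually.of_forall fun x => by simp only [Finset.sum_mul])

end Vale.Agent.P245.Sub
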