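import Mathlib
import Vale.Agent.P245.Sub.Calc

/-!
An even mollifier on Euclidean space and the facts about it used in the density argument.
-/

open MeasureTheory Filter Set
open scoped ContDiff RealInnerProductSpace Topology Convolution

namespace Vale.Agent.P245.Sub

variable {n : ℕ}

/-- The mollifier of radius `φ.rOut`. -/
noncomputable def mol (φ : ContDiffBump (0 : Euc n)) (f : Euc n → ℝ) (x : Euc n) : ℝ :=
  ∫ y, φ.normed volume (x - y) * f y

variable (φ : ContDiffBump (0 : Euc n)) {f h : Euc n → ℝ}

lemma mol_eq (f : Euc n → ℝ) :
    mol φ f = (φ.normed volume ⋆[ContinuousLinearMap.lsmul ℝ ℝ, volume] f) := by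
  funext x
  rw [convolution_eq_swap]
  simp [mol, ContinuousLinearMap.lsmul_apply]

lemma ker_symm (x y : Euc n) : φ.normed volume (x - y) = φ.normed volume (y - x) := by
  rw [← φ.normed_neg, neg_sub]

lemma ker_nonneg (x : Euc n) : 0 ≤ φ.normed (volume : Measure (Euc n)) x := φ.nonneg_normed x

lemma ker_zero {x y : Euc n} (h : φ.rOut ≤ dist x y) : φ.normed volume (x - y) = 0 := by
  have : x - y ∉ Function.support (φ.normed (volume : Measure (Euc n))) := by
    rw [φ.support_normed_eq, Metric.mem_ball, dist_zero_right, ← dist_eq_norm]
    exact not_lt.2 h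
  simpa using this

lemma integral_ker (x : Euc n) : ∫ y, φ.normed volume (x - y) = 1 := by
  rw [integral_sub_left_eq_self (fun z => φ.normed volume z) volume x]
  exact φ.integral_normed

lemma contDiff_mol (hf : LocallyIntegrable f volume) : ContDiff ℝ ∞ (mol φ f) := by
  rw [mol_eq]
  exact φ.hasCompactSupport_normed.contDiff_convolution_left _ φ.contDiff_normed hf

lemma hasCompactSupport_mol (hf : HasCompactSupport f) : HasCompactSupport (mol φ f) := by
  rw [mol_eq]
  exact φ.hasCompactSupport_normed.convolution _ hf

lemma integrable_ker_mul (hf : LocallyIntegrable f volume) (x : Euc n) :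
    Integrable fun y => φ.normed volume (x - y) * f y := by
  have hs : HasCompactSupport fun y => φ.normed volume (x - y) :=
    φ.hasCompactSupport_normed.comp_homeomorph (Homeomorph.subLeft x)
  have := hf.integrable_smul_right_of_hasCompactSupport
    (φ.continuous_normed.comp (continuous_const.sub continuous_id)) hs
  simpa [mul_comm] using this

lemma pd_mol (hh : ContDiff ℝ ∞ h) (hhs : HasCompactSupport h) (i : Fin n) :
    pd i (mol φ h) = mol φ (pd i h) := by
  funext x
  rw [mol_eq, mol_eq]
  have hL : LocallyIntegrable (φ.normed (volume : Measure (Euc n))) volume :=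
    φ.continuous_normed.locallyIntegrable
  have hd := hhs.hasFDerivAt_convolution_right (ContinuousLinearMap.lsmul ℝ ℝ) hL
    (hh.of_le (by simp)) x
  simp only [pd]
  rw [hd.fderiv, convolution_precompR_apply (ContinuousLinearMap.lsmul ℝ ℝ) hL (hhs.fderiv ℝ)
    (hh.continuous_fderiv (by simp))]
  rfl

/-- The mollifier is self-adjoint. -/
lemma mol_adjoint (hf : LocallyIntegrable f volume) (hh : Continuous h)
    (hhs : HasCompactSupport h) :
    ∫ x, f x * mol φ h x = ∫ x, mol φ f x * h x := by
  set K := Metric.cthickening φ.rOut (tsupport h) with hK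
  have hKc : IsCompact K := hhs.isCompact.cthickening
  have hfK : Integrable (K.indicator f) := (hf.integrableOn_isCompact hKc).integrable_indicator
    Metric.isClosed_cthickening.measurableSet
  obtain ⟨B, hB⟩ := φ.continuous_normed.bounded_above_of_compact_support
    (f := φ.normed (volume : Measure (Euc n))) φ.hasCompactSupport_normed
  have hhi : Integrable h := hh.integrable_of_hasCompactSupport hhs
  have hprod : Integrable (fun p : Euc n × Euc n =>
      φ.normed volume (p.1 - p.2) * (f p.1 * h p.2)) (volume.prod volume) := by
    have e : (fun p : Euc n × Euc n => φ.normed volume (p.1 - p.2) * (f p.1 * h p.2))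
        = fun p => φ.normed volume (p.1 - p.2) * (K.indicator f p.1 * h p.2) := by
      funext p
      by_cases hp : p.1 ∈ K
      · rw [indicator_of_mem hp]
      rw [indicator_of_notMem hp]
      by_cases hy : p.2 ∈ tsupport h
      · have : φ.rOut ≤ dist p.1 p.2 := by
          by_contra hlt
          exact hp (Metric.mem_cthickening_of_dist_le _ _ _ _ hy (not_le.1 hlt).le)
        simp [ker_zero φ this]
      · simp [image_eq_zero_of_notMem_tsupport hy]
    rw [e]
    refine (hfK.mul_prod hhi).bdd_mul (c := B) ?_ ?_
    · exact (φ.continuous_normed.comp (continuous_fst.sub continuous_snd)).aestronglyMeasurable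
    · exact Eventually.of_forall fun p => hB _
  calc ∫ x, f x * mol φ h x
      = ∫ x, ∫ y, φ.normed volume (x - y) * (f x * h y) := by
        refine integral_congr_ae (Eventually.of_forall fun x => ?_)
        simp only [mol, ← integral_const_mul]
        exact integral_congr_ae (Eventually.of_forall fun y => by ring)
    _ = ∫ y, ∫ x, φ.normed volume (x - y) * (f x * h y) := integral_integral_swap hprod
    _ = _ := by
        refine integral_congr_ae (Eventually.of_forall fun y => ?_)
        simp only [mol, ← integral_mul_const]
        exact integral_congr_ae (Eventually.of_forall fun x => by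
          show _ = φ.normed volume (y - x) * f x * h y
          rw [ker_symm φ y x]; ring)

/-- Jensen for the mollifier. -/
lemma mol_sq_le (hf : LocallyIntegrable f volume)
    (hf2 : LocallyIntegrable (fun y => f y ^ 2) volume) (x : Euc n) :
    mol φ f x ^ 2 ≤ mol φ (fun y => f y ^ 2) x := by
  set a := mol φ f x
  have i1 := integrable_ker_mul φ hf x
  have i2 := integrable_ker_mul φ hf2 x
  have i3 : Integrable fun y => φ.normed volume (x - y) :=
    φ.integrable_normed.comp_sub_left x
  have h0 : 0 ≤ ∫ y, φ.normed volume (x - y) * f y ^ 2 + φ.normed volume (x - y) * a ^ 2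
      - 2 * a * (φ.normed volume (x - y) * f y) :=
    integral_nonneg fun y => by
      have := mul_nonneg (ker_nonneg φ (x - y)) (sq_nonneg (f y - a))
      simp only [Pi.zero_apply]
      linarith [this, show φ.normed volume (x - y) * (f y - a) ^ 2
        = φ.normed volume (x - y) * f y ^ 2 + φ.normed volume (x - y) * a ^ 2
          - 2 * a * (φ.normed volume (x - y) * f y) by ring]
  rw [integral_sub (f := fun y => φ.normed volume (x - y) * f y ^ 2
      + φ.normed volume (x - y) * a ^ 2) (i2.add (i3.mul_const _)) (i1.const_mul _),
    integral_add i2 (i3.mul_const _), integral_mul_const, integral_ker, integral_const_mul] at h0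
  have ha : ∫ y, φ.normed volume (x - y) * f y = a := rfl
  have hb : ∫ y, φ.normed volume (x - y) * f y ^ 2 = mol φ (fun y => f y ^ 2) x := rfl
  rw [ha, hb] at h0
  nlinarith

/-- Mollifying a product with a nearly constant factor. -/
lemma mol_comm_le (hf : LocallyIntegrable f volume) (hh : Continuous h) (x : Euc n) {δ : ℝ}
    (hδ : ∀ y, dist x y < φ.rOut → |h y - h x| ≤ δ) :
    |mol φ (fun y => f y * h y) x - h x * mol φ f x| ≤ δ * mol φ (fun y => |f y|) x := by
  have hfa : LocallyIntegrable (fun y => |f y|) volume := fun z => (hf z).norm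
  have hfh : LocallyIntegrable (fun y => f y * h y) volume := by
    rw [← locallyIntegrableOn_univ]
    exact (locallyIntegrableOn_univ.2 hf).mul_continuousOn hh.continuousOn isOpen_univ.isLocallyClosed
  simp only [mol]
  rw [← integral_const_mul, ← integral_sub (integrable_ker_mul φ hfh x)
    ((integrable_ker_mul φ hf x).const_mul _), ← integral_const_mul]
  refine abs_integral_le_integral_abs.trans (integral_mono_of_nonneg
    (Eventually.of_forall fun y => abs_nonneg _) ((integrable_ker_mul φ hfa x).const_mul δ)
    (Eventually.of_forall fun y => ?_))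
  show |φ.normed volume (x - y) * (f y * h y) - h x * (φ.normed volume (x - y) * f y)| ≤ _
  rw [show φ.normed volume (x - y) * (f y * h y) - h x * (φ.normed volume (x - y) * f y)
    = φ.normed volume (x - y) * f y * (h y - h x) by ring, abs_mul, abs_mul,
    abs_of_nonneg (ker_nonneg φ _)]
  by_cases hy : dist x y < φ.rOut
  · calc _ ≤ φ.normed volume (x - y) * |f y| * δ :=
          mul_le_mul_of_nonneg_left (hδ y hy) (mul_nonneg (ker_nonneg φ _) (abs_nonneg _))
      _ = _ := by ring
  · simp [ker_zero φ (not_lt.1 hy)]

/-- Mollification of a compactly supported continuous function, uniformly. -/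
lemma mol_close (hh : Continuous h) {δ : ℝ}
    (hδ : ∀ x y, dist x y < φ.rOut → |h y - h x| ≤ δ) (x : Euc n) :
    |mol φ h x - h x| ≤ δ := by
  have h1 : LocallyIntegrable (fun _ : Euc n => (1 : ℝ)) volume :=
    continuous_const.locallyIntegrable
  have h2 := mol_comm_le φ h1 hh x (hδ x)
  simp only [one_mul, abs_one] at h2
  have e : mol φ (fun _ => (1 : ℝ)) x = 1 := by
    simpa [mol] using integral_ker φ x
  rwa [e, mul_one, mul_one] at h2

end Vale.Agent.P245.Sub
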