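import Mathlib
import Vale.Agent.P245.Sub.Moll

/-!
A square integrable function orthogonal to the range of the generator is constant: the key step in
the density of that range, proved with a mollifier and no elliptic regularity.
-/

open MeasureTheory Filter Set
open scoped ContDiff RealInnerProductSpace Topology

namespace Vale.Agent.P245.Sub

variable {n : ℕ} {V g : Euc n → ℝ}

lemma pd_const_mul {f : Euc n → ℝ} (hf : ContDiff ℝ ∞ f) (c : ℝ) (i : Fin n) (x : Euc n) :
    pd i (fun y => c * f y) x = c * pd i f x := by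
  simp only [pd]
  rw [fderiv_const_mul (differentiable_of hf x)]
  simp

lemma pd_exp_V (hV : ContDiff ℝ ∞ V) (i : Fin n) (x : Euc n) :
    pd i (fun y => Real.exp (V y)) x = pd i V x * Real.exp (V x) := by
  simp only [pd]
  rw [(differentiable_of hV x).hasFDerivAt.exp.fderiv]
  simp [mul_comm]

lemma local_int (hV : ContDiff ℝ ∞ V) (hgm : Measurable g)
    (hg2 : Integrable fun x => g x ^ 2 * wV V x) :
    LocallyIntegrable (fun x => g x * wV V x) volume
      ∧ LocallyIntegrable (fun x => (g x * wV V x) ^ 2) volume := by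
  have hW := (contDiff_wV hV).continuous
  constructor
  · refine (hg2.locallyIntegrable.add hW.locallyIntegrable).mono
      (hgm.mul hW.measurable).aestronglyMeasurable (Eventually.of_forall fun x => ?_)
    have := wV_pos V x
    simp only [Pi.add_apply, Real.norm_eq_abs, abs_mul, abs_of_pos this]
    rw [abs_of_nonneg (add_nonneg (mul_nonneg (sq_nonneg _) this.le) this.le)]
    nlinarith [mul_nonneg this.le (sq_nonneg (|g x| - 1)), sq_abs (g x),
      mul_nonneg this.le (abs_nonneg (g x))]
  · rw [← locallyIntegrableOn_univ]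
    refine ((locallyIntegrableOn_univ.2 hg2.locallyIntegrable).mul_continuousOn hW.continuousOn
      isOpen_univ.isLocallyClosed).congr ?_
    exact Eventually.of_forall fun x => by simp only; ring

/-- Weak harmonicity against mollified test functions. -/
lemma weak_eq (hV : ContDiff ℝ ∞ V)
    (hw : LocallyIntegrable (fun x => g x * wV V x) volume)
    (horth : ∀ u : Euc n → ℝ, ContDiff ℝ ∞ u → HasCompactSupport u →
      ∫ x, g x * Lop V u x * wV V x = 0)
    (φ : ContDiffBump (0 : Euc n)) {p : Euc n → ℝ} (hp : ContDiff ℝ ∞ p)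
    (hps : HasCompactSupport p) :
    ∑ i, ∫ x, (pd i (mol φ fun y => g y * wV V y) x
      + mol φ (fun y => g y * wV V y * pd i V y) x) * pd i p x = 0 := by
  set w := fun y => g y * wV V y with hwd
  have hpL := hp.continuous.locallyIntegrable (μ := (volume : Measure (Euc n)))
  have hu : ContDiff ℝ ∞ (mol φ p) := contDiff_mol φ hpL
  have hus := hasCompactSupport_mol φ hps
  have hMw := contDiff_mol φ hw
  have hwV : ∀ i, LocallyIntegrable (fun y => w y * pd i V y) volume := fun i => by
    rw [← locallyIntegrableOn_univ]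
    exact (locallyIntegrableOn_univ.2 hw).mul_continuousOn (contDiff_pd hV i).continuous.continuousOn
      isOpen_univ.isLocallyClosed
  have e1 : ∀ i, pd i (pd i (mol φ p)) = mol φ (pd i (pd i p)) := fun i => by
    rw [pd_mol φ hp hps, pd_mol φ (contDiff_pd hp i) (hasCompactSupport_pd hps i)]
  have e2 : ∀ i, pd i (mol φ p) = mol φ (pd i p) := fun i => pd_mol φ hp hps i
  have t1 : ∀ i, Integrable fun x => w x * pd i (pd i (mol φ p)) x := fun i =>
    (hw.integrable_smul_right_of_hasCompactSupport
      (contDiff_pd (contDiff_pd hu i) i).continuous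
      (hasCompactSupport_pd (hasCompactSupport_pd hus i) i)).congr
      (Eventually.of_forall fun x => by simp [mul_comm])
  have t2 : ∀ i, Integrable fun x => w x * pd i V x * pd i (mol φ p) x := fun i =>
    ((hwV i).integrable_smul_right_of_hasCompactSupport
      (contDiff_pd hu i).continuous (hasCompactSupport_pd hus i)).congr
      (Eventually.of_forall fun x => by simp [mul_comm])
  have t3 : ∀ i, Integrable fun x => pd i (mol φ w) x * pd i p x := fun i =>
    ((contDiff_pd hMw i).continuous.mul (contDiff_pd hp i).continuous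
      ).integrable_of_hasCompactSupport (hasCompactSupport_pd hps i).mul_left
  have t4 : ∀ i, Integrable fun x => mol φ (fun y => w y * pd i V y) x * pd i p x := fun i =>
    ((contDiff_mol φ (hwV i)).continuous.mul (contDiff_pd hp i).continuous
      ).integrable_of_hasCompactSupport (hasCompactSupport_pd hps i).mul_left
  have h0 := horth _ hu hus
  have e3 : ∀ x, g x * Lop V (mol φ p) x * wV V x
      = ∑ i, (w x * pd i (pd i (mol φ p)) x - w x * pd i V x * pd i (mol φ p) x) := fun x => by
    simp only [Lop, Finset.mul_sum, Finset.sum_mul, hwd]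
    exact Finset.sum_congr rfl fun i _ => by ring
  simp only [e3] at h0
  rw [integral_finsetSum (f := fun i x =>
    w x * pd i (pd i (mol φ p)) x - w x * pd i V x * pd i (mol φ p) x) _
    fun i _ => (t1 i).sub (t2 i)] at h0
  rw [← neg_eq_zero, ← Finset.sum_neg_distrib, ← h0]
  refine Finset.sum_congr rfl fun i _ => ?_
  rw [integral_sub (t1 i) (t2 i)]
  simp only [add_mul]
  rw [integral_add (t3 i) (t4 i), neg_add, ← sub_eq_add_neg]
  congr 1
  · rw [e1 i, mol_adjoint φ hw (contDiff_pd (contDiff_pd hp i) i).continuous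
      (hasCompactSupport_pd (hasCompactSupport_pd hps i) i)]
    have h := ibp (contDiff_pd hp i) hMw (hasCompactSupport_pd hps i) i
    have c1 : ∫ x, mol φ w x * pd i (pd i p) x = ∫ x, pd i (pd i p) x * mol φ w x :=
      integral_congr_ae (Eventually.of_forall fun x => mul_comm _ _)
    have c2 : ∫ x, pd i (mol φ w) x * pd i p x = ∫ x, pd i p x * pd i (mol φ w) x :=
      integral_congr_ae (Eventually.of_forall fun x => mul_comm _ _)
    linarith
  · rw [e2 i, mol_adjoint φ (hwV i) (contDiff_pd hp i).continuous (hasCompactSupport_pd hps i)]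

/-- A mollified compactly supported function is close to it, with support near it. -/
lemma mol_close_on (φ : ContDiffBump (0 : Euc n)) {h : Euc n → ℝ} (hh : Continuous h) {δ : ℝ}
    (hδ : ∀ x y, dist x y < φ.rOut → |h y - h x| ≤ δ) {K : Set (Euc n)}
    (hK : ∀ x y, dist x y < φ.rOut → h y ≠ 0 → x ∈ K) (hr : ∀ x, h x ≠ 0 → x ∈ K) (x : Euc n) :
    |mol φ h x - h x| ≤ K.indicator (fun _ => δ) x := by
  by_cases hx : x ∈ K
  · rw [indicator_of_mem hx]; exact mol_close φ hh hδ x
  have h1 : mol φ h x = 0 := integral_eq_zero_of_ae (Eventually.of_forall fun y => by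
    simp only [Pi.zero_apply]
    by_cases hy : dist x y < φ.rOut
    · rw [not_not.1 fun hne => hx (hK x y hy hne), mul_zero]
    · rw [ker_zero φ (not_lt.1 hy), zero_mul])
  have h2 : h x = 0 := not_not.1 fun hne => hx (hr x hne)
  simp [h1, h2, indicator_of_notMem hx]

/-- The pointwise Young inequality behind the pairing. -/
lemma young_pointwise {W E a p l : ℝ} (hW : 0 < W) (hWE : W * E = 1) (hl : 0 < l) :
    |p * a| ≤ l * (a ^ 2 * W / 2) + 1 / (2 * l) * (p ^ 2 * E) := by
  have hE : E = 1 / W := by rw [eq_div_iff hW.ne', mul_comm]; exact hWE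
  rw [hE, show l * (a ^ 2 * W / 2) + 1 / (2 * l) * (p ^ 2 * (1 / W))
    = ((l * (|a| * W)) ^ 2 + |p| ^ 2) / (2 * (l * W)) by rw [mul_pow, mul_pow, sq_abs, sq_abs]; field_simp,
    le_div_iff₀ (by positivity), abs_mul]
  nlinarith [sq_nonneg (l * (|a| * W) - |p|)]

/-- Replacing a weight by its mollification against a nearly invariant test function. -/
lemma transfer (φ : ContDiffBump (0 : Euc n)) {q h : Euc n → ℝ}
    (hq : LocallyIntegrable q volume) (hh : Continuous h) (hhs : HasCompactSupport h)
    {K : Set (Euc n)} (hKm : MeasurableSet K) (iK : IntegrableOn q K) {δ : ℝ}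
    (hc : ∀ x, |mol φ h x - h x| ≤ K.indicator (fun _ => δ) x) :
    |(∫ x, mol φ q x * h x) - ∫ x, q x * h x| ≤ δ * ∫ x, K.indicator (fun x => |q x|) x := by
  have hm : ContDiff ℝ ∞ (mol φ h) := contDiff_mol φ hh.locallyIntegrable
  have ia : Integrable fun x => q x * mol φ h x :=
    (hq.integrable_smul_right_of_hasCompactSupport hm.continuous
      (hasCompactSupport_mol φ hhs)).congr (Eventually.of_forall fun x => by simp [mul_comm])
  have ib : Integrable fun x => q x * h x :=
    (hq.integrable_smul_right_of_hasCompactSupport hh hhs).congr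
      (Eventually.of_forall fun x => by simp [mul_comm])
  rw [← mol_adjoint φ hq hh hhs, ← integral_sub ia ib, ← integral_const_mul]
  refine abs_integral_le_integral_abs.trans (integral_mono (ia.sub ib).abs
    ((IntegrableOn.integrable_indicator iK.abs hKm).const_mul δ) fun x => ?_)
  simp only [← mul_sub, abs_mul]
  refine (mul_le_mul_of_nonneg_left (hc x) (abs_nonneg _)).trans (le_of_eq ?_)
  by_cases hx : x ∈ K
  · rw [indicator_of_mem hx, indicator_of_mem hx, mul_comm]
  · simp [indicator_of_notMem hx]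

/-- The pointwise energy inequality. -/
lemma energy_pointwise {W a R c d b : ℝ} (hW : 0 < W) :
    c ^ 2 * a ^ 2 * W / 2 - 5 * (d ^ 2 * b ^ 2 * W) - 2 * (c ^ 2 * R ^ 2 / W)
      ≤ (W * a + R) * (2 * c * d * b + c ^ 2 * a) := by
  have h : 2 * (c ^ 2 * R ^ 2 / W) * W = 2 * (c ^ 2 * R ^ 2) := by field_simp
  refine le_of_mul_le_mul_right ?_ hW
  rw [sub_mul, h]
  nlinarith [sq_nonneg (W * c * a / 2 + 2 * W * d * b), sq_nonneg (W * c * a / 2 + c * R),
    sq_nonneg (c * R + W * d * b)]

/-- Integration by parts and Young's inequality for the pairing with a ratio. -/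
lemma pair_le (hV : ContDiff ℝ ∞ V) {M : Euc n → ℝ} (hM : ContDiff ℝ ∞ M) {ψ χ : Euc n → ℝ}
    (hψ : ContDiff ℝ ∞ ψ) (hψs : HasCompactSupport ψ) (hχ : ContDiff ℝ ∞ χ)
    (hχs : HasCompactSupport χ) (hχψ : ∀ x ∈ tsupport ψ, χ x = 1) (i : Fin n) {l : ℝ}
    (hl : 0 < l) :
    |∫ x, M x * (pd i ψ x * Real.exp (V x))|
      ≤ l * (∫ x, χ x ^ 2 * pd i (fun x => M x * Real.exp (V x)) x ^ 2 * wV V x / 2)
        + 1 / (2 * l) * ∫ x, ψ x ^ 2 * Real.exp (V x) := by
  have hE : ContDiff ℝ ∞ fun x => Real.exp (V x) := Real.contDiff_exp.comp hV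
  set G := fun x => M x * Real.exp (V x) with hG
  have hGd : ContDiff ℝ ∞ G := hM.mul hE
  have hc1 : Continuous (pd i G) := (contDiff_pd hGd i).continuous
  have iL : Integrable fun x => χ x ^ 2 * pd i G x ^ 2 * wV V x / 2 := by
    refine Continuous.integrable_of_hasCompactSupport ?_ (HasCompactSupport.intro hχs.isCompact
      fun x hx => by simp [image_eq_zero_of_notMem_tsupport hx])
    have := hχ.continuous; have := (contDiff_wV hV).continuous; fun_prop
  have iψ : Integrable fun x => ψ x ^ 2 * Real.exp (V x) := by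
    refine Continuous.integrable_of_hasCompactSupport ?_ (HasCompactSupport.intro hψs.isCompact
      fun x hx => by simp [image_eq_zero_of_notMem_tsupport hx])
    have := hψ.continuous; have := hE.continuous; fun_prop
  have e : ∫ x, M x * (pd i ψ x * Real.exp (V x)) = -∫ x, ψ x * pd i G x := by
    rw [← ibp hψ hGd hψs i]
    exact integral_congr_ae (Eventually.of_forall fun x => by simp only [hG]; ring)
  have iψG : Integrable fun x => ψ x * pd i G x := integrable_mul hψ.continuous hc1 hψs
  rw [e, abs_neg, ← integral_const_mul, ← integral_const_mul,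
    ← integral_add (iL.const_mul l) (iψ.const_mul _)]
  refine abs_integral_le_integral_abs.trans (integral_mono iψG.abs
    ((iL.const_mul l).add (iψ.const_mul _)) fun x => ?_)
  simp only
  by_cases hx : ψ x = 0
  · rw [hx, zero_mul, abs_zero]
    have := wV_pos V x
    positivity
  rw [hχψ x (subset_tsupport _ hx), one_pow, one_mul]
  refine young_pointwise (wV_pos V x) ?_ hl
  rw [wV, ← Real.exp_add]; simp

variable (hV : ContDiff ℝ ∞ V) (hgm : Measurable g)
  (hg2 : Integrable fun x => g x ^ 2 * wV V x)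
  (horth : ∀ u : Euc n → ℝ, ContDiff ℝ ∞ u → HasCompactSupport u →
      ∫ x, g x * Lop V u x * wV V x = 0)

include hV hgm hg2 horth

/-- The energy of the mollified ratio, seen through a cut-off. -/
lemma energy_le (φ : ContDiffBump (0 : Euc n)) {χ : Euc n → ℝ} (hχ : ContDiff ℝ ∞ χ)
    (hχs : HasCompactSupport χ) {δ : ℝ}
    (hRV : ∀ x ∈ tsupport χ, ∀ j, ∀ y, dist x y < φ.rOut → |pd j V y - pd j V x| ≤ δ) (i : Fin n) :
    ∫ x, χ x ^ 2 * pd i (fun x => mol φ (fun y => g y * wV V y) x * Real.exp (V x)) x ^ 2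
        * wV V x / 2
      ≤ 5 * (∫ x, mol φ (fun y => (g y * wV V y) ^ 2) x
          * ((∑ j, pd j χ x ^ 2) * Real.exp (V x)))
        + 2 * n * δ ^ 2 * ∫ x, mol φ (fun y => (g y * wV V y) ^ 2) x
          * (χ x ^ 2 * Real.exp (V x)) := by
  obtain ⟨hw, hw2⟩ := local_int hV hgm hg2
  set w := fun y => g y * wV V y with hwd
  set w2 := fun y => w y ^ 2 with hw2d
  have hE : ContDiff ℝ ∞ fun x => Real.exp (V x) := Real.contDiff_exp.comp hV
  have hWE : ∀ x, wV V x * Real.exp (V x) = 1 := fun x => by
    rw [wV, ← Real.exp_add]; simp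
  set η := fun x => (∑ j, pd j χ x ^ 2) * Real.exp (V x) with hη
  set ζ := fun x => χ x ^ 2 * Real.exp (V x) with hζ
  have hηc : Continuous η := by
    have : ∀ j, Continuous (pd j χ) := fun j => (contDiff_pd hχ j).continuous
    have := hE.continuous
    rw [hη]; fun_prop
  have hηs : HasCompactSupport η := by
    refine HasCompactSupport.intro hχs.isCompact fun x hx => ?_
    have : ∀ j, pd j χ x = 0 := fun j => image_eq_zero_of_notMem_tsupport fun hj =>
      hx (tsupport_fderiv_apply_subset ℝ (bas j) hj)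
    simp [hη, this]
  have hζc : Continuous ζ := by have := hE.continuous; have := hχ.continuous; rw [hζ]; fun_prop
  have hζs : HasCompactSupport ζ :=
    HasCompactSupport.intro hχs.isCompact fun x hx => by
      simp [hζ, image_eq_zero_of_notMem_tsupport hx]
  -- the energy
  have hMw : ContDiff ℝ ∞ (mol φ w) := contDiff_mol φ hw
  have hMw2 : ContDiff ℝ ∞ (mol φ w2) := contDiff_mol φ hw2
  set G := fun x => mol φ w x * Real.exp (V x) with hG
  have hGd : ContDiff ℝ ∞ G := hMw.mul hE
  have hGs : ∀ j x, pd j G x * wV V x = pd j (mol φ w) x + mol φ w x * pd j V x := fun j x => by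
    rw [hG, pd_mul hMw hE, pd_exp_V hV]
    linear_combination (pd j (mol φ w) x + mol φ w x * pd j V x) * hWE x
  set R := fun j x => mol φ (fun y => w y * pd j V y) x - pd j V x * mol φ w x with hR
  have hχ2 : ContDiff ℝ ∞ fun x => χ x * χ x := hχ.mul hχ
  have hp : ContDiff ℝ ∞ fun x => χ x * χ x * G x := hχ2.mul hGd
  have hps : HasCompactSupport fun x => χ x * χ x * G x :=
    HasCompactSupport.mul_right (HasCompactSupport.mul_right hχs)
  have h0 := weak_eq hV hw horth φ hp hps
  have hterm : ∀ j x, (pd j (mol φ w) x + mol φ (fun y => w y * pd j V y) x)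
      * pd j (fun x => χ x * χ x * G x) x
      = (wV V x * pd j G x + R j x) * (2 * χ x * pd j χ x * G x + χ x ^ 2 * pd j G x) := by
    intro j x
    rw [pd_mul hχ2 hGd, pd_mul hχ hχ, hR, mul_comm (wV V x) (pd j G x), hGs]
    ring
  have hwV : ∀ j, LocallyIntegrable (fun y => w y * pd j V y) volume := fun j => by
    rw [← locallyIntegrableOn_univ]
    exact (locallyIntegrableOn_univ.2 hw).mul_continuousOn (contDiff_pd hV j).continuous.continuousOn
      isOpen_univ.isLocallyClosed
  have hRb : ∀ j x, χ x ^ 2 * (R j x ^ 2 / wV V x) ≤ δ ^ 2 * (ζ x * mol φ w2 x) := by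
    intro j x
    by_cases hx : χ x = 0
    · simp [hx, hζ]
    have hxK : x ∈ tsupport χ := subset_tsupport _ hx
    have hb := mol_comm_le φ hw (contDiff_pd hV j).continuous x (δ := δ) (hRV x hxK j)
    have hsq := mol_sq_le φ (f := fun y => |w y|) (fun z => (hw z).norm)
      (by simpa only [sq_abs] using hw2) x
    simp only [sq_abs] at hsq
    have hR2 : R j x ^ 2 ≤ δ ^ 2 * mol φ w2 x := by
      rw [← sq_abs, hw2d]
      calc |R j x| ^ 2 ≤ (δ * mol φ (fun y => |w y|) x) ^ 2 :=
            pow_le_pow_left₀ (abs_nonneg _) (by rw [hR]; exact hb) 2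
        _ ≤ _ := by rw [mul_pow]; exact mul_le_mul_of_nonneg_left hsq (sq_nonneg _)
    calc χ x ^ 2 * (R j x ^ 2 / wV V x) = χ x ^ 2 * Real.exp (V x) * R j x ^ 2 := by
          rw [div_eq_mul_inv, inv_eq_of_mul_eq_one_right (hWE x)]
          ring
      _ ≤ χ x ^ 2 * Real.exp (V x) * (δ ^ 2 * mol φ w2 x) :=
          mul_le_mul_of_nonneg_left hR2 (by positivity)
      _ = _ := by simp only [hζ]; ring
  have hGb : ∀ x, G x ^ 2 * wV V x ≤ Real.exp (V x) * mol φ w2 x := by
    intro x
    have h1 := mol_sq_le φ hw hw2 x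
    calc G x ^ 2 * wV V x = mol φ w x ^ 2 * Real.exp (V x) := by
          simp only [hG]; linear_combination (mol φ w x ^ 2 * Real.exp (V x)) * hWE x
      _ ≤ _ := by rw [mul_comm]; exact mul_le_mul_of_nonneg_left h1 (Real.exp_pos _).le
  have hpw : ∀ x, (∑ j, χ x ^ 2 * pd j G x ^ 2 * wV V x / 2)
      ≤ (∑ j, (pd j (mol φ w) x + mol φ (fun y => w y * pd j V y) x)
          * pd j (fun x => χ x * χ x * G x) x)
        + 5 * (mol φ w2 x * η x) + 2 * n * δ ^ 2 * (mol φ w2 x * ζ x) := by
    intro x
    have e5 : ∑ j, pd j χ x ^ 2 * (G x ^ 2 * wV V x) ≤ mol φ w2 x * η x := by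
      rw [← Finset.sum_mul]
      calc _ ≤ (∑ j, pd j χ x ^ 2) * (Real.exp (V x) * mol φ w2 x) :=
            mul_le_mul_of_nonneg_left (hGb x) (Finset.sum_nonneg fun j _ => sq_nonneg _)
        _ = _ := by simp only [hη]; ring
    have e6 : ∑ j : Fin n, χ x ^ 2 * (R j x ^ 2 / wV V x) ≤ n * δ ^ 2 * (mol φ w2 x * ζ x) := by
      calc _ ≤ ∑ _j : Fin n, δ ^ 2 * (ζ x * mol φ w2 x) := Finset.sum_le_sum fun j _ => hRb j x
        _ = _ := by simp; ring
    simp only [hterm]
    have e7 := Finset.sum_le_sum fun j (_ : j ∈ Finset.univ) =>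
      energy_pointwise (a := pd j G x) (R := R j x) (c := χ x) (d := pd j χ x) (b := G x) (wV_pos V x)
    simp only [Finset.sum_sub_distrib, ← Finset.mul_sum] at e7
    have e5' : ∑ j, pd j χ x ^ 2 * G x ^ 2 * wV V x ≤ mol φ w2 x * η x :=
      (le_of_eq (Finset.sum_congr rfl fun j _ => mul_assoc _ _ _)).trans e5
    have e6' : ∑ j : Fin n, χ x ^ 2 * R j x ^ 2 / wV V x ≤ n * δ ^ 2 * (mol φ w2 x * ζ x) :=
      (le_of_eq (Finset.sum_congr rfl fun j _ => mul_div_assoc _ _ _)).trans e6
    linarith
  have hc1 : ∀ j, Continuous (pd j G) := fun j => (contDiff_pd hGd j).continuous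
  have iL : ∀ j, Integrable fun x => χ x ^ 2 * pd j G x ^ 2 * wV V x / 2 := fun j => by
    refine Continuous.integrable_of_hasCompactSupport ?_ (HasCompactSupport.intro hχs.isCompact
      fun x hx => by simp [image_eq_zero_of_notMem_tsupport hx])
    have := hc1 j; have := hχ.continuous; have := (contDiff_wV hV).continuous; fun_prop
  have iT : ∀ j, Integrable fun x => (pd j (mol φ w) x + mol φ (fun y => w y * pd j V y) x)
      * pd j (fun x => χ x * χ x * G x) x := fun j =>
    (((contDiff_pd hMw j).continuous.add (contDiff_mol φ (hwV j)).continuous).mul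
      (contDiff_pd hp j).continuous).integrable_of_hasCompactSupport
      (hasCompactSupport_pd hps j).mul_left
  have iA : Integrable fun x => mol φ w2 x * η x :=
    (hMw2.continuous.mul hηc).integrable_of_hasCompactSupport hηs.mul_left
  have iB : Integrable fun x => mol φ w2 x * ζ x :=
    (hMw2.continuous.mul hζc).integrable_of_hasCompactSupport hζs.mul_left
  have hen : ∑ j, ∫ x, χ x ^ 2 * pd j G x ^ 2 * wV V x / 2
      ≤ 5 * (∫ x, mol φ w2 x * η x) + 2 * n * δ ^ 2 * ∫ x, mol φ w2 x * ζ x := by
    rw [← integral_finsetSum _ fun j _ => iL j]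
    refine (integral_mono (integrable_finsetSum _ fun j _ => iL j)
      (((integrable_finsetSum _ fun j _ => iT j).add (iA.const_mul 5)).add
        (iB.const_mul _)) hpw).trans (le_of_eq ?_)
    simp only [Pi.add_apply]
    rw [integral_add, integral_add, integral_finsetSum _ fun j _ => iT j, h0, zero_add,
      integral_const_mul, integral_const_mul]
    exacts [integrable_finsetSum _ fun j _ => iT j, iA.const_mul 5,
      (integrable_finsetSum _ fun j _ => iT j).add (iA.const_mul 5), iB.const_mul _]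
  exact (Finset.single_le_sum (f := fun j => ∫ x, χ x ^ 2 * pd j G x ^ 2 * wV V x / 2)
    (fun j _ => integral_nonneg fun x => by have := wV_pos V x; positivity)
    (Finset.mem_univ i)).trans hen

/-- The derivative pairing is bounded by the square mass seen by the cut-off. -/
lemma pairing_le {ψ χ : Euc n → ℝ} (hψ : ContDiff ℝ ∞ ψ) (hψs : HasCompactSupport ψ)
    (hχ : ContDiff ℝ ∞ χ) (hχs : HasCompactSupport χ) (hχψ : ∀ x ∈ tsupport ψ, χ x = 1)
    (i : Fin n) {l : ℝ} (hl : 0 < l) :
    |∫ x, g x * pd i ψ x| ≤ 5 * l * (∫ x, (∑ j, pd j χ x ^ 2) * (g x ^ 2 * wV V x))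
      + 1 / (2 * l) * ∫ x, ψ x ^ 2 * Real.exp (V x) := by
  obtain ⟨hw, hw2⟩ := local_int hV hgm hg2
  set w := fun y => g y * wV V y with hwd
  have hE : ContDiff ℝ ∞ fun x => Real.exp (V x) := Real.contDiff_exp.comp hV
  have hWE : ∀ x, wV V x * Real.exp (V x) = 1 := fun x => by
    rw [wV, ← Real.exp_add]; simp
  set η := fun x => (∑ j, pd j χ x ^ 2) * Real.exp (V x) with hη
  set ζ := fun x => χ x ^ 2 * Real.exp (V x) with hζ
  set κ := fun x => pd i ψ x * Real.exp (V x) with hκ
  have hηc : Continuous η := by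
    have : ∀ j, Continuous (pd j χ) := fun j => (contDiff_pd hχ j).continuous
    have := hE.continuous
    rw [hη]; fun_prop
  have hηs : HasCompactSupport η := by
    refine HasCompactSupport.intro hχs.isCompact fun x hx => ?_
    have : ∀ j, pd j χ x = 0 := fun j => image_eq_zero_of_notMem_tsupport fun hj =>
      hx (tsupport_fderiv_apply_subset ℝ (bas j) hj)
    simp [hη, this]
  have hζc : Continuous ζ := by have := hE.continuous; have := hχ.continuous; rw [hζ]; fun_prop
  have hζs : HasCompactSupport ζ :=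
    HasCompactSupport.intro hχs.isCompact fun x hx => by
      simp [hζ, image_eq_zero_of_notMem_tsupport hx]
  have hκc : Continuous κ := (contDiff_pd hψ i).continuous.mul hE.continuous
  have hκs : HasCompactSupport κ := (hasCompactSupport_pd hψs i).mul_right
  set K1 := Metric.cthickening 1 (tsupport χ ∪ tsupport ψ) with hK1
  have hK1c : IsCompact K1 := (hχs.isCompact.union hψs.isCompact).cthickening
  set IK := ∫ x, K1.indicator (fun x => (g x * wV V x) ^ 2 + |g x * wV V x|) x with hIK
  have iK : Integrable (K1.indicator fun x => (g x * wV V x) ^ 2 + |g x * wV V x|) := by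
    refine IntegrableOn.integrable_indicator ?_ hK1c.measurableSet
    exact (hw2.integrableOn_isCompact hK1c).add (hw.integrableOn_isCompact hK1c).norm
  have hIK0 : 0 ≤ IK := integral_nonneg fun x => indicator_nonneg (fun y _ => by positivity) x
  have iη : Integrable fun x => (∑ j, pd j χ x ^ 2) * (g x ^ 2 * wV V x) := by
    have hc : Continuous fun x => ∑ j, pd j χ x ^ 2 := by
      have : ∀ j, Continuous (pd j χ) := fun j => (contDiff_pd hχ j).continuous
      fun_prop
    refine (hg2.locallyIntegrable.integrable_smul_right_of_hasCompactSupport hc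
      (HasCompactSupport.intro hχs.isCompact fun x hx => ?_)).congr
      (Eventually.of_forall fun x => by simp [mul_comm])
    exact Finset.sum_eq_zero fun j _ => by
      rw [show pd j χ x = 0 from image_eq_zero_of_notMem_tsupport fun hj =>
        hx (tsupport_fderiv_apply_subset ℝ (bas j) hj)]
      simp
  set Z0 := ∫ x, K1.indicator (fun x => ζ x * (g x * wV V x) ^ 2) x with hZ0
  set A0 := IK * (1 + 5 * l) + 2 * l * n * |Z0| + 2 * l * n * IK with hA0
  refine le_of_forall_pos_le_add fun δ' hδ' => ?_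
  set δ := min 1 (δ' / (A0 + 1)) with hδdef
  have hA00 : 0 ≤ A0 := by rw [hA0]; positivity
  have hδ0 : 0 < δ := lt_min one_pos (by positivity)
  have hδA : δ * A0 ≤ δ' := by
    calc δ * A0 ≤ δ' / (A0 + 1) * A0 := mul_le_mul_of_nonneg_right (min_le_right _ _) hA00
      _ ≤ δ' := by
        rw [div_mul_eq_mul_div, div_le_iff₀ (by positivity)]; nlinarith
  obtain ⟨r1, hr1, hu1⟩ := Metric.uniformContinuous_iff.1
    (hηs.uniformContinuous_of_continuous hηc) δ hδ0
  obtain ⟨r2, hr2, hu2⟩ := Metric.uniformContinuous_iff.1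
    (hζs.uniformContinuous_of_continuous hζc) δ hδ0
  obtain ⟨r3, hr3, hu3⟩ := Metric.uniformContinuous_iff.1
    (hκs.uniformContinuous_of_continuous hκc) δ hδ0
  have hVc : Continuous fun x (j : Fin n) => pd j V x :=
    continuous_pi fun j => (contDiff_pd hV j).continuous
  obtain ⟨r4, hr4, hu4⟩ := Metric.uniformContinuousOn_iff.1
    (hK1c.uniformContinuousOn_of_continuous hVc.continuousOn) δ hδ0
  set r := min (min r1 r2) (min (min r3 r4) 1) with hr
  have hr0 : 0 < r := lt_min (lt_min hr1 hr2) (lt_min (lt_min hr3 hr4) one_pos)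
  let φ : ContDiffBump (0 : Euc n) := ⟨r / 2, r, half_pos hr0, half_lt_self hr0⟩
  have hφ : φ.rOut = r := rfl
  have hrle : r ≤ r1 ∧ r ≤ r2 ∧ r ≤ r3 ∧ r ≤ r4 ∧ r ≤ 1 := by
    refine ⟨?_, ?_, ?_, ?_, ?_⟩ <;> simp [hr]
  have memK : ∀ x y, dist x y ≤ 1 → y ∈ tsupport χ ∪ tsupport ψ → x ∈ K1 := fun x y hxy hy =>
    Metric.mem_cthickening_of_dist_le x y 1 _ hy hxy
  -- closeness of the three test functions
  have close : ∀ h : Euc n → ℝ, Continuous h →
      (∀ x y, dist x y < r → |h y - h x| ≤ δ) →
      (∀ y, h y ≠ 0 → y ∈ tsupport χ ∪ tsupport ψ) →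
      ∀ x, |mol φ h x - h x| ≤ K1.indicator (fun _ => δ) x := fun h hh hd hs x =>
    mol_close_on φ hh hd (fun x y hxy hne => memK x y (hxy.le.trans (hφ ▸ hrle.2.2.2.2)) (hs y hne))
      (fun x hne => memK x x (by simp) (hs x hne)) x
  have cη := close η hηc (fun x y hxy => by
      simpa [Real.dist_eq, abs_sub_comm] using (hu1 (hxy.trans_le hrle.1)).le)
    (fun y hy => Or.inl (by
      by_contra hn
      refine hy ?_
      simp only [hη]
      rw [Finset.sum_eq_zero fun j _ => by
        rw [show pd j χ y = 0 from image_eq_zero_of_notMem_tsupport fun hj =>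
          hn (tsupport_fderiv_apply_subset ℝ (bas j) hj)]
        simp, zero_mul]))
  have cζ := close ζ hζc (fun x y hxy => by
      simpa [Real.dist_eq, abs_sub_comm] using (hu2 (hxy.trans_le hrle.2.1)).le)
    (fun y hy => Or.inl (by
      by_contra hn
      exact hy (by simp [hζ, image_eq_zero_of_notMem_tsupport hn])))
  have cκ := close κ hκc (fun x y hxy => by
      simpa [Real.dist_eq, abs_sub_comm] using (hu3 (hxy.trans_le hrle.2.2.1)).le)
    (fun y hy => Or.inr (by
      by_contra hn
      refine hy ?_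
      simp [hκ, show pd i ψ y = 0 from image_eq_zero_of_notMem_tsupport fun hj =>
        hn (tsupport_fderiv_apply_subset ℝ (bas i) hj)]))
  -- transfer of integrals against the mollified weight
  set w2 := fun y => w y ^ 2 with hw2d
  have le1 : ∫ x, K1.indicator (fun x => |w2 x|) x ≤ IK := by
    refine integral_mono (IntegrableOn.integrable_indicator
      (hw2.integrableOn_isCompact hK1c).abs hK1c.measurableSet) iK fun x => ?_
    refine indicator_le_indicator ?_
    simp only [hw2d, hwd, abs_pow, sq_abs]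
    exact le_add_of_nonneg_right (abs_nonneg _)
  have le2 : ∫ x, K1.indicator (fun x => |w x|) x ≤ IK := by
    refine integral_mono (IntegrableOn.integrable_indicator
      (hw.integrableOn_isCompact hK1c).abs hK1c.measurableSet) iK fun x => ?_
    exact indicator_le_indicator (le_add_of_nonneg_left (sq_nonneg _))
  have trη : |(∫ x, mol φ w2 x * η x) - ∫ x, w2 x * η x| ≤ δ * IK :=
    (transfer φ hw2 hηc hηs hK1c.measurableSet (hw2.integrableOn_isCompact hK1c) cη).trans
      (mul_le_mul_of_nonneg_left le1 hδ0.le)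
  have trζ : |(∫ x, mol φ w2 x * ζ x) - ∫ x, w2 x * ζ x| ≤ δ * IK :=
    (transfer φ hw2 hζc hζs hK1c.measurableSet (hw2.integrableOn_isCompact hK1c) cζ).trans
      (mul_le_mul_of_nonneg_left le1 hδ0.le)
  have trκ : |(∫ x, mol φ w x * κ x) - ∫ x, w x * κ x| ≤ δ * IK :=
    (transfer φ hw hκc hκs hK1c.measurableSet (hw.integrableOn_isCompact hK1c) cκ).trans
      (mul_le_mul_of_nonneg_left le2 hδ0.le)
  have hRV : ∀ x ∈ tsupport χ, ∀ j, ∀ y, dist x y < φ.rOut → |pd j V y - pd j V x| ≤ δ := by
    intro x hxK j y hy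
    have h1 := hu4 x (memK x x (by simp) (Or.inl hxK)) y
      (memK y x (by rw [dist_comm]; exact hy.le.trans (hφ ▸ hrle.2.2.2.2)) (Or.inl hxK))
      (hy.trans_le (hφ ▸ hrle.2.2.2.1))
    have h2 := (dist_pi_lt_iff hδ0).1 h1 j
    rw [Real.dist_eq, abs_sub_comm] at h2
    exact h2.le
  have hen : ∫ x, χ x ^ 2 * pd i (fun x => mol φ w x * Real.exp (V x)) x ^ 2 * wV V x / 2
      ≤ 5 * (∫ x, mol φ w2 x * η x) + 2 * n * δ ^ 2 * ∫ x, mol φ w2 x * ζ x :=
    energy_le hV hgm hg2 horth φ hχ hχs hRV i
  have hMw : ContDiff ℝ ∞ (mol φ w) := contDiff_mol φ hw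
  set G := fun x => mol φ w x * Real.exp (V x) with hG
  have hpair : |∫ x, mol φ w x * κ x| ≤ l * (∫ x, χ x ^ 2 * pd i G x ^ 2 * wV V x / 2)
      + 1 / (2 * l) * ∫ x, ψ x ^ 2 * Real.exp (V x) :=
    pair_le hV hMw hψ hψs hχ hχs hχψ i hl
  have hgi : ∫ x, g x * pd i ψ x = ∫ x, w x * κ x :=
    integral_congr_ae (Eventually.of_forall fun x => by
      simp only [hκ, hwd]; linear_combination (-(g x * pd i ψ x)) * hWE x)
  have hw2η : ∫ x, w2 x * η x = ∫ x, (∑ j, pd j χ x ^ 2) * (g x ^ 2 * wV V x) :=
    integral_congr_ae (Eventually.of_forall fun x => by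
      simp only [hw2d, hwd, hη]
      linear_combination ((∑ j, pd j χ x ^ 2) * (g x ^ 2 * wV V x)) * hWE x)
  have hw2ζ : ∫ x, w2 x * ζ x = Z0 := by
    rw [hZ0]
    refine integral_congr_ae (Eventually.of_forall fun x => ?_)
    by_cases hx : x ∈ K1
    · rw [indicator_of_mem hx, mul_comm]
    · rw [indicator_of_notMem hx]
      have : x ∉ tsupport χ := fun h => hx (memK x x (by simp) (Or.inl h))
      simp [hζ, image_eq_zero_of_notMem_tsupport this]
  rw [hgi]
  have k1 := (abs_le.1 trη).2
  have k2 := (abs_le.1 trζ).2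
  have k3 := trκ
  rw [hw2η] at k1
  rw [hw2ζ] at k2
  have k4 : |∫ x, w x * κ x| ≤ |∫ x, mol φ w x * κ x| + δ * IK := by
    rw [abs_sub_comm] at k3
    have := abs_sub_abs_le_abs_sub (∫ x, w x * κ x) (∫ x, mol φ w x * κ x)
    linarith
  have k5 : 2 * (n : ℝ) * δ ^ 2 * ∫ x, mol φ w2 x * ζ x ≤ δ * (2 * n * |Z0| + 2 * n * IK) := by
    have hδ1 : δ ≤ 1 := min_le_left _ _
    have h1 : δ ^ 2 ≤ δ := by rw [sq]; exact mul_le_of_le_one_left hδ0.le hδ1
    have h2 : ∫ x, mol φ w2 x * ζ x ≤ |Z0| + IK := by
      have := mul_le_of_le_one_left hIK0 hδ1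
      have := le_abs_self Z0
      linarith
    calc 2 * (n : ℝ) * δ ^ 2 * ∫ x, mol φ w2 x * ζ x
        ≤ 2 * n * δ ^ 2 * (|Z0| + IK) := mul_le_mul_of_nonneg_left h2 (by positivity)
      _ ≤ 2 * n * δ * (|Z0| + IK) :=
          mul_le_mul_of_nonneg_right (mul_le_mul_of_nonneg_left h1 (by positivity)) (by positivity)
      _ = _ := by ring
  have k6 := mul_le_mul_of_nonneg_left hen hl.le
  have k7 := mul_le_mul_of_nonneg_left k5 hl.le
  have k8 := mul_le_mul_of_nonneg_left k1 (by positivity : (0:ℝ) ≤ 5 * l)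
  have k9 : δ * A0 = δ * IK + 5 * l * (δ * IK) + l * (δ * (2 * n * |Z0| + 2 * n * IK)) := by
    rw [hA0]; ring
  linarith

/-- Orthogonality to the range forces constancy. -/
theorem const_of_orth : ∃ c : ℝ, ∀ᵐ x, g x = c := by
  obtain ⟨hw, -⟩ := local_int hV hgm hg2
  have hgl : LocallyIntegrable g volume := by
    rw [← locallyIntegrableOn_univ]
    refine ((locallyIntegrableOn_univ.2 hw).mul_continuousOn
      (Real.continuous_exp.comp hV.continuous).continuousOn isOpen_univ.isLocallyClosed).congr ?_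
    refine Eventually.of_forall fun x => ?_
    simp [wV, mul_assoc, ← Real.exp_add]
  let b : ContDiffBump (0 : Euc n) := ⟨1, 2, one_pos, one_lt_two⟩
  have hb : ContDiff ℝ ∞ (b : Euc n → ℝ) := b.contDiff
  -- the bound on the derivatives of the fixed cut-off
  have hcont : Continuous fun x => ∑ j, pd j b x ^ 2 := by
    have : ∀ j, Continuous (pd j b) := fun j => (contDiff_pd hb j).continuous
    fun_prop
  obtain ⟨Kb, hKb⟩ := hcont.bounded_above_of_compact_support
    (HasCompactSupport.intro b.hasCompactSupport.isCompact fun x hx => Finset.sum_eq_zero fun j _ =>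
      by rw [show pd j b x = 0 from image_eq_zero_of_notMem_tsupport fun hj =>
          hx (tsupport_fderiv_apply_subset ℝ (bas j) hj)]; simp)
  set G0 := ∫ x, g x ^ 2 * wV V x with hG0
  have hzero : ∀ ψ : Euc n → ℝ, ContDiff ℝ ∞ ψ → HasCompactSupport ψ → ∀ i,
      ∫ x, g x * pd i ψ x = 0 := by
    intro ψ hψ hψs i
    rw [← abs_eq_zero]
    refine le_antisymm (le_of_forall_pos_le_add fun ε hε => ?_) (abs_nonneg _)
    set C := ∫ x, ψ x ^ 2 * Real.exp (V x) with hC
    set l := (|C| + 1) / ε with hl
    have hl0 : 0 < l := by positivity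
    obtain ⟨R0, hR0⟩ := hψs.isCompact.isBounded.subset_closedBall (0 : Euc n)
    set R := max (max R0 1) (10 * l * (Kb * |G0| + 1) / ε) with hR
    have hR1 : 1 ≤ R := (le_max_right _ _).trans (le_max_left _ _)
    have hRp : 0 < R := one_pos.trans_le hR1
    set χ := fun x : Euc n => b (R⁻¹ • x) with hχ
    have hχd : ContDiff ℝ ∞ χ := hb.comp (contDiff_id.const_smul R⁻¹)
    have hχs : HasCompactSupport χ :=
      b.hasCompactSupport.comp_smul (inv_ne_zero hRp.ne')
    have hpd : ∀ j x, pd j χ x = R⁻¹ * pd j b (R⁻¹ • x) := fun j x => by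
      have h := (differentiable_of hb (R⁻¹ • x)).hasFDerivAt.comp x
        ((hasFDerivAt_id x).const_smul R⁻¹)
      simp only [pd]
      rw [show χ = (b : Euc n → ℝ) ∘ fun x => R⁻¹ • x from rfl]
      erw [h.fderiv]
      simp
    have hχψ : ∀ x ∈ tsupport ψ, χ x = 1 := fun x hx => by
      refine b.one_of_mem_closedBall ?_
      have : ‖x‖ ≤ R := by
        have := hR0 hx
        rw [Metric.mem_closedBall, dist_zero_right] at this
        exact this.trans ((le_max_left _ _).trans (le_max_left _ _))
      rw [Metric.mem_closedBall, dist_zero_right, norm_smul, norm_inv, Real.norm_eq_abs,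
        abs_of_pos hRp, inv_mul_le_iff₀ hRp]
      simpa [b] using this
    refine (pairing_le hV hgm hg2 horth hψ hψs hχd hχs hχψ i hl0).trans ?_
    rw [zero_add]
    have hsum : ∫ x, (∑ j, pd j χ x ^ 2) * (g x ^ 2 * wV V x) ≤ Kb / R ^ 2 * G0 := by
      rw [hG0, ← integral_const_mul]
      refine integral_mono_of_nonneg (Eventually.of_forall fun x => ?_) (hg2.const_mul _)
        (Eventually.of_forall fun x => ?_)
      · have := wV_pos V x
        show 0 ≤ _
        exact mul_nonneg (Finset.sum_nonneg fun j _ => sq_nonneg _) (by positivity)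
      · refine mul_le_mul_of_nonneg_right ?_ (mul_nonneg (sq_nonneg _) (wV_pos V x).le)
        simp only [hpd, mul_pow, ← Finset.mul_sum]
        rw [inv_pow, inv_mul_le_iff₀ (by positivity), mul_div_cancel₀ _ (by positivity)]
        exact (le_abs_self _).trans (hKb _)
    have hKb0 : 0 ≤ Kb := (norm_nonneg _).trans (hKb 0)
    have hG00 : 0 ≤ G0 := integral_nonneg fun x => mul_nonneg (sq_nonneg _) (wV_pos V x).le
    have h1 : 5 * l * (Kb / R ^ 2 * G0) ≤ ε / 2 := by
      have h2 : 10 * l * (Kb * |G0| + 1) ≤ ε * R := by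
        rw [← div_le_iff₀' hε]; exact le_max_right _ _
      rw [abs_of_nonneg hG00] at h2
      rw [show 5 * l * (Kb / R ^ 2 * G0) = 5 * l * Kb * G0 / R ^ 2 by ring,
        div_le_iff₀ (by positivity)]
      have h3 : ε * R ≤ ε * R ^ 2 := mul_le_mul_of_nonneg_left (by nlinarith) hε.le
      nlinarith
    have h4 : 1 / (2 * l) * C ≤ ε / 2 := by
      rw [hl]
      field_simp
      nlinarith [le_abs_self C]
    have h5 := mul_le_mul_of_nonneg_left hsum (by positivity : (0:ℝ) ≤ 5 * l)
    rw [hC] at h4
    linarith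
  -- mollifications are constant
  have hconst : ∀ φ : ContDiffBump (0 : Euc n), ∀ x, mol φ g x = mol φ g 0 := by
    intro φ
    have hMg : ContDiff ℝ ∞ (mol φ g) := contDiff_mol φ hgl
    refine fun x => is_const_of_fderiv_eq_zero (differentiable_of hMg) (fun y => ?_) x 0
    have hi : ∀ i, pd i (mol φ g) y = 0 := by
      intro i
      by_contra hne
      let c : ContDiffBump y := ⟨1, 2, one_pos, one_lt_two⟩
      set q := fun z => c z * pd i (mol φ g) z
      have hq : ContDiff ℝ ∞ q := c.contDiff.mul (contDiff_pd hMg i)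
      have hqs : HasCompactSupport q := c.hasCompactSupport.mul_right
      have h1 : ∫ z, g z * pd i (mol φ q) z = 0 :=
        hzero _ (contDiff_mol φ hq.continuous.locallyIntegrable) (hasCompactSupport_mol φ hqs) i
      rw [pd_mol φ hq hqs, mol_adjoint φ hgl (contDiff_pd hq i).continuous
        (hasCompactSupport_pd hqs i)] at h1
      have h2 : ∫ z, pd i (mol φ g) z * q z = 0 := by
        have := ibp hq hMg hqs i
        have c1 : ∫ z, pd i q z * mol φ g z = ∫ z, mol φ g z * pd i q z :=
          integral_congr_ae (Eventually.of_forall fun z => mul_comm _ _)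
        have c2 : ∫ z, pd i (mol φ g) z * q z = ∫ z, q z * pd i (mol φ g) z :=
          integral_congr_ae (Eventually.of_forall fun z => mul_comm _ _)
        linarith
      have hcq : Continuous fun z => pd i (mol φ g) z * q z :=
        (contDiff_pd hMg i).continuous.mul hq.continuous
      have hnn : ∀ z, 0 ≤ pd i (mol φ g) z * q z := fun z => by
        have := mul_nonneg (c.nonneg : 0 ≤ c z) (sq_nonneg (pd i (mol φ g) z))
        simp only [q]; linarith [this, sq (pd i (mol φ g) z),
          show pd i (mol φ g) z * (c z * pd i (mol φ g) z) = c z * pd i (mol φ g) z ^ 2 by ring]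
      have h3 := hcq.integral_pos_of_hasCompactSupport_nonneg_nonzero (μ := volume) (x := y)
        hqs.mul_left hnn (by
          simp only [q]
          rw [c.one_of_mem_closedBall (Metric.mem_closedBall_self zero_le_one), one_mul]
          exact mul_ne_zero hne hne)
      linarith
    refine ContinuousLinearMap.coe_injective ((EuclideanSpace.basisFun (Fin n) ℝ).toBasis.ext
      fun i => ?_)
    have := hi i
    simpa [pd, bas] using this
  let φ : ℕ → ContDiffBump (0 : Euc n) := fun k =>
    ⟨1 / (2 * ((k : ℝ) + 1)), 1 / ((k : ℝ) + 1), by positivity,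
      one_div_lt_one_div_of_lt (by positivity) (by linarith [(k.cast_nonneg : (0:ℝ) ≤ k)])⟩
  have hlim := ContDiffBump.ae_convolution_tendsto_right_of_locallyIntegrable (μ := volume)
    (φ := φ) (l := atTop) (K := 2) (g := g) (tendsto_one_div_add_atTop_nhds_zero_nat)
    (Eventually.of_forall fun k => le_of_eq (by
      show 1 / ((k : ℝ) + 1) = 2 * (1 / (2 * ((k : ℝ) + 1)))
      field_simp)) hgl
  obtain ⟨x0, hx0⟩ := hlim.exists
  refine ⟨g x0, ?_⟩
  filter_upwards [hlim] with x hx
  simp only [← mol_eq] at hx hx0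
  refine tendsto_nhds_unique hx (hx0.congr fun k => ?_)
  rw [hconst (φ k) x0, hconst (φ k) x]

end Vale.Agent.P245.Sub
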