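import Mathlib
import Vale.Agent.P245.Sub.Dense

/-!
A Poincaré inequality for uniformly convex potentials with small linear second moments.

If `D²V ≥ t` and `∫ ⟪x, e⟫² exp (-V) ≤ S` for every unit vector `e`, the Poincaré constant of the
probability measure `exp (-V)` is at most `√(S / t)`.
-/

open MeasureTheory Filter Set
open scoped ContDiff RealInnerProductSpace Topology ENNReal

namespace Vale.Agent.P245.Sub

variable {n : ℕ} {V : Euc n → ℝ}

/-- The probability measure with density `exp (-V)`. -/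
noncomputable def muW (V : Euc n → ℝ) : Measure (Euc n) :=
  volume.withDensity fun x => ENNReal.ofReal (wV V x)

lemma integral_muW (hV : ContDiff ℝ ∞ V) (f : Euc n → ℝ) :
    ∫ x, f x ∂(muW V) = ∫ x, f x * wV V x := by
  rw [muW, integral_withDensity_eq_integral_toReal_smul
    (contDiff_wV hV).continuous.measurable.ennreal_ofReal
    (Eventually.of_forall fun x => ENNReal.ofReal_lt_top)]
  exact integral_congr_ae (Eventually.of_forall fun x => by
    simp only [smul_eq_mul, ENNReal.toReal_ofReal (wV_pos V x).le]; ring)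

lemma integrable_muW (hV : ContDiff ℝ ∞ V) {f : Euc n → ℝ} :
    Integrable f (muW V) ↔ Integrable fun x => f x * wV V x := by
  rw [muW, integrable_withDensity_iff_integrable_smul'
    (contDiff_wV hV).continuous.measurable.ennreal_ofReal
    (Eventually.of_forall fun x => ENNReal.ofReal_lt_top)]
  refine integrable_congr (Eventually.of_forall fun x => ?_)
  simp only [smul_eq_mul, ENNReal.toReal_ofReal (wV_pos V x).le]; ring

lemma muW_ac (hV : ContDiff ℝ ∞ V) : (volume : Measure (Euc n)) ≪ muW V :=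
  withDensity_absolutelyContinuous' (contDiff_wV hV).continuous.measurable.ennreal_ofReal.aemeasurable
    (Eventually.of_forall fun x => (ENNReal.ofReal_pos.2 (wV_pos V x)).ne')

lemma isProbability_muW (hI : ∫ x, wV V x = 1) : IsProbabilityMeasure (muW V) := by
  have hint : Integrable (wV V) := by
    by_contra h
    rw [integral_undef h] at hI
    exact zero_ne_one hI
  refine ⟨?_⟩
  rw [muW, withDensity_apply _ MeasurableSet.univ, Measure.restrict_univ,
    ← ofReal_integral_eq_lintegral_ofReal hint (Eventually.of_forall fun x => (wV_pos V x).le),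
    hI, ENNReal.ofReal_one]

/-- The Poincaré inequality with constant `C`, for bounded smooth functions. -/
def Poi (V : Euc n → ℝ) (C : ℝ) : Prop :=
  ∀ f : Euc n → ℝ, ContDiff ℝ ∞ f → (∀ B : ℝ, ∀ _ : ∀ x, |f x| ≤ B ∧ ∑ i, pd i f x ^ 2 ≤ B,
    (∫ x, f x ^ 2 * wV V x) - (∫ x, f x * wV V x) ^ 2
      ≤ C * ∫ x, (∑ i, pd i f x ^ 2) * wV V x)

/-- Dirichlet form bound by the square of the generator. -/
def Gam (V : Euc n → ℝ) (K : ℝ) : Prop :=
  ∀ u : Euc n → ℝ, ContDiff ℝ ∞ u → HasCompactSupport u →
    ∫ x, (∑ i, pd i u x ^ 2) * wV V x ≤ K * ∫ x, Lop V u x ^ 2 * wV V x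

lemma pd_add {f g : Euc n → ℝ} (hf : ContDiff ℝ ∞ f) (hg : ContDiff ℝ ∞ g) (i : Fin n)
    (x : Euc n) : pd i (fun y => f y + g y) x = pd i f x + pd i g x := by
  simp only [pd]
  rw [fderiv_fun_add (differentiable_of hf x) (differentiable_of hg x)]
  simp

lemma Lop_add {u v : Euc n → ℝ} (hu : ContDiff ℝ ∞ u) (hv : ContDiff ℝ ∞ v) (x : Euc n) :
    Lop V (fun y => u y + v y) x = Lop V u x + Lop V v x := by
  simp only [Lop, ← Finset.sum_add_distrib]
  refine Finset.sum_congr rfl fun i _ => ?_
  rw [show pd i (fun y => u y + v y) = fun y => pd i u y + pd i v y from funext (pd_add hu hv i),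
    pd_add (contDiff_pd hu i) (contDiff_pd hv i)]
  ring

lemma Lop_smul {u : Euc n → ℝ} (hu : ContDiff ℝ ∞ u) (c : ℝ) (x : Euc n) :
    Lop V (fun y => c * u y) x = c * Lop V u x := by
  simp only [Lop, Finset.mul_sum]
  refine Finset.sum_congr rfl fun i _ => ?_
  rw [show pd i (fun y => c * u y) = fun y => c * pd i u y from funext (pd_const_mul hu c i),
    pd_const_mul (contDiff_pd hu i)]
  ring

lemma integral_Lop (hV : ContDiff ℝ ∞ V) {u : Euc n → ℝ} (hu : ContDiff ℝ ∞ u)
    (hus : HasCompactSupport u) : ∫ x, Lop V u x * wV V x = 0 := by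
  have h := green hV hu hus (g := fun _ => (1 : ℝ)) contDiff_const
  simpa [pd] using h

/-- Mean zero bounded functions are approximated by the range of the generator. -/
lemma exists_near (hV : ContDiff ℝ ∞ V) (hI : ∫ x, wV V x = 1) {g : Euc n → ℝ}
    (hg : Continuous g) {B : ℝ} (hB : ∀ x, |g x| ≤ B) (h0 : ∫ x, g x * wV V x = 0) {ε : ℝ}
    (hε : 0 < ε) :
    ∃ u : Euc n → ℝ, ContDiff ℝ ∞ u ∧ HasCompactSupport u ∧
      ∫ x, (Lop V u x - g x) ^ 2 * wV V x < ε := by
  haveI := isProbability_muW hI
  let R : Submodule ℝ (Lp ℝ 2 (muW V)) :=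
    { carrier := {h | ∃ u : Euc n → ℝ, ContDiff ℝ ∞ u ∧ HasCompactSupport u ∧
        (h : Euc n → ℝ) =ᵐ[muW V] Lop V u}
      zero_mem' := ⟨fun _ => 0, contDiff_const, HasCompactSupport.zero, by
        filter_upwards [Lp.coeFn_zero ℝ 2 (muW V)] with x hx
        rw [hx]; simp [Lop, funext_iff, pd, show ∀ i : Fin n, pd i (fun _ : Euc n => (0 : ℝ)) = fun _ => 0 from fun i => by funext y; simp [pd]]⟩
      add_mem' := by
        rintro a b ⟨u, hu, hus, ha⟩ ⟨v, hv, hvs, hb⟩
        refine ⟨fun y => u y + v y, hu.add hv, hus.add hvs, ?_⟩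
        filter_upwards [Lp.coeFn_add a b, ha, hb] with x h1 h2 h3
        rw [h1, Pi.add_apply, h2, h3, Lop_add hu hv]
      smul_mem' := by
        rintro c a ⟨u, hu, hus, ha⟩
        refine ⟨fun y => c * u y, contDiff_const.mul hu, hus.mul_left, ?_⟩
        filter_upwards [Lp.coeFn_smul c a, ha] with x h1 h2
        rw [h1, Pi.smul_apply, h2, Lop_smul hu, smul_eq_mul] }
  have hgm : MemLp g 2 (muW V) :=
    MemLp.of_bound hg.aestronglyMeasurable B (Eventually.of_forall hB)
  set G := hgm.toLp g with hG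
  have hgG : (G : Euc n → ℝ) =ᵐ[muW V] g := hgm.coeFn_toLp
  have hmem : G ∈ R.topologicalClosure := by
    rw [← Submodule.orthogonal_orthogonal_eq_closure, Submodule.mem_orthogonal]
    intro h hh
    rw [Submodule.mem_orthogonal] at hh
    have hi2 : Integrable (fun x => (h : Euc n → ℝ) x ^ 2) (muW V) :=
      (Lp.memLp h).integrable_sq
    obtain ⟨c, hc⟩ := const_of_orth hV (g := (h : Euc n → ℝ))
      (Lp.stronglyMeasurable h).measurable ((integrable_muW hV).1 hi2) (fun u hu hus => by
        have hL : MemLp (Lop V u) 2 (muW V) :=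
          (contDiff_Lop hV hu).continuous.memLp_of_hasCompactSupport (hasCompactSupport_Lop hus)
        have h1 := hh (hL.toLp _) ⟨u, hu, hus, hL.coeFn_toLp⟩
        rw [L2.inner_def] at h1
        rw [← h1, ← integral_muW hV]
        refine integral_congr_ae ?_
        filter_upwards [hL.coeFn_toLp] with x hx
        rw [hx]; simp [mul_comm])
    rw [L2.inner_def]
    calc ∫ x, ⟪(h : Euc n → ℝ) x, (G : Euc n → ℝ) x⟫ ∂(muW V) = ∫ x, c * g x ∂(muW V) := by
          refine integral_congr_ae ?_
          have hc' : ∀ᵐ x ∂(muW V), (h : Euc n → ℝ) x = c :=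
            (withDensity_absolutelyContinuous _ _).ae_le hc
          filter_upwards [hgG, hc'] with x h1 h2
          rw [h1, h2]; simp [mul_comm]
      _ = 0 := by rw [integral_const_mul, integral_muW hV, h0, mul_zero]
  rw [← SetLike.mem_coe, Submodule.topologicalClosure_coe, Metric.mem_closure_iff] at hmem
  obtain ⟨r, ⟨u, hu, hus, hr⟩, hd⟩ := hmem (Real.sqrt ε) (Real.sqrt_pos.2 hε)
  refine ⟨u, hu, hus, ?_⟩
  have h1 : ‖G - r‖ ^ 2 < ε := by
    rw [dist_eq_norm] at hd
    calc _ < Real.sqrt ε ^ 2 := by gcongr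
      _ = ε := Real.sq_sqrt hε.le
  refine lt_of_eq_of_lt ?_ h1
  rw [← real_inner_self_eq_norm_sq, L2.inner_def, ← integral_muW hV]
  refine integral_congr_ae ?_
  filter_upwards [Lp.coeFn_sub G r, hgG, hr] with x a b d
  rw [a, Pi.sub_apply, b, d]
  simp; ring

/-- Duality: a Dirichlet bound for the generator gives the Poincaré inequality. -/
lemma poi_of_gam (hV : ContDiff ℝ ∞ V) (hI : ∫ x, wV V x = 1) {K : ℝ} (hK : 0 < K)
    (h : Gam V K) : Poi V K := by
  intro f hf B hB
  haveI := isProbability_muW hI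
  have hW : Integrable (wV V) := by
    by_contra hc
    rw [integral_undef hc] at hI
    exact zero_ne_one hI
  have bd : ∀ {F : Euc n → ℝ} {b : ℝ}, Continuous F → (∀ x, |F x| ≤ b) →
      Integrable fun x => F x * wV V x := fun {F} {b} hF hb =>
    hW.bdd_mul hF.aestronglyMeasurable (Eventually.of_forall hb)
  set m := ∫ x, f x * wV V x with hm
  have hfB : ∀ x, |f x - m| ≤ B + |m| := fun x =>
    (abs_sub _ _).trans (add_le_add (hB x).1 le_rfl)
  have hgc : Continuous fun x => f x - m := hf.continuous.sub continuous_const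
  have i1 : Integrable fun x => f x * wV V x := bd hf.continuous fun x => (hB x).1
  have h0 : ∫ x, (f x - m) * wV V x = 0 := by
    simp only [sub_mul]
    rw [integral_sub i1 (hW.const_mul m), integral_const_mul, hI, ← hm]
    ring
  have i2 : Integrable fun x => f x ^ 2 * wV V x :=
    bd (b := B ^ 2) (hf.continuous.pow 2) fun x => by
      rw [abs_pow]; exact pow_le_pow_left₀ (abs_nonneg _) (hB x).1 2
  have ig : Integrable fun x => (f x - m) ^ 2 * wV V x :=
    bd (b := (B + |m|) ^ 2) (hgc.pow 2) fun x => by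
      rw [abs_pow]; exact pow_le_pow_left₀ (abs_nonneg _) (hfB x) 2
  have hvar : ∫ x, (f x - m) ^ 2 * wV V x
      = (∫ x, f x ^ 2 * wV V x) - (∫ x, f x * wV V x) ^ 2 := by
    calc _ = ∫ x, (f x ^ 2 * wV V x - 2 * m * (f x * wV V x)) + m ^ 2 * wV V x :=
          integral_congr_ae (Eventually.of_forall fun x => by ring)
      _ = _ := by
        rw [integral_add, integral_sub, integral_const_mul, integral_const_mul, hI, ← hm]
        · ring
        exacts [i2, i1.const_mul _, i2.sub (i1.const_mul _), hW.const_mul _]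
  rw [← hvar]
  have iE : Integrable fun x => (∑ i, pd i f x ^ 2) * wV V x := by
    refine bd (b := B) (continuous_finsetSum _ fun i _ => (contDiff_pd hf i).continuous.pow 2)
      fun x => ?_
    rw [abs_of_nonneg (Finset.sum_nonneg fun i _ => sq_nonneg _)]
    exact (hB x).2
  refine le_of_forall_pos_le_add fun ε hε => ?_
  obtain ⟨u, hu, hus, hd⟩ := exists_near hV hI hgc hfB h0 hε
  have hLc := (contDiff_Lop hV hu).continuous
  have hLs := hasCompactSupport_Lop (V := V) hus
  have hWc := (contDiff_wV hV).continuous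
  have iA : Integrable fun x => Lop V u x ^ 2 * wV V x := by
    simp only [sq, mul_assoc]
    exact integrable_mul hLc (hLc.mul hWc) hLs
  have iX : Integrable fun x => Lop V u x * f x * wV V x := by
    simp only [mul_assoc]
    exact integrable_mul hLc (hf.continuous.mul hWc) hLs
  have iM : Integrable fun x => m * (Lop V u x * wV V x) := (integrable_mul hLc hWc hLs).const_mul _
  have e1 : ∫ x, (Lop V u x - (f x - m)) ^ 2 * wV V x
      = (∫ x, Lop V u x ^ 2 * wV V x) - 2 * (∫ x, Lop V u x * f x * wV V x)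
        + ∫ x, (f x - m) ^ 2 * wV V x := by
    calc _ = ∫ x, (Lop V u x ^ 2 * wV V x - 2 * (Lop V u x * f x * wV V x)
          + 2 * (m * (Lop V u x * wV V x))) + (f x - m) ^ 2 * wV V x :=
          integral_congr_ae (Eventually.of_forall fun x => by ring)
      _ = _ := by
        rw [integral_add, integral_add, integral_sub, integral_const_mul, integral_const_mul,
          integral_const_mul, integral_Lop hV hu hus]
        · ring
        exacts [iA, iX.const_mul _, iA.sub (iX.const_mul _), iM.const_mul _,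
          (iA.sub (iX.const_mul _)).add (iM.const_mul _), ig]
  have hgr := green hV hu hus hf
  have iJ : Integrable fun x => (∑ i, pd i u x ^ 2) * wV V x := by
    simp only [Finset.sum_mul, sq, mul_assoc]
    exact integrable_finsetSum _ fun i _ => integrable_mul (contDiff_pd hu i).continuous
      ((contDiff_pd hu i).continuous.mul hWc) (hasCompactSupport_pd hus i)
  have iP : Integrable fun x => (∑ i, pd i u x * pd i f x) * wV V x := by
    simp only [Finset.sum_mul, mul_assoc]
    exact integrable_finsetSum _ fun i _ => integrable_mul (contDiff_pd hu i).continuous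
      ((contDiff_pd hf i).continuous.mul hWc) (hasCompactSupport_pd hus i)
  have e2 : -(2 * ∫ x, (∑ i, pd i u x * pd i f x) * wV V x)
      ≤ (1 / K) * (∫ x, (∑ i, pd i u x ^ 2) * wV V x)
        + K * ∫ x, (∑ i, pd i f x ^ 2) * wV V x := by
    rw [← integral_const_mul, ← integral_neg, ← integral_const_mul, ← integral_const_mul,
      ← integral_add (iJ.const_mul _) (iE.const_mul _)]
    refine integral_mono (iP.const_mul _).neg ((iJ.const_mul _).add (iE.const_mul _)) fun x => ?_
    simp only [Finset.mul_sum, Finset.sum_mul, ← Finset.sum_add_distrib, ← Finset.sum_neg_distrib]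
    refine Finset.sum_le_sum fun i _ => ?_
    have hp := wV_pos V x
    have : 0 ≤ (pd i u x + K * pd i f x) ^ 2 * wV V x / K := by positivity
    have e : (pd i u x + K * pd i f x) ^ 2 * wV V x / K = 1 / K * (pd i u x ^ 2 * wV V x)
        + 2 * (pd i u x * pd i f x * wV V x) + K * (pd i f x ^ 2 * wV V x) := by
      field_simp; ring
    linarith
  have hJ : (1 / K) * (∫ x, (∑ i, pd i u x ^ 2) * wV V x) ≤ ∫ x, Lop V u x ^ 2 * wV V x := by
    rw [one_div, inv_mul_le_iff₀ hK]; exact h u hu hus
  linarith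

/-- The linear second moments of the measure. -/
def Mom (V : Euc n → ℝ) (S : ℝ) : Prop :=
  ∀ e : Euc n, Integrable (fun x => ⟪x, e⟫ ^ 2 * wV V x) ∧
    ∫ x, ⟪x, e⟫ ^ 2 * wV V x ≤ S * ‖e‖ ^ 2

/-- The lower bound on the Hessian of the potential. -/
def Conv (V : Euc n → ℝ) (t : ℝ) : Prop :=
  ∀ x (v : Fin n → ℝ), t * ∑ i, v i ^ 2 ≤ ∑ i, ∑ j, pd i (pd j V) x * v j * v i

lemma hess_le (hV : ContDiff ℝ ∞ V) {t : ℝ} (hc : Conv V t) {u : Euc n → ℝ}
    (hu : ContDiff ℝ ∞ u) (hus : HasCompactSupport u) :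
    (∑ i, ∫ x, (∑ j, pd j (pd i u) x ^ 2) * wV V x)
      + t * ∫ x, (∑ i, pd i u x ^ 2) * wV V x ≤ ∫ x, Lop V u x ^ 2 * wV V x := by
  rw [bochner hV hu hus, add_le_add_iff_left, ← integral_const_mul]
  have hWc := (contDiff_wV hV).continuous
  have hz : ∀ x ∉ tsupport u, ∀ i, pd i u x = 0 := fun x hx i =>
    image_eq_zero_of_notMem_tsupport fun hj => hx (tsupport_fderiv_apply_subset ℝ (bas i) hj)
  refine integral_mono ?_ ?_ fun x => ?_
  · refine Continuous.integrable_of_hasCompactSupport ?_
      (HasCompactSupport.intro hus.isCompact fun x hx => by simp [hz x hx])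
    have : ∀ i, Continuous (pd i u) := fun i => (contDiff_pd hu i).continuous
    fun_prop
  · refine Continuous.integrable_of_hasCompactSupport ?_
      (HasCompactSupport.intro hus.isCompact fun x hx => by simp [hz x hx])
    have : ∀ i, Continuous (pd i u) := fun i => (contDiff_pd hu i).continuous
    have : ∀ i j, Continuous (pd i (pd j V)) := fun i j =>
      (contDiff_pd (contDiff_pd hV j) i).continuous
    fun_prop
  · calc t * ((∑ i, pd i u x ^ 2) * wV V x) = (t * ∑ i, pd i u x ^ 2) * wV V x := by ring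
      _ ≤ _ := mul_le_mul_of_nonneg_right (hc x fun i => pd i u x) (wV_pos V x).le

lemma mean_grad_sq_le (hV : ContDiff ℝ ∞ V) {S : ℝ} (hS : 0 < S) (hm : Mom V S)
    {u : Euc n → ℝ} (hu : ContDiff ℝ ∞ u) (hus : HasCompactSupport u) :
    ∑ i, (∫ x, pd i u x * wV V x) ^ 2 ≤ S * ∫ x, Lop V u x ^ 2 * wV V x := by
  set M := fun i => ∫ x, pd i u x * wV V x with hM
  set v : Euc n := WithLp.toLp 2 M with hv
  set ℓ := fun x : Euc n => ⟪x, v⟫ with hℓ
  have hld : ContDiff ℝ ∞ ℓ := contDiff_id.inner ℝ contDiff_const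
  have hpl : ∀ i x, pd i ℓ x = M i := fun i x => by
    have h : HasFDerivAt ℓ (innerSL ℝ v) x :=
      (innerSL ℝ v).hasFDerivAt.congr_of_eventuallyEq
        (Eventually.of_forall fun y => real_inner_comm v y)
    simp only [pd, h.fderiv, innerSL_apply_apply, bas, EuclideanSpace.inner_single_right]
    simp [hv]
  have hgr := green hV hu hus hld
  have hWc := (contDiff_wV hV).continuous
  have iu : ∀ i, Integrable fun x => pd i u x * M i * wV V x := fun i => by
    simp only [mul_assoc]
    exact integrable_mul (contDiff_pd hu i).continuous (continuous_const.mul hWc)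
      (hasCompactSupport_pd hus i)
  simp only [hpl, Finset.sum_mul] at hgr
  rw [integral_finsetSum _ fun i _ => iu i] at hgr
  have e : ∀ i, ∫ x, pd i u x * M i * wV V x = M i ^ 2 := fun i => by
    rw [sq]
    conv_rhs => rw [show M i * M i = M i * ∫ x, pd i u x * wV V x from rfl, ← integral_const_mul]
    exact integral_congr_ae (Eventually.of_forall fun x => by ring)
  simp only [e] at hgr
  have iA : Integrable fun x => Lop V u x ^ 2 * wV V x := by
    simp only [sq, mul_assoc]
    exact integrable_mul (contDiff_Lop hV hu).continuous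
      ((contDiff_Lop hV hu).continuous.mul hWc) (hasCompactSupport_Lop hus)
  have iX : Integrable fun x => Lop V u x * ℓ x * wV V x := by
    simp only [mul_assoc]
    exact integrable_mul (contDiff_Lop hV hu).continuous (hld.continuous.mul hWc)
      (hasCompactSupport_Lop hus)
  have hy : -(2 * ∫ x, Lop V u x * ℓ x * wV V x)
      ≤ S * (∫ x, Lop V u x ^ 2 * wV V x) + 1 / S * ∫ x, ℓ x ^ 2 * wV V x := by
    rw [← integral_const_mul, ← integral_neg, ← integral_const_mul, ← integral_const_mul,
      ← integral_add (iA.const_mul _) ((hm v).1.const_mul _)]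
    refine integral_mono (iX.const_mul _).neg ((iA.const_mul _).add ((hm v).1.const_mul _))
      fun x => ?_
    have hp := wV_pos V x
    have : 0 ≤ (S * Lop V u x + ℓ x) ^ 2 * wV V x / S := by positivity
    have e : (S * Lop V u x + ℓ x) ^ 2 * wV V x / S = S * (Lop V u x ^ 2 * wV V x)
        + 2 * (Lop V u x * ℓ x * wV V x) + 1 / S * (⟪x, v⟫ ^ 2 * wV V x) := by
      simp only [hℓ]; field_simp; ring
    linarith
  have hl : 1 / S * (∫ x, ℓ x ^ 2 * wV V x) ≤ ∑ i, M i ^ 2 := by
    have h := (hm v).2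
    rw [EuclideanSpace.real_norm_sq_eq] at h
    rw [one_div, inv_mul_le_iff₀ hS]
    exact h
  linarith

lemma gam_zero (hV : ContDiff ℝ ∞ V) {t : ℝ} (ht : 0 < t) (hc : Conv V t) : Gam V (1 / t) := by
  intro u hu hus
  have h := hess_le hV hc hu hus
  have h0 : 0 ≤ ∑ i, ∫ x, (∑ j, pd j (pd i u) x ^ 2) * wV V x :=
    Finset.sum_nonneg fun i _ => integral_nonneg fun x =>
      mul_nonneg (Finset.sum_nonneg fun j _ => sq_nonneg _) (wV_pos V x).le
  rw [div_mul_eq_mul_div, one_mul, le_div_iff₀ ht]
  linarith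

lemma gam_step (hV : ContDiff ℝ ∞ V) {t S C : ℝ} (ht : 0 < t) (hS : 0 < S) (hC : 0 < C)
    (hc : Conv V t) (hm : Mom V S) (hP : Poi V C) : Gam V ((C + S) / (t * C + 1)) := by
  intro u hu hus
  have hh := hess_le hV hc hu hus
  have hg := mean_grad_sq_le hV hS hm hu hus
  have hWc := (contDiff_wV hV).continuous
  have hp : ∀ i, (∫ x, pd i u x ^ 2 * wV V x) - (∫ x, pd i u x * wV V x) ^ 2
      ≤ C * ∫ x, (∑ j, pd j (pd i u) x ^ 2) * wV V x := fun i => by
    obtain ⟨b1, hb1⟩ := (contDiff_pd hu i).continuous.bounded_above_of_compact_support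
      (hasCompactSupport_pd hus i)
    obtain ⟨b2, hb2⟩ := (continuous_finsetSum Finset.univ fun j _ =>
      ((contDiff_pd (contDiff_pd hu i) j).continuous.pow 2)).bounded_above_of_compact_support
      (f := fun x => ∑ j, pd j (pd i u) x ^ 2)
      (HasCompactSupport.intro (hasCompactSupport_pd hus i).isCompact fun x hx =>
        Finset.sum_eq_zero fun j _ => by
          rw [show pd j (pd i u) x = 0 from image_eq_zero_of_notMem_tsupport fun hj =>
            hx (tsupport_fderiv_apply_subset ℝ (bas j) hj)]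
          simp)
    exact hP _ (contDiff_pd hu i) (max b1 b2) fun x =>
      ⟨(hb1 x).trans (le_max_left _ _),
        ((le_abs_self _).trans (hb2 x)).trans (le_max_right _ _)⟩
  have hsum := Finset.sum_le_sum fun i (_ : i ∈ Finset.univ) => hp i
  have eJ : ∫ x, (∑ i, pd i u x ^ 2) * wV V x = ∑ i, ∫ x, pd i u x ^ 2 * wV V x := by
    simp only [Finset.sum_mul]
    refine integral_finsetSum _ fun i _ => ?_
    simp only [sq, mul_assoc]
    exact integrable_mul (contDiff_pd hu i).continuous
      ((contDiff_pd hu i).continuous.mul hWc) (hasCompactSupport_pd hus i)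
  simp only [Finset.sum_sub_distrib, ← Finset.mul_sum, ← eJ] at hsum
  have hh' := mul_le_mul_of_nonneg_left hh hC.le
  rw [div_mul_eq_mul_div, le_div_iff₀ (by positivity)]
  nlinarith

/-- The Poincaré constant of a uniformly convex potential with small linear moments. -/
theorem poincare_damped (hV : ContDiff ℝ ∞ V) (hI : ∫ x, wV V x = 1) {t S : ℝ} (ht : 0 < t)
    (hS : 0 < S) (hc : Conv V t) (hm : Mom V S) : Poi V (Real.sqrt (S / t)) := by
  set Cs := Real.sqrt (S / t) with hCs
  have hCs0 : 0 < Cs := Real.sqrt_pos.2 (by positivity)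
  have h2 : S = t * Cs ^ 2 := by
    rw [hCs, Real.sq_sqrt (by positivity)]; field_simp
  have base := poi_of_gam hV hI (by positivity) (gam_zero hV ht hc)
  rcases le_or_gt (1 / t) Cs with h | h
  · intro f hf B hB
    refine (base f hf B hB).trans (mul_le_mul_of_nonneg_right h ?_)
    exact integral_nonneg fun x =>
      mul_nonneg (Finset.sum_nonneg fun j _ => sq_nonneg _) (wV_pos V x).le
  have htC : 0 < 1 - t * Cs := by
    rw [lt_div_iff₀ ht] at h; linarith
  have htC1 : 1 - t * Cs < 1 := by
    have := mul_pos ht hCs0; linarith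
  have hit : ∀ k : ℕ, ∃ C, Cs ≤ C ∧ C - Cs ≤ (1 - t * Cs) ^ k * (1 / t - Cs) ∧ Poi V C := by
    intro k
    induction k with
    | zero => exact ⟨1 / t, h.le, by simp, base⟩
    | succ k ih =>
      obtain ⟨C, h1, h3, hP⟩ := ih
      have hC0 : 0 < C := hCs0.trans_le h1
      have hd : 0 < t * C + 1 := by positivity
      have e : (C + S) / (t * C + 1) - Cs = (C - Cs) * (1 - t * Cs) / (t * C + 1) := by
        rw [div_sub' hd.ne', h2]; ring
      have h4 : 0 ≤ (C - Cs) * (1 - t * Cs) := mul_nonneg (sub_nonneg.2 h1) htC.le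
      refine ⟨(C + S) / (t * C + 1), ?_, ?_,
        poi_of_gam hV hI (by positivity) (gam_step hV ht hS hC0 hc hm hP)⟩
      · rw [← sub_nonneg, e]; positivity
      · rw [e, pow_succ]
        refine (div_le_self h4 (by linarith [mul_pos ht hC0])).trans ?_
        calc (C - Cs) * (1 - t * Cs) ≤ (1 - t * Cs) ^ k * (1 / t - Cs) * (1 - t * Cs) :=
              mul_le_mul_of_nonneg_right h3 htC.le
          _ = _ := by ring
  intro f hf B hB
  have hlim : Tendsto (fun k : ℕ => ((1 - t * Cs) ^ k * (1 / t - Cs) + Cs)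
      * ∫ x, (∑ i, pd i f x ^ 2) * wV V x) atTop
      (𝓝 (Cs * ∫ x, (∑ i, pd i f x ^ 2) * wV V x)) := by
    have := (((tendsto_pow_atTop_nhds_zero_of_lt_one htC.le htC1).mul_const (1 / t - Cs)).add_const
      Cs).mul_const (∫ x, (∑ i, pd i f x ^ 2) * wV V x)
    simpa using this
  refine ge_of_tendsto hlim (Eventually.of_forall fun k => ?_)
  obtain ⟨C, -, h3, hP⟩ := hit k
  refine (hP f hf B hB).trans (mul_le_mul_of_nonneg_right (by linarith) ?_)
  exact integral_nonneg fun x =>
    mul_nonneg (Finset.sum_nonneg fun j _ => sq_nonneg _) (wV_pos V x).le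

end Vale.Agent.P245.Sub
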