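import Mathlib
import Vale.Agent.P245.Sub.Poincare

/-!
Exponential concentration from a Poincaré inequality, by halving with a mollified truncation.
-/

open MeasureTheory Filter Set
open scoped ContDiff RealInnerProductSpace Topology NNReal

namespace Vale.Agent.P245.Sub

variable {n : ℕ} {V : Euc n → ℝ}

lemma sum_pd_sq_le (f : Euc n → ℝ) (x : Euc n) {K : ℝ} (hK : ‖fderiv ℝ f x‖ ≤ K) :
    ∑ i, pd i f x ^ 2 ≤ K ^ 2 := by
  set L := fderiv ℝ f x with hL
  set v : Euc n := ∑ i, pd i f x • bas i with hv
  have hvi : ∀ i, v i = pd i f x := fun i => by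
    simp [hv, bas, Pi.single_apply]
  have hn : ‖v‖ ^ 2 = ∑ i, pd i f x ^ 2 := by
    rw [EuclideanSpace.real_norm_sq_eq]; simp [hvi]
  have h1 : L v = ∑ i, pd i f x ^ 2 := by
    simp [hv, map_sum, sq, pd, hL]
  have h2 : L v ≤ K * ‖v‖ :=
    (le_abs_self _).trans ((L.le_opNorm v).trans (mul_le_mul_of_nonneg_right hK (norm_nonneg _)))
  rw [← hn] at h1 ⊢
  rw [h1] at h2
  rcases (norm_nonneg v).eq_or_lt with h | h
  · rw [← h]; simpa using sq_nonneg K
  · have : ‖v‖ ≤ K := by
      rw [sq] at h2; exact le_of_mul_le_mul_right h2 h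
    exact pow_le_pow_left₀ h.le this 2

lemma abs_mol_sub_le (φ : ContDiffBump (0 : Euc n)) {h : Euc n → ℝ} {K : ℝ}
    (hh : Continuous h) (hK : ∀ x y, |h x - h y| ≤ K * ‖x - y‖) (x y : Euc n) :
    |mol φ h x - mol φ h y| ≤ K * ‖x - y‖ := by
  have hi : ∀ x : Euc n, Integrable fun z => φ.normed volume z * h (x - z) := fun x =>
    (φ.continuous_normed.mul (hh.comp (continuous_const.sub continuous_id))
      ).integrable_of_hasCompactSupport φ.hasCompactSupport_normed.mul_right
  have e : ∀ x, mol φ h x = ∫ z, φ.normed volume z * h (x - z) := fun x => by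
    rw [mol_eq, convolution_def]; simp
  rw [e, e, ← integral_sub (hi x) (hi y)]
  refine abs_integral_le_integral_abs.trans ?_
  calc ∫ z, |φ.normed volume z * h (x - z) - φ.normed volume z * h (y - z)|
      ≤ ∫ z, φ.normed volume z * (K * ‖x - y‖) := by
        refine integral_mono ((hi x).sub (hi y)).abs (φ.integrable_normed.mul_const _) fun z => ?_
        simp only [← mul_sub, abs_mul, abs_of_nonneg (ker_nonneg φ z)]
        refine mul_le_mul_of_nonneg_left ((hK _ _).trans (le_of_eq ?_)) (ker_nonneg φ z)
        simp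
    _ = K * ‖x - y‖ := by rw [integral_mul_const, φ.integral_normed, one_mul]

lemma mol_eq_of_near (φ : ContDiffBump (0 : Euc n)) {h : Euc n → ℝ} {x : Euc n} {c : ℝ}
    (hc : ∀ y, dist x y < φ.rOut → h y = c) : mol φ h x = c := by
  calc mol φ h x = ∫ y, φ.normed volume (x - y) * c :=
        integral_congr_ae (Eventually.of_forall fun y => by
          by_cases hy : dist x y < φ.rOut
          · simp only; rw [hc y hy]
          · simp [ker_zero φ (not_lt.1 hy)])
    _ = c := by rw [integral_mul_const, integral_ker, one_mul]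

/-- One step of the halving. -/
lemma halving (hV : ContDiff ℝ ∞ V) (hI : ∫ x, wV V x = 1) {C : ℝ} (hC : 0 < C) (hP : Poi V C)
    {g : Euc n → ℝ} (hg : LipschitzWith 1 g) {p0 : ℝ} (hp : 0 < p0) {lo : ℝ}
    (hlo : p0 ≤ (muW V).real {x | g x ≤ lo}) :
    2 * (muW V).real {x | lo + 2 * Real.sqrt (C / p0) ≤ g x} ≤ (muW V).real {x | lo ≤ g x} := by
  haveI := isProbability_muW hI
  set S := 2 * Real.sqrt (C / p0) with hS
  have hS0 : 0 < S := by have := Real.sqrt_pos.2 (div_pos hC hp); positivity
  have hS2 : S ^ 2 * p0 = 4 * C := by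
    rw [hS, mul_pow, Real.sq_sqrt (by positivity)]; field_simp; ring
  have hgd : ∀ x y, |g x - g y| ≤ ‖x - y‖ := fun x y => by
    have := hg.dist_le_mul x y
    rwa [Real.dist_eq, dist_eq_norm, NNReal.coe_one, one_mul] at this
  have hgc := hg.continuous
  set h := fun x => max 0 (min 1 ((g x - (lo + S / 4)) / (S / 2))) with hh
  have hhc : Continuous h := by rw [hh]; fun_prop
  have hK : ∀ x y, |h x - h y| ≤ 2 / S * ‖x - y‖ := fun x y => by
    simp only [hh]
    rw [max_comm, max_comm (0 : ℝ)]
    refine (abs_max_sub_max_le_abs _ _ (0 : ℝ)).trans ?_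
    refine (abs_min_sub_min_le_max (1 : ℝ) _ 1 _).trans ?_
    rw [sub_self, abs_zero, max_eq_right (abs_nonneg _)]
    rw [← sub_div, abs_div, abs_of_pos (half_pos hS0), sub_sub_sub_cancel_right,
      div_le_iff₀ (half_pos hS0)]
    calc |g x - g y| ≤ ‖x - y‖ := hgd x y
      _ = _ := by field_simp
  let φ : ContDiffBump (0 : Euc n) := ⟨S / 16, S / 8, by positivity, by linarith⟩
  have hφ : φ.rOut = S / 8 := rfl
  set f := mol φ h with hf
  have hfd : ContDiff ℝ ∞ f := contDiff_mol φ hhc.locallyIntegrable
  have f0 : ∀ x, g x < lo + S / 8 → f x = 0 := fun x hx => mol_eq_of_near φ fun y hy => by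
    have h1 := (abs_le.1 (hgd x y)).1
    rw [dist_eq_norm, hφ] at hy
    simp only [hh]
    refine max_eq_left ((min_le_right _ _).trans (div_nonpos_of_nonpos_of_nonneg ?_ (by positivity)))
    linarith
  have f1 : ∀ x, lo + 7 * S / 8 < g x → f x = 1 := fun x hx => mol_eq_of_near φ fun y hy => by
    have h1 := (abs_le.1 (hgd x y)).2
    rw [dist_eq_norm, hφ] at hy
    simp only [hh]
    rw [min_eq_left, max_eq_right zero_le_one]
    rw [le_div_iff₀ (by positivity)]
    linarith
  have hfb : ∀ x, |f x| ≤ 1 := fun x => by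
    rw [hf]
    have hb : ∀ y, |h y| ≤ 1 := fun y => by
      simp only [hh]
      rw [abs_of_nonneg (le_max_left _ _)]
      exact max_le zero_le_one (min_le_left _ _)
    calc |∫ y, φ.normed volume (x - y) * h y| ≤ ∫ y, φ.normed volume (x - y) := by
          refine abs_integral_le_integral_abs.trans (integral_mono
            (integrable_ker_mul φ hhc.locallyIntegrable x).abs
            (φ.integrable_normed.comp_sub_left x) fun y => ?_)
          simp only [abs_mul, abs_of_nonneg (ker_nonneg φ _)]
          exact mul_le_of_le_one_right (ker_nonneg φ _) (hb y)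
      _ = 1 := integral_ker φ x
  have hgr : ∀ x, ∑ i, pd i f x ^ 2 ≤ (2 / S) ^ 2 := fun x => by
    refine sum_pd_sq_le f x (norm_fderiv_le_of_lip' (𝕜 := ℝ) (by positivity) ?_)
    exact Eventually.of_forall fun y => by
      rw [Real.norm_eq_abs]; exact abs_mol_sub_le φ hhc hK y x
  set band := {x | lo ≤ g x} \ {x | lo + S ≤ g x} with hband
  have hzero : ∀ x ∉ band, ∑ i, pd i f x ^ 2 = 0 := fun x hx => by
    have hz : fderiv ℝ f x = 0 := by
      rcases lt_or_ge (g x) lo with h1 | h1
      · have : f =ᶠ[𝓝 x] fun _ => (0 : ℝ) :=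
          Filter.eventually_of_mem ((isOpen_lt hgc continuous_const).mem_nhds
            (show g x < lo + S / 8 by linarith)) f0
        rw [this.fderiv_eq, fderiv_fun_const]; rfl
      · have h2 : lo + S ≤ g x := by
          by_contra h2
          exact hx ⟨h1, h2⟩
        have : f =ᶠ[𝓝 x] fun _ => (1 : ℝ) :=
          Filter.eventually_of_mem ((isOpen_lt continuous_const hgc).mem_nhds
            (show lo + 7 * S / 8 < g x by linarith)) f1
        rw [this.fderiv_eq, fderiv_fun_const]; rfl
    simp [pd, hz]
  have hv := hP f hfd (max 1 ((2 / S) ^ 2)) fun x =>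
    ⟨(hfb x).trans (le_max_left _ _), (hgr x).trans (le_max_right _ _)⟩
  rw [← integral_muW hV, ← integral_muW hV, ← integral_muW hV] at hv
  set μ := muW V with hμ
  set m0 := ∫ x, f x ∂μ with hm0
  set A := {x | g x ≤ lo} with hA
  set B := {x | lo + S ≤ g x} with hB
  have mA : MeasurableSet A := measurableSet_le hgc.measurable measurable_const
  have mB : MeasurableSet B := measurableSet_le measurable_const hgc.measurable
  have mL : MeasurableSet {x | lo ≤ g x} := measurableSet_le measurable_const hgc.measurable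
  have i1 : Integrable f μ :=
    Integrable.of_bound hfd.continuous.aestronglyMeasurable 1 (Eventually.of_forall hfb)
  have i2 : Integrable (fun x => f x ^ 2) μ :=
    Integrable.of_bound (hfd.continuous.pow 2).aestronglyMeasurable 1
      (Eventually.of_forall fun x => by
        rw [Real.norm_eq_abs, abs_pow]; exact pow_le_one₀ (abs_nonneg _) (hfb x))
  have ivar : Integrable (fun x => (f x - m0) ^ 2) μ :=
    ((i2.sub (i1.const_mul (2 * m0))).add (integrable_const (m0 ^ 2))).congr
      (Eventually.of_forall fun x => by simp only [Pi.add_apply, Pi.sub_apply]; ring)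
  have evar : ∫ x, (f x - m0) ^ 2 ∂μ = (∫ x, f x ^ 2 ∂μ) - m0 ^ 2 := by
    calc _ = ∫ x, f x ^ 2 - 2 * m0 * f x + m0 ^ 2 ∂μ :=
          integral_congr_ae (Eventually.of_forall fun x => by ring)
      _ = _ := by
        rw [integral_add, integral_sub, integral_const_mul, integral_const, ← hm0]
        · simp; ring
        exacts [i2, i1.const_mul _, i2.sub (i1.const_mul _), integrable_const _]
  have low : μ.real A * m0 ^ 2 + μ.real B * (1 - m0) ^ 2 ≤ ∫ x, (f x - m0) ^ 2 ∂μ := by
    rw [← smul_eq_mul, ← smul_eq_mul, ← setIntegral_const, ← setIntegral_const,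
      ← integral_indicator mA, ← integral_indicator mB,
      ← integral_add ((integrable_const _).indicator mA) ((integrable_const _).indicator mB)]
    refine integral_mono (((integrable_const _).indicator mA).add
      ((integrable_const _).indicator mB)) ivar fun x => ?_
    by_cases hxA : x ∈ A
    · have hxA' : g x ≤ lo := hxA
      have hxB : x ∉ B := fun hxB => by
        have : lo + S ≤ g x := hxB
        linarith
      simp only
      rw [indicator_of_mem hxA, indicator_of_notMem hxB, f0 x (by linarith)]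
      linarith [sq (0 - m0), sq m0]
    by_cases hxB : x ∈ B
    · have hxB' : lo + S ≤ g x := hxB
      simp only
      rw [indicator_of_notMem hxA, indicator_of_mem hxB, f1 x (by linarith)]
      simp
    simp only
    rw [indicator_of_notMem hxA, indicator_of_notMem hxB]
    simpa using sq_nonneg (f x - m0)
  have up : ∫ x, ∑ i, pd i f x ^ 2 ∂μ ≤ μ.real band * (2 / S) ^ 2 := by
    rw [← smul_eq_mul, ← setIntegral_const, ← integral_indicator (mL.diff mB)]
    refine integral_mono_of_nonneg
      (Eventually.of_forall fun x => Finset.sum_nonneg fun i _ => sq_nonneg _)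
      ((integrable_const _).indicator (mL.diff mB)) (Eventually.of_forall fun x => ?_)
    by_cases hx : x ∈ band
    · simp only; rw [indicator_of_mem hx]; exact hgr x
    · simp only; rw [indicator_of_notMem hx, hzero x hx]
  have eband : μ.real band = μ.real {x | lo ≤ g x} - μ.real B :=
    measureReal_sdiff (fun x hx => by
      have : lo + S ≤ g x := hx
      show lo ≤ g x
      linarith) mB
  have disj : μ.real A + μ.real B ≤ 1 := by
    rw [← measureReal_union ?_ mB]
    · exact measureReal_le_one
    · refine Set.disjoint_left.2 fun x h1 h2 => ?_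
      have h1' : g x ≤ lo := h1
      have h2' : lo + S ≤ g x := h2
      linarith
  have key : μ.real A * μ.real B ≤ μ.real A * m0 ^ 2 + μ.real B * (1 - m0) ^ 2 := by
    have hA0 : 0 ≤ μ.real A := measureReal_nonneg
    have hB0 : 0 ≤ μ.real B := measureReal_nonneg
    have hX : 0 ≤ μ.real A * m0 ^ 2 + μ.real B * (1 - m0) ^ 2 := by positivity
    have e : (μ.real A + μ.real B) * (μ.real A * m0 ^ 2 + μ.real B * (1 - m0) ^ 2)
        = μ.real A * μ.real B + (μ.real A * m0 - μ.real B * (1 - m0)) ^ 2 := by ring
    have := mul_le_of_le_one_left hX disj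
    have := sq_nonneg (μ.real A * m0 - μ.real B * (1 - m0))
    linarith
  have h3 : p0 * μ.real B ≤ μ.real A * μ.real B :=
    mul_le_mul_of_nonneg_right hlo measureReal_nonneg
  have h4 : C * ∫ x, ∑ i, pd i f x ^ 2 ∂μ ≤ C * (μ.real band * (2 / S) ^ 2) :=
    mul_le_mul_of_nonneg_left up hC.le
  have h5 : C * (μ.real band * (2 / S) ^ 2) = p0 * μ.real band := by
    field_simp
    linear_combination (-(μ.real band)) * hS2
  rw [h5, eband] at h4
  have h6 : p0 * (2 * μ.real B) ≤ p0 * μ.real {x | lo ≤ g x} := by linarith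
  exact le_of_mul_le_mul_left h6 hp

/-- Exponential concentration from the Poincaré inequality. -/
theorem poi_tail (hV : ContDiff ℝ ∞ V) (hI : ∫ x, wV V x = 1) {C : ℝ} (hC : 0 < C)
    (hP : Poi V C) {g : Euc n → ℝ} (hg : LipschitzWith 1 g) {p0 : ℝ} (hp : 0 < p0) {m : ℝ}
    (hm : p0 ≤ (muW V).real {x | g x ≤ m}) {r : ℝ} (hr : 0 ≤ r) :
    (muW V).real {x | m + r ≤ g x} ≤ 2 * Real.exp (-(r / (4 * Real.sqrt (C / p0)))) := by
  haveI := isProbability_muW hI
  set S := 2 * Real.sqrt (C / p0) with hS
  have hS0 : 0 < S := by have := Real.sqrt_pos.2 (div_pos hC hp); positivity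
  have hk : ∀ k : ℕ, (muW V).real {x | m + k * S ≤ g x} ≤ (1 / 2 : ℝ) ^ k := by
    intro k
    induction k with
    | zero => simpa using measureReal_le_one
    | succ k ih =>
      have hle : p0 ≤ (muW V).real {x | g x ≤ m + k * S} :=
        hm.trans (measureReal_mono fun x hx => by
          have hx' : g x ≤ m := hx
          show g x ≤ m + k * S
          have : 0 ≤ (k : ℝ) * S := by positivity
          linarith)
      have h := halving hV hI hC hP hg hp hle
      rw [pow_succ, show m + ((k + 1 : ℕ) : ℝ) * S = m + k * S + S by push_cast; ring]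
      linarith
  set k := ⌊r / S⌋₊ with hkdef
  have h1 : (k : ℝ) * S ≤ r := by
    rw [← le_div_iff₀ hS0]; exact Nat.floor_le (by positivity)
  have h2 : r / S < k + 1 := Nat.lt_floor_add_one _
  calc (muW V).real {x | m + r ≤ g x} ≤ (muW V).real {x | m + k * S ≤ g x} :=
        measureReal_mono fun x hx => by
          have hx' : m + r ≤ g x := hx
          show m + k * S ≤ g x
          linarith
    _ ≤ (1 / 2 : ℝ) ^ k := hk k
    _ = Real.exp (-(k * Real.log 2)) := by
        rw [← mul_neg, Real.exp_nat_mul, Real.exp_neg, Real.exp_log two_pos, one_div]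
    _ ≤ Real.exp (Real.log 2 + -(r / (2 * S))) := by
        refine Real.exp_le_exp.2 ?_
        have hl := Real.log_two_gt_d9
        have hr' : 0 ≤ r / S := by positivity
        have e : r / (2 * S) = r / S / 2 := by rw [div_div, mul_comm]
        rw [e]
        nlinarith
    _ = _ := by
        rw [Real.exp_add, Real.exp_log two_pos, hS]
        ring_nf

end Vale.Agent.P245.Sub
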