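import Mathlib
import Vale.Agent.P245.Core
import Vale.Agent.P245.Sub.Tail

/-!
Basic facts about smooth log-concave subgaussian measures: moments, medians, the quartic tail.
-/

open MeasureTheory Filter Set
open scoped ContDiff RealInnerProductSpace Topology NNReal ENNReal

namespace Vale.Agent.P245.Sub

variable {n : ℕ} {V : Euc n → ℝ}

/-- A smooth log-concave probability density, linearly subgaussian with constant `2`. -/
structure Nice (V : Euc n → ℝ) : Prop where
  smooth : ContDiff ℝ ∞ V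
  mass : ∫ x, wV V x = 1
  mid : ∀ x y, wV V x * wV V y ≤ wV V ((2 : ℝ)⁻¹ • (x + y)) ^ 2
  conv : Conv V 0
  sub : ∀ θ : Euc n, ‖θ‖ = 1 →
    ∫⁻ x, ENNReal.ofReal (Real.exp (⟪x, θ⟫ ^ 2 / 2 ^ 2)) ∂(muW V) ≤ 2

/-- Exponential concentration at scale `D`. -/
def ExpTail (V : Euc n → ℝ) (D : ℝ) : Prop :=
  ∀ g : Euc n → ℝ, LipschitzWith 1 g → ∀ m : ℝ, 1 / 4 ≤ (muW V).real {x | g x ≤ m} →
    ∀ r : ℝ, 0 ≤ r → (muW V).real {x | m + r ≤ g x} ≤ 8 * Real.exp (-(r / D))

lemma ExpTail.mono {D D' : ℝ} (h : ExpTail V D) (hD : 0 < D) (hle : D ≤ D') : ExpTail V D' := by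
  intro g hg m hm r hr
  refine (h g hg m hm r hr).trans ?_
  gcongr

variable (hN : Nice V)
include hN

lemma Nice.prob : IsProbabilityMeasure (muW V) := isProbability_muW hN.mass

lemma exp_sq_le (θ : Euc n) (hθ : ‖θ‖ = 1) :
    Integrable (fun x => Real.exp (⟪x, θ⟫ ^ 2 / 2 ^ 2)) (muW V)
      ∧ ∫ x, Real.exp (⟪x, θ⟫ ^ 2 / 2 ^ 2) ∂(muW V) ≤ 2 := by
  have hm : AEStronglyMeasurable (fun x => Real.exp (⟪x, θ⟫ ^ 2 / 2 ^ 2)) (muW V) :=
    (by fun_prop : Continuous fun x : Euc n => Real.exp (⟪x, θ⟫ ^ 2 / 2 ^ 2)).aestronglyMeasurable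
  have h0 : 0 ≤ᵐ[muW V] fun x => Real.exp (⟪x, θ⟫ ^ 2 / 2 ^ 2) :=
    Eventually.of_forall fun x => (Real.exp_pos _).le
  refine ⟨⟨hm, (hasFiniteIntegral_iff_ofReal h0).2 ((hN.sub θ hθ).trans_lt ENNReal.ofNat_lt_top)⟩, ?_⟩
  rw [integral_eq_lintegral_of_nonneg_ae h0 hm]
  exact ENNReal.toReal_le_of_le_ofReal zero_le_two ((hN.sub θ hθ).trans (by simp))

lemma fourth_moment (θ : Euc n) (hθ : ‖θ‖ = 1) :
    Integrable (fun x => ⟪x, θ⟫ ^ 4) (muW V) ∧ ∫ x, ⟪x, θ⟫ ^ 4 ∂(muW V) ≤ 64 := by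
  obtain ⟨hi, hle⟩ := exp_sq_le hN θ hθ
  have hp : ∀ x : Euc n, ⟪x, θ⟫ ^ 4 ≤ 32 * Real.exp (⟪x, θ⟫ ^ 2 / 2 ^ 2) := fun x => by
    have hq : 0 ≤ ⟪x, θ⟫ ^ 2 / 2 ^ 2 := by positivity
    have h := Real.quadratic_le_exp_of_nonneg hq
    linarith [h, show (⟪x, θ⟫ ^ 2 / 2 ^ 2) ^ 2 / 2 = ⟪x, θ⟫ ^ 4 / 32 by ring]
  have hi4 : Integrable (fun x => ⟪x, θ⟫ ^ 4) (muW V) :=
    (hi.const_mul 32).mono' (by fun_prop : Continuous fun x : Euc n => ⟪x, θ⟫ ^ 4).aestronglyMeasurable
      (Eventually.of_forall fun x => by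
        rw [Real.norm_eq_abs, abs_of_nonneg (by positivity)]; exact hp x)
  refine ⟨hi4, (integral_mono hi4 (hi.const_mul 32) hp).trans ?_⟩
  rw [integral_const_mul]; linarith

/-- The median of the norm is at most `3 √n`. -/
lemma norm_median_le (hn : 1 ≤ n) {M : ℝ} (hM : 0 ≤ M)
    (h : 1 / 2 ≤ (muW V).real {x | M ≤ ‖x‖}) : M ≤ 3 * Real.sqrt n := by
  have := hN.prob
  have hn' : (0 : ℝ) < n := by exact_mod_cast hn
  set F := fun x : Euc n => Real.exp (‖x‖ ^ 2 / (4 * n)) with hF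
  have hconv : ∀ x, F x ≤ ∑ i : Fin n, (1 / n : ℝ) * Real.exp (⟪x, bas i⟫ ^ 2 / 2 ^ 2) := fun x => by
    have hw : ∑ _i : Fin n, (1 / n : ℝ) = 1 := by simp [hn'.ne']
    have hj := convexOn_exp.map_sum_le (t := Finset.univ) (w := fun _ : Fin n => (1 / n : ℝ))
      (p := fun i => ⟪x, bas i⟫ ^ 2 / 2 ^ 2) (fun i _ => by positivity) hw
      (fun i _ => Set.mem_univ _)
    simp only [smul_eq_mul] at hj
    refine le_trans (le_of_eq ?_) hj
    simp only [hF]
    congr 1
    rw [EuclideanSpace.real_norm_sq_eq, Finset.sum_div]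
    refine Finset.sum_congr rfl fun i _ => ?_
    have : ⟪x, bas i⟫ = x i := by simp [bas, EuclideanSpace.inner_single_right]
    rw [this]; field_simp; ring
  have hb : ∀ i : Fin n, ‖bas i‖ = 1 := fun i => by simp [bas]
  have hsum : Integrable (fun x => ∑ i : Fin n, (1 / n : ℝ) * Real.exp (⟪x, bas i⟫ ^ 2 / 2 ^ 2))
      (muW V) :=
    integrable_finsetSum _ fun i _ => (exp_sq_le hN _ (hb i)).1.const_mul _
  have hFi : Integrable F (muW V) :=
    hsum.mono' (by fun_prop : Continuous F).aestronglyMeasurable (Eventually.of_forall fun x => by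
      rw [Real.norm_eq_abs, abs_of_pos (Real.exp_pos _)]; exact hconv x)
  have hF2 : ∫ x, F x ∂(muW V) ≤ 2 := by
    refine (integral_mono hFi hsum hconv).trans ?_
    rw [integral_finsetSum _ fun i _ => (exp_sq_le hN _ (hb i)).1.const_mul _]
    calc _ ≤ ∑ _i : Fin n, (1 / n : ℝ) * 2 := Finset.sum_le_sum fun i _ => by
          rw [integral_const_mul]
          exact mul_le_mul_of_nonneg_left (exp_sq_le hN _ (hb i)).2 (by positivity)
      _ = 2 := by simp; field_simp
  have hmk := (mul_meas_ge_le_integral_of_nonneg (μ := muW V)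
    (Eventually.of_forall fun x => (Real.exp_pos _).le) hFi (Real.exp (M ^ 2 / (4 * n)))).trans hF2
  have hsub : (muW V).real {x | M ≤ ‖x‖}
      ≤ (muW V).real {x | Real.exp (M ^ 2 / (4 * n)) ≤ F x} :=
    measureReal_mono fun x hx => by
      have hx' : M ≤ ‖x‖ := hx
      exact Real.exp_le_exp.2 (by gcongr)
  have h4 : Real.exp (M ^ 2 / (4 * n)) ≤ Real.exp (3 / 2) := by
    have he : (4 : ℝ) ≤ Real.exp (3 / 2) := by
      have h1 := Real.exp_one_gt_d9
      have h2 := Real.add_one_le_exp (1 / 2 : ℝ)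
      have h3 : Real.exp (3 / 2) = Real.exp 1 * Real.exp (1 / 2) := by
        rw [← Real.exp_add]; norm_num
      rw [h3]; nlinarith
    have := mul_le_mul_of_nonneg_left (h.trans hsub) (Real.exp_pos (M ^ 2 / (4 * n))).le
    linarith
  rw [Real.exp_le_exp, div_le_iff₀ (by positivity)] at h4
  have hs := Real.sq_sqrt hn'.le
  exact abs_le_of_sq_le_sq' (by rw [mul_pow, hs]; linarith) (by positivity) |>.2

/-- Separation for two sets. -/
lemma sep (hn : 1 ≤ n) {L : ℝ} (hL : 1 ≤ L) {A B : Set (Euc n)} (hA : MeasurableSet A)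
    (hB : MeasurableSet B) (hpA : Real.exp (-L) ≤ (muW V).real A)
    (hpB : 1 / 2 ≤ (muW V).real B) {r : ℝ} (hr : 0 ≤ r) (hsep : ∀ x ∈ A, ∀ y ∈ B, r ≤ ‖x - y‖) :
    r ^ 2 ≤ 16384 * max (Real.sqrt (n * L)) L := by
  have := hN.prob
  have h := Vale.Agent.P245.separation (ρ := wV V) (contDiff_wV hN.smooth).continuous.measurable
    (fun x => (wV_pos V x).le) hN.mid (μ := muW V) rfl (a := 2) two_pos hN.sub hn hL hA hB
    (by rw [ENNReal.ofReal_le_iff_le_toReal (measure_ne_top _ _)]; exact hpA)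
    (by
      have e : (1 / 2 : ℝ≥0∞) = ENNReal.ofReal (1 / 2) := by
        rw [ENNReal.ofReal_div_of_pos two_pos, ENNReal.ofReal_one, ENNReal.ofReal_ofNat]
      rw [e, ENNReal.ofReal_le_iff_le_toReal (measure_ne_top _ _)]; exact hpB) hr hsep
  linarith

/-- The quartic separation from a quarter mass. -/
lemma sep_tail (hn : 1 ≤ n) {g : Euc n → ℝ} (hg : LipschitzWith 1 g) {m : ℝ}
    (hm : 1 / 4 ≤ (muW V).real {x | g x ≤ m}) {L r : ℝ} (hL : 1 ≤ L)
    (hr : 182 * Real.sqrt (Real.sqrt n) ≤ r)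
    (hA : Real.exp (-L) ≤ (muW V).real {x | m + r ≤ g x}) :
    (r - 182 * Real.sqrt (Real.sqrt n)) ^ 2 ≤ 16384 * max (Real.sqrt (n * L)) L := by
  have := hN.prob
  have hn' : (1 : ℝ) ≤ n := by exact_mod_cast hn
  set q := Real.sqrt (Real.sqrt (n : ℝ)) with hq
  have hgc := hg.continuous.measurable
  have hd : ∀ x y, g x - g y ≤ ‖x - y‖ := fun x y => by
    have := hg.dist_le_mul x y
    rw [Real.dist_eq, dist_eq_norm, NNReal.coe_one, one_mul] at this
    exact (le_abs_self _).trans this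
  have hhalf : 1 / 2 ≤ (muW V).real {x | g x ≤ m + 182 * q} := by
    by_contra hc
    have hB : 1 / 2 ≤ (muW V).real {x | m + 182 * q ≤ g x} := by
      have h1 : (muW V).real ({x | g x ≤ m + 182 * q} ∪ {x | m + 182 * q ≤ g x}) = 1 := by
        rw [show {x | g x ≤ m + 182 * q} ∪ {x | m + 182 * q ≤ g x} = Set.univ from
          Set.eq_univ_of_forall fun x => le_total (g x) (m + 182 * q)]
        exact probReal_univ
      have h2 := measureReal_union_le (μ := muW V) {x | g x ≤ m + 182 * q} {x | m + 182 * q ≤ g x}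
      rw [h1] at h2
      linarith
    have he : Real.exp (-2) ≤ 1 / 4 := by
      have h1 := Real.exp_one_gt_d9
      have h2 : Real.exp 2 = Real.exp 1 * Real.exp 1 := by rw [← Real.exp_add]; norm_num
      rw [Real.exp_neg, one_div]
      refine inv_anti₀ (by norm_num) ?_
      rw [h2]; nlinarith
    have hs := sep hN hn (L := 2) one_le_two (measurableSet_le hgc measurable_const)
      (measurableSet_le measurable_const hgc) (he.trans hm) hB (r := 182 * q) (by positivity)
      (fun x hx y hy => by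
        have hx' : g x ≤ m := hx
        have hy' : m + 182 * q ≤ g y := hy
        have := hd y x
        rw [norm_sub_rev] at this
        linarith)
    have hq2 : q ^ 2 = Real.sqrt n := Real.sq_sqrt (Real.sqrt_nonneg _)
    have h1 : 1 ≤ Real.sqrt (n : ℝ) := Real.one_le_sqrt.2 hn'
    have h3 : max (Real.sqrt ((n : ℝ) * 2)) 2 ≤ 2 * Real.sqrt n := by
      refine max_le ?_ (by linarith)
      rw [mul_comm (n : ℝ), Real.sqrt_mul zero_le_two]
      exact mul_le_mul_of_nonneg_right (Real.sqrt_le_iff.2 ⟨by norm_num, by norm_num⟩) (by positivity)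
    rw [mul_pow, hq2] at hs
    linarith
  exact sep hN hn hL (measurableSet_le measurable_const hgc) (measurableSet_le hgc measurable_const)
    hA hhalf (sub_nonneg.2 hr) fun x hx y hy => by
      have hx' : m + r ≤ g x := hx
      have hy' : g y ≤ m + 182 * q := hy
      linarith [hd x y]

/-- The crude exponential tail. -/
lemma expTail_base (hn : 1 ≤ n) : ExpTail V (256 * Real.sqrt (Real.sqrt n)) := by
  intro g hg m hm r hr
  have := hN.prob
  have hn' : (1 : ℝ) ≤ n := by exact_mod_cast hn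
  set q := Real.sqrt (Real.sqrt (n : ℝ)) with hq
  have hq2 : q ^ 2 = Real.sqrt n := Real.sq_sqrt (Real.sqrt_nonneg _)
  have hq1 : 1 ≤ q := Real.one_le_sqrt.2 (Real.one_le_sqrt.2 hn')
  set L := r / (256 * q) with hL
  rcases le_or_gt L 2 with h | h
  · refine measureReal_le_one.trans ?_
    have h1 : Real.exp (-2) ≤ Real.exp (-L) := Real.exp_le_exp.2 (by linarith)
    have h2 : 1 / 8 ≤ Real.exp (-2) := by
      rw [Real.exp_neg, one_div]
      refine inv_anti₀ (Real.exp_pos _) ?_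
      have h3 := Real.exp_one_lt_d9
      have h4 : Real.exp 2 = Real.exp 1 * Real.exp 1 := by rw [← Real.exp_add]; norm_num
      have h5 := Real.exp_pos 1
      rw [h4]; nlinarith
    linarith
  by_contra hc
  have he : r = 256 * q * L := by rw [hL]; field_simp
  have hge : 182 * q ≤ r := by
    rw [he]; nlinarith
  have hA : Real.exp (-L) ≤ (muW V).real {x | m + r ≤ g x} := by
    have := Real.exp_pos (-L)
    linarith [not_le.1 hc]
  have hs := sep_tail hN hn hg hm (L := L) (by linarith) hge hA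
  have h1 : 128 * q * L ≤ r - 182 * q := by rw [he]; nlinarith
  have h2 : (128 * q * L) ^ 2 ≤ (r - 182 * q) ^ 2 := pow_le_pow_left₀ (by positivity) h1 2
  have h3 : max (Real.sqrt (n * L)) L < q ^ 2 * L ^ 2 := by
    rw [hq2]
    have hsn : 1 ≤ Real.sqrt (n : ℝ) := Real.one_le_sqrt.2 hn'
    refine max_lt ?_ ?_
    · rw [Real.sqrt_mul (by positivity)]
      refine mul_lt_mul_of_pos_left ?_ (by positivity)
      have hsq : Real.sqrt L ≤ L := Real.sqrt_le_iff.2 ⟨by linarith, by nlinarith⟩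
      nlinarith
    · calc L < L ^ 2 := by nlinarith
        _ ≤ _ := le_mul_of_one_le_left (sq_nonneg _) hsn
  have h6 : (128 * q * L) ^ 2 = 16384 * (q ^ 2 * L ^ 2) := by ring
  linarith

omit hN in
/-- Medians exist. -/
lemma exists_median {α : Type*} [MeasurableSpace α] (μ : Measure α) [IsProbabilityMeasure μ]
    {f : α → ℝ} (hf : Measurable f) :
    ∃ m, 1 / 2 ≤ μ.real {x | f x ≤ m} ∧ 1 / 2 ≤ μ.real {x | m ≤ f x} := by
  have hms : ∀ c, MeasurableSet {x | f x ≤ c} := fun c => measurableSet_le hf measurable_const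
  have hcast : Tendsto (fun k : ℕ => (k : ℝ)) atTop atTop := tendsto_natCast_atTop_atTop
  set s := {m : ℝ | 1 / 2 ≤ μ.real {x | f x ≤ m}} with hs
  have hne : s.Nonempty := by
    have hU : (⋃ k : ℕ, {x | f x ≤ (k : ℝ)}) = Set.univ := Set.eq_univ_of_forall fun x => by
      obtain ⟨k, hk⟩ := exists_nat_ge (f x)
      exact Set.mem_iUnion.2 ⟨k, hk⟩
    have h1 := tendsto_measure_iUnion_atTop (μ := μ) (s := fun k : ℕ => {x | f x ≤ (k : ℝ)})
      fun i j hij x hx => le_trans (show f x ≤ (i : ℝ) from hx) (Nat.cast_le.2 hij)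
    rw [hU, measure_univ] at h1
    have h2 : Tendsto (fun k : ℕ => μ.real {x | f x ≤ (k : ℝ)}) atTop (𝓝 (1 : ℝ)) := by
      simpa [Measure.real, Function.comp_def] using
        (ENNReal.tendsto_toReal ENNReal.one_ne_top).comp h1
    obtain ⟨k, hk⟩ := (h2.eventually (lt_mem_nhds (by norm_num : (1 : ℝ) / 2 < 1))).exists
    exact ⟨k, hk.le⟩
  have hbdd : BddBelow s := by
    have hI : (⋂ k : ℕ, {x | f x ≤ -(k : ℝ)}) = ∅ := Set.eq_empty_iff_forall_notMem.2 fun x hx => by
      obtain ⟨k, hk⟩ := exists_nat_gt (-f x)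
      have : f x ≤ -(k : ℝ) := Set.mem_iInter.1 hx k
      linarith
    have h1 := tendsto_measure_iInter_atTop (μ := μ) (s := fun k : ℕ => {x | f x ≤ -(k : ℝ)})
      (fun k => (hms _).nullMeasurableSet)
      (fun i j hij x hx => le_trans (show f x ≤ -(j : ℝ) from hx)
        (neg_le_neg (Nat.cast_le.2 hij))) ⟨0, measure_ne_top _ _⟩
    rw [hI, measure_empty] at h1
    have h2 : Tendsto (fun k : ℕ => μ.real {x | f x ≤ -(k : ℝ)}) atTop (𝓝 (0 : ℝ)) := by
      simpa [Measure.real, Function.comp_def] using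
        (ENNReal.tendsto_toReal ENNReal.zero_ne_top).comp h1
    obtain ⟨k, hk⟩ := (h2.eventually (gt_mem_nhds (by norm_num : (0 : ℝ) < 1 / 2))).exists
    refine ⟨-(k : ℝ), fun m hm => le_of_not_gt fun hlt => ?_⟩
    have : μ.real {x | f x ≤ m} ≤ μ.real {x | f x ≤ -(k : ℝ)} :=
      measureReal_mono fun x hx => le_trans (show f x ≤ m from hx) hlt.le
    have hm' : 1 / 2 ≤ μ.real {x | f x ≤ m} := hm
    linarith
  have hmem : ∀ c, sInf s < c → 1 / 2 ≤ μ.real {x | f x ≤ c} := fun c hc => by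
    obtain ⟨d, hd, hdc⟩ := exists_lt_of_csInf_lt hne hc
    exact le_trans hd (measureReal_mono fun x hx => le_trans (show f x ≤ d from hx) hdc.le)
  refine ⟨sInf s, ?_, ?_⟩
  · have hI : (⋂ k : ℕ, {x | f x ≤ sInf s + 1 / ((k : ℝ) + 1)}) = {x | f x ≤ sInf s} := by
      ext x
      simp only [Set.mem_iInter, Set.mem_ofPred_eq]
      refine ⟨fun h => ge_of_tendsto (f := fun k : ℕ => sInf s + 1 / ((k : ℝ) + 1)) (x := atTop) ?_
        (Eventually.of_forall h), fun h k => h.trans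
        (le_add_of_nonneg_right (by positivity))⟩
      simpa using (tendsto_one_div_add_atTop_nhds_zero_nat (𝕜 := ℝ)).const_add (sInf s)
    have h1 := tendsto_measure_iInter_atTop (μ := μ)
      (s := fun k : ℕ => {x | f x ≤ sInf s + 1 / ((k : ℝ) + 1)})
      (fun k => (hms _).nullMeasurableSet)
      (fun i j hij x hx => le_trans (show f x ≤ sInf s + 1 / ((j : ℝ) + 1) from hx)
        (by gcongr)) ⟨0, measure_ne_top _ _⟩
    rw [hI] at h1
    exact ge_of_tendsto ((ENNReal.tendsto_toReal (measure_ne_top _ _)).comp h1)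
      (Eventually.of_forall fun k => hmem _ (lt_add_of_pos_right _ (by positivity)))
  · have hI : (⋂ k : ℕ, {x | sInf s - 1 / ((k : ℝ) + 1) ≤ f x}) = {x | sInf s ≤ f x} := by
      ext x
      simp only [Set.mem_iInter, Set.mem_ofPred_eq]
      refine ⟨fun h => le_of_tendsto (f := fun k : ℕ => sInf s - 1 / ((k : ℝ) + 1)) (x := atTop) ?_
        (Eventually.of_forall h), fun h k =>
        (sub_le_self _ (by positivity)).trans h⟩
      simpa using (tendsto_one_div_add_atTop_nhds_zero_nat (𝕜 := ℝ)).const_sub (sInf s)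
    have h1 := tendsto_measure_iInter_atTop (μ := μ)
      (s := fun k : ℕ => {x | sInf s - 1 / ((k : ℝ) + 1) ≤ f x})
      (fun k => (measurableSet_le measurable_const hf).nullMeasurableSet)
      (fun i j hij x hx => le_trans (by gcongr)
        (show sInf s - 1 / ((j : ℝ) + 1) ≤ f x from hx)) ⟨0, measure_ne_top _ _⟩
    rw [hI] at h1
    refine ge_of_tendsto ((ENNReal.tendsto_toReal (measure_ne_top _ _)).comp h1)
      (Eventually.of_forall fun k => ?_)
    set c := sInf s - 1 / ((k : ℝ) + 1) with hc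
    have hlt : μ.real {x | f x ≤ c} < 1 / 2 := lt_of_not_ge fun h =>
      (not_le.2 (show c < sInf s from sub_lt_self _ (by positivity))) (csInf_le hbdd h)
    have h3 := measureReal_union_le (μ := μ) {x | f x ≤ c} {x | c ≤ f x}
    rw [show {x | f x ≤ c} ∪ {x | c ≤ f x} = Set.univ from
      Set.eq_univ_of_forall fun x => le_total (f x) c, probReal_univ] at h3
    show 1 / 2 ≤ μ.real {x | c ≤ f x}
    linarith

end Vale.Agent.P245.Sub
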