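import Mathlib
import Vale.Agent.P245.Sub.Base

/-!
The damping step: concentration at scale `D` improves to scale `(√n D)^(1/4)`, and its fixed point
`n^(1/6)`.
-/

open MeasureTheory Filter Set
open scoped ContDiff RealInnerProductSpace Topology NNReal ENNReal

namespace Vale.Agent.P245.Sub

variable {n : ℕ} {V : Euc n → ℝ}

lemma exp_moment {D : ℝ} (hD : 0 < D) (μ : Measure (Euc n)) [IsProbabilityMeasure μ]
    {Y : Euc n → ℝ} (hYc : Continuous Y) (hY0 : ∀ x, 0 ≤ Y x)
    (htail : ∀ y, 0 ≤ y → μ.real {x | y ≤ Y x} ≤ 8 * Real.exp (-(y / D))) :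
    Integrable (fun x => Real.exp (Y x / (2 * D))) μ ∧
      ∫ x, Real.exp (Y x / (2 * D)) ∂μ ≤ 40 := by
  set T : ℕ → Euc n → ℝ≥0∞ := fun j => {x | (j : ℝ) * D ≤ Y x}.indicator
    fun _ => ENNReal.ofReal (Real.exp (((j : ℝ) + 1) / 2)) with hT
  have hTm : ∀ j : ℕ, MeasurableSet {x | (j : ℝ) * D ≤ Y x} := fun j =>
    measurableSet_le measurable_const hYc.measurable
  have hp : ∀ x, ENNReal.ofReal (Real.exp (Y x / (2 * D))) ≤ ∑' j, T j x := by
    intro x
    refine le_trans ?_ (ENNReal.le_tsum ⌊Y x / D⌋₊)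
    have h1 : (⌊Y x / D⌋₊ : ℝ) * D ≤ Y x := by
      rw [← le_div_iff₀ hD]; exact Nat.floor_le (div_nonneg (hY0 x) hD.le)
    simp only [hT]
    rw [indicator_of_mem (show x ∈ {y | (⌊Y x / D⌋₊ : ℝ) * D ≤ Y y} from h1)]
    refine ENNReal.ofReal_le_ofReal (Real.exp_le_exp.2 ?_)
    have h2 := Nat.lt_floor_add_one (Y x / D)
    rw [show Y x / (2 * D) = Y x / D / 2 by rw [div_div, mul_comm]]
    linarith
  set a := Real.exp (1 / 2 : ℝ) with ha
  have haa : a * a = Real.exp 1 := by rw [ha, ← Real.exp_add]; norm_num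
  have ha0 : 0 < a := Real.exp_pos _
  have hbound : ∀ j : ℕ, ∫⁻ x, T j x ∂μ ≤ ENNReal.ofReal (8 * a * (a⁻¹) ^ j) := by
    intro j
    simp only [hT]
    rw [lintegral_indicator_const (hTm j), ← ofReal_measureReal (μ := μ),
      ← ENNReal.ofReal_mul (Real.exp_pos _).le]
    refine ENNReal.ofReal_le_ofReal ?_
    have h := mul_le_mul_of_nonneg_left (htail ((j : ℝ) * D) (by positivity))
      (Real.exp_pos (((j : ℝ) + 1) / 2)).le
    refine h.trans (le_of_eq ?_)
    rw [mul_div_assoc, div_self hD.ne', mul_one, ha, ← Real.exp_neg, ← Real.exp_nat_mul,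
      mul_left_comm, ← Real.exp_add, mul_assoc, ← Real.exp_add]
    ring_nf
  have hl : ∫⁻ x, ENNReal.ofReal (Real.exp (Y x / (2 * D))) ∂μ ≤ ENNReal.ofReal 40 := by
    refine (lintegral_mono hp).trans ?_
    rw [lintegral_tsum fun j => (measurable_const.indicator (hTm j)).aemeasurable]
    refine (ENNReal.tsum_le_tsum hbound).trans ?_
    have hq1 : a⁻¹ < 1 := inv_lt_one_of_one_lt₀ (by rw [ha]; exact Real.one_lt_exp_iff.2 (by norm_num))
    have hs := summable_geometric_of_lt_one (inv_pos.2 ha0).le hq1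
    rw [← ENNReal.ofReal_tsum_of_nonneg (fun j => by positivity) (hs.mul_left _), tsum_mul_left,
      tsum_geometric_of_lt_one (inv_pos.2 ha0).le hq1]
    refine ENNReal.ofReal_le_ofReal ?_
    have h1 := Real.exp_one_gt_d9
    have h2 := Real.exp_one_lt_d9
    have h3 : (1.6 : ℝ) ≤ a := by nlinarith
    rw [← div_eq_mul_inv, div_le_iff₀ (by linarith), mul_sub, mul_one, le_sub_iff_add_le]
    field_simp
    nlinarith
  have hm : AEStronglyMeasurable (fun x => Real.exp (Y x / (2 * D))) μ :=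
    (by fun_prop : Continuous fun x => Real.exp (Y x / (2 * D))).aestronglyMeasurable
  have h0 : 0 ≤ᵐ[μ] fun x => Real.exp (Y x / (2 * D)) :=
    Eventually.of_forall fun x => (Real.exp_pos _).le
  refine ⟨⟨hm, (hasFiniteIntegral_iff_ofReal h0).2 (hl.trans_lt ENNReal.ofReal_lt_top)⟩, ?_⟩
  rw [integral_eq_lintegral_of_nonneg_ae h0 hm]
  exact ENNReal.toReal_le_of_le_ofReal (by norm_num) hl

/-- The damped potential. -/
noncomputable def damp (V : Euc n → ℝ) (t c : ℝ) (x : Euc n) : ℝ := V x + (t / 2 * ‖x‖ ^ 2 + c)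

lemma contDiff_damp (hV : ContDiff ℝ ∞ V) (t c : ℝ) : ContDiff ℝ ∞ (damp V t c) :=
  hV.add ((contDiff_const.mul (contDiff_norm_sq ℝ)).add contDiff_const)

lemma conv_damp (hV : ContDiff ℝ ∞ V) (hc0 : Conv V 0) (t c : ℝ) : Conv (damp V t c) t := by
  have hq : ContDiff ℝ ∞ fun x : Euc n => t / 2 * ‖x‖ ^ 2 + c :=
    (contDiff_const.mul (contDiff_norm_sq ℝ)).add contDiff_const
  have h1 : ∀ j (x : Euc n), pd j (fun x : Euc n => t / 2 * ‖x‖ ^ 2 + c) x = t * x j := fun j x => by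
    have h : HasFDerivAt (fun x : Euc n => t / 2 * ‖x‖ ^ 2 + c) _ x :=
      (((hasFDerivAt_id x).norm_sq).const_mul (t / 2)).add_const c
    simp only [pd, h.fderiv]
    simp [bas, EuclideanSpace.inner_single_right]
    ring
  have h2 : ∀ j, pd j (damp V t c) = fun x : Euc n => pd j V x + t * x j := fun j => funext fun x => by
    show pd j (fun x => V x + (t / 2 * ‖x‖ ^ 2 + c)) x = _
    rw [pd_add hV hq, h1]
  intro x v
  have h3 : ∀ i j, pd i (pd j (damp V t c)) x
      = pd i (pd j V) x + t * (if i = j then 1 else 0) := fun i j => by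
    have hp : ContDiff ℝ ∞ fun x : Euc n => t * x j := contDiff_const.mul (by fun_prop)
    rw [h2, pd_add (contDiff_pd hV j) hp]
    congr 1
    have h : HasFDerivAt (fun x : Euc n => t * x j) _ x :=
      (((EuclideanSpace.proj (𝕜 := ℝ) j).hasFDerivAt).const_mul t)
    simp only [pd, h.fderiv]
    simp [bas, eq_comm]
  have h4 := hc0 x v
  rw [zero_mul] at h4
  simp only [h3, add_mul, Finset.sum_add_distrib]
  simp only [mul_ite, ite_mul, mul_one, mul_zero, zero_mul, Finset.sum_ite_eq, Finset.mem_univ,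
    if_true, Finset.mul_sum, sq, mul_assoc] at h4 ⊢
  linarith

lemma exp_facts : Real.exp (-3) ≤ 1 / 8 ∧ 1 / 8 ≤ Real.exp (-2) ∧ Real.exp (-5) ≤ 1 / 128
    ∧ 1 / 3 ≤ Real.exp (-1) := by
  have h1 := Real.exp_one_gt_d9
  have h2 := Real.exp_one_lt_d9
  have e : ∀ k : ℕ, Real.exp (-(k : ℝ)) = (Real.exp 1 ^ k)⁻¹ := fun k => by
    rw [Real.exp_neg, ← Real.exp_nat_mul, mul_one]
  refine ⟨?_, ?_, ?_, ?_⟩
  · rw [show (-3 : ℝ) = -((3 : ℕ) : ℝ) by norm_num, e, one_div]
    refine inv_anti₀ (by norm_num) ?_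
    calc (8 : ℝ) ≤ 2.7 ^ 3 := by norm_num
      _ ≤ _ := by gcongr; linarith
  · rw [show (-2 : ℝ) = -((2 : ℕ) : ℝ) by norm_num, e, one_div]
    refine inv_anti₀ (by positivity) ?_
    calc Real.exp 1 ^ 2 ≤ 2.72 ^ 2 := by gcongr; linarith
      _ ≤ _ := by norm_num
  · rw [show (-5 : ℝ) = -((5 : ℕ) : ℝ) by norm_num, e, one_div]
    refine inv_anti₀ (by norm_num) ?_
    calc (128 : ℝ) ≤ 2.7 ^ 5 := by norm_num
      _ ≤ _ := by gcongr; linarith
  · rw [show (-1 : ℝ) = -((1 : ℕ) : ℝ) by norm_num, e, one_div]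
    exact inv_anti₀ (by positivity) (by linarith)

/-- Cauchy–Schwarz for a weighted second moment. -/
lemma weighted_cs {μ : Measure (Euc n)} {w : Euc n → ℝ} (hwc : Continuous w) (hw0 : ∀ x, 0 ≤ w x)
    (θ : Euc n) (i4 : Integrable (fun x => ⟪x, θ⟫ ^ 4) μ) (b4 : ∫ x, ⟪x, θ⟫ ^ 4 ∂μ ≤ 64)
    (iw2 : Integrable (fun x => w x ^ 2) μ) (w240 : ∫ x, w x ^ 2 ∂μ ≤ 40) :
    Integrable (fun x => ⟪x, θ⟫ ^ 2 * w x) μ ∧ ∫ x, ⟪x, θ⟫ ^ 2 * w x ∂μ ≤ 52 := by
  have hcs : ∀ x : Euc n, ⟪x, θ⟫ ^ 2 * w x ≤ (⟪x, θ⟫ ^ 4 + w x ^ 2) / 2 := fun x => by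
    linarith [sq_nonneg (⟪x, θ⟫ ^ 2 - w x), show (⟪x, θ⟫ ^ 2 - w x) ^ 2
      = ⟪x, θ⟫ ^ 4 + w x ^ 2 - 2 * (⟪x, θ⟫ ^ 2 * w x) by ring]
  have hqc : Continuous fun x : Euc n => ⟪x, θ⟫ ^ 2 * w x :=
    ((continuous_id.inner continuous_const).pow 2).mul hwc
  have hi : Integrable (fun x => (⟪x, θ⟫ ^ 4 + w x ^ 2) / 2) μ := (i4.add iw2).div_const 2
  have iq : Integrable (fun x => ⟪x, θ⟫ ^ 2 * w x) μ :=
    hi.mono' hqc.aestronglyMeasurable (Eventually.of_forall fun x => by
      rw [Real.norm_eq_abs, abs_of_nonneg (mul_nonneg (sq_nonneg _) (hw0 x))]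
      exact hcs x)
  refine ⟨iq, (integral_mono iq hi hcs).trans ?_⟩
  rw [integral_div, integral_add i4 iw2]
  linarith

/-- Linear second moments after reweighting. -/
lemma mom_of_weight (hN : Nice V) {V' : Euc n → ℝ} {w : Euc n → ℝ} (hwc : Continuous w)
    (hw0 : ∀ x, 0 ≤ w x) (iw2 : Integrable (fun x => w x ^ 2) (muW V))
    (w240 : ∫ x, w x ^ 2 ∂(muW V) ≤ 40) {Z : ℝ} (hZ0 : 0 < Z) (hZ24 : Z⁻¹ ≤ 24)
    (hWV' : ∀ x, wV V' x = Z⁻¹ * (w x * wV V x)) : Mom V' 1300 := by
  set Zi := Z⁻¹ with hZi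
  have hZi0 : 0 ≤ Zi := (inv_pos.2 hZ0).le
  set μ := muW V with hμ
  have hint : ∀ F : Euc n → ℝ, ∫ x, F x * wV V' x = Zi * ∫ x, F x * w x ∂μ := fun F => by
    rw [hμ, integral_muW hN.smooth, ← integral_const_mul]
    exact integral_congr_ae (Eventually.of_forall fun x => by simp only [hWV']; ring)
  intro e
  rcases eq_or_ne e 0 with rfl | he
  · simp
  set θ := ‖e‖⁻¹ • e with hθ
  have hθ1 : ‖θ‖ = 1 := by
    rw [hθ, norm_smul, norm_inv, norm_norm, inv_mul_cancel₀ (norm_ne_zero_iff.2 he)]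
  obtain ⟨i4, b4⟩ := fourth_moment hN θ hθ1
  have hs : ∀ x : Euc n, ⟪x, e⟫ ^ 2 = ‖e‖ ^ 2 * ⟪x, θ⟫ ^ 2 := fun x => by
    rw [hθ, inner_smul_right, mul_pow, ← mul_assoc, inv_pow,
      mul_inv_cancel₀ (pow_ne_zero _ (norm_ne_zero_iff.2 he)), one_mul]
  obtain ⟨iq, bq⟩ := weighted_cs hwc hw0 θ i4 b4 iw2 w240
  constructor
  · have := ((integrable_muW hN.smooth).1 iq).const_mul (Zi * ‖e‖ ^ 2)
    refine this.congr (Eventually.of_forall fun x => ?_)
    simp only [hWV', hs]; ring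
  · simp only [hs, mul_assoc]
    rw [integral_const_mul, hint, mul_comm (1300 : ℝ)]
    refine mul_le_mul_of_nonneg_left ?_ (sq_nonneg _)
    calc Zi * ∫ x, ⟪x, θ⟫ ^ 2 * w x ∂μ ≤ 24 * 52 := by
          refine mul_le_mul ?_ bq (integral_nonneg fun x => mul_nonneg (sq_nonneg _) (hw0 x))
            (by norm_num)
          exact hZ24
      _ ≤ 1300 := by norm_num

/-- The damped measure has a Poincaré constant and mass facts; here packaged as a tail bound. -/
lemma damped_tail (hN : Nice V) {D M : ℝ} (hD1 : 1 ≤ D) (hn : 1 ≤ n)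
    (hDn : D ≤ 10 ^ 9 * Real.sqrt n) (hE : ExpTail V D) (hM0 : 0 ≤ M) (hM : M ≤ 3 * Real.sqrt n)
    (hMu : 1 / 2 ≤ (muW V).real {x | ‖x‖ ≤ M}) (hMl : 1 / 2 ≤ (muW V).real {x | M ≤ ‖x‖})
    {g : Euc n → ℝ} (hg : LipschitzWith 1 g) {m : ℝ}
    (hm : 1 / 4 ≤ (muW V).real {x | g x ≤ m}) {r : ℝ} (hr : 0 ≤ r) :
    ∫ x, {x | m + r ≤ g x}.indicator
        (fun x => Real.exp (-(5e-11 / (Real.sqrt n * D)) / 2 * (‖x‖ ^ 2 - M ^ 2))) x ∂(muW V)
      ≤ 42 * Real.exp (-(r / (1e6 / 3 * Real.sqrt (Real.sqrt (Real.sqrt n * D))))) := by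
  have := hN.prob
  have hgc := hg.continuous.measurable
  have hn' : (1 : ℝ) ≤ n := by exact_mod_cast hn
  have hsn : 1 ≤ Real.sqrt (n : ℝ) := Real.one_le_sqrt.2 hn'
  set X := Real.sqrt n * D with hX
  have hX1 : 1 ≤ X := one_le_mul_of_one_le_of_one_le hsn hD1
  set t := 5e-11 / X with htdef
  have ht : 0 < t := by positivity
  set μ := muW V with hμ
  set w := fun x : Euc n => Real.exp (-t / 2 * (‖x‖ ^ 2 - M ^ 2)) with hw
  have hwc : Continuous w := by rw [hw]; fun_prop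
  have hw0 : ∀ x, 0 < w x := fun x => Real.exp_pos _
  set Y := fun x : Euc n => max (M - ‖x‖) 0 with hY
  have hYc : Continuous Y := by rw [hY]; fun_prop
  have hdown : ∀ y, 0 ≤ y → μ.real {x | -M + y ≤ -‖x‖} ≤ 8 * Real.exp (-(y / D)) := by
    refine hE _ lipschitzWith_one_norm.neg (-M) ?_
    simp only [Pi.neg_apply, neg_le_neg_iff]
    linarith
  have hup : ∀ y, 0 ≤ y → μ.real {x | M + y ≤ ‖x‖} ≤ 8 * Real.exp (-(y / D)) :=
    hE _ lipschitzWith_one_norm M (by linarith)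
  obtain ⟨hYi, hY40⟩ := exp_moment (by linarith : 0 < D) μ hYc (fun x => le_max_right _ _)
    (fun y hy => by
      rcases hy.eq_or_lt with rfl | hy'
      · refine measureReal_le_one.trans ?_; simp
      refine (measureReal_mono fun x hx => ?_).trans (hdown y hy)
      have hx' : y ≤ max (M - ‖x‖) 0 := hx
      show -M + y ≤ -‖x‖
      rcases max_cases (M - ‖x‖) 0 with ⟨h1, -⟩ | ⟨h1, -⟩ <;> rw [h1] at hx' <;> linarith)
  have hw2 : ∀ x, w x ^ 2 ≤ Real.exp (Y x / (2 * D)) := fun x => by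
    simp only [hw, ← Real.exp_nat_mul]
    refine Real.exp_le_exp.2 ?_
    push_cast
    have h1 : M ^ 2 - ‖x‖ ^ 2 ≤ 2 * M * Y x := by
      simp only [hY]
      rcases le_total M ‖x‖ with h | h
      · rw [max_eq_right (by linarith)]; nlinarith
      · rw [max_eq_left (by linarith)]; nlinarith [norm_nonneg x]
    have hY0 : 0 ≤ Y x := le_max_right _ _
    have h2 : 2 * t * M ≤ 1 / (2 * D) := by
      rw [htdef, hX, le_div_iff₀ (by positivity)]
      calc 2 * (5e-11 / (Real.sqrt n * D)) * M * (2 * D)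
          = 2e-10 * (M / Real.sqrt n) := by field_simp; ring
        _ ≤ 2e-10 * 3 := by
          refine mul_le_mul_of_nonneg_left ?_ (by norm_num)
          rw [div_le_iff₀ (by linarith)]; exact hM
        _ ≤ 1 := by norm_num
    calc 2 * (-t / 2 * (‖x‖ ^ 2 - M ^ 2)) = t * (M ^ 2 - ‖x‖ ^ 2) := by ring
      _ ≤ t * (2 * M * Y x) := mul_le_mul_of_nonneg_left h1 ht.le
      _ = 2 * t * M * Y x := by ring
      _ ≤ 1 / (2 * D) * Y x := mul_le_mul_of_nonneg_right h2 hY0
      _ = _ := by ring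
  have iw2 : Integrable (fun x => w x ^ 2) μ :=
    hYi.mono' (hwc.pow 2).aestronglyMeasurable (Eventually.of_forall fun x => by
      rw [Real.norm_eq_abs, abs_of_nonneg (sq_nonneg _)]; exact hw2 x)
  have w240 : ∫ x, w x ^ 2 ∂μ ≤ 40 := (integral_mono iw2 hYi hw2).trans hY40
  have iw : Integrable w μ :=
    (iw2.add (integrable_const (1 : ℝ))).mono' hwc.aestronglyMeasurable
      (Eventually.of_forall fun x => by
        simp only [Pi.add_apply, Real.norm_eq_abs, abs_of_pos (hw0 x)]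
        nlinarith [sq_nonneg (w x - 1), hw0 x])
  set Z := ∫ x, w x ∂μ with hZ
  have hZ21 : Z ≤ 21 := by
    calc Z ≤ ∫ x, (w x ^ 2 + 1) / 2 ∂μ := by
          refine integral_mono iw ((iw2.add (integrable_const (1 : ℝ))).div_const 2) fun x => ?_
          nlinarith [sq_nonneg (w x - 1)]
      _ ≤ 21 := by
        rw [integral_div, integral_add iw2 (integrable_const _), integral_const]
        simp only [probReal_univ, smul_eq_mul, mul_one]
        linarith
  -- lower bound on the damped mass of a quarter set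
  set G := {x : Euc n | |‖x‖ - M| ≤ 5 * D} with hG
  have hGm : MeasurableSet G := measurableSet_le (by fun_prop) measurable_const
  have hGc : μ.real Gᶜ ≤ 1 / 8 := by
    refine (measureReal_mono (s₂ := {x | M + 5 * D ≤ ‖x‖} ∪ {x | -M + 5 * D ≤ -‖x‖}) ?_).trans ?_
    · intro x hx
      have hx' : ¬|‖x‖ - M| ≤ 5 * D := hx
      rw [abs_le, not_and_or, not_le, not_le] at hx'
      rcases hx' with h | h
      · exact Or.inr (show -M + 5 * D ≤ -‖x‖ by linarith)
      · exact Or.inl (show M + 5 * D ≤ ‖x‖ by linarith)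
    refine (measureReal_union_le _ _).trans ?_
    have h1 := hup (5 * D) (by linarith)
    have h2 := hdown (5 * D) (by linarith)
    rw [mul_div_assoc, div_self (by linarith : D ≠ 0), mul_one] at h1 h2
    linarith [exp_facts.2.2.1]
  have hwG : ∀ x ∈ G, Real.exp (-1) ≤ w x := fun x hx => by
    refine Real.exp_le_exp.2 ?_
    have hx' : |‖x‖ - M| ≤ 5 * D := hx
    have h1 : ‖x‖ ^ 2 - M ^ 2 ≤ 5 * D * (2 * M + 5 * D) := by
      rw [abs_le] at hx'
      nlinarith [norm_nonneg x]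
    have h2 : t / 2 * (5 * D * (2 * M + 5 * D)) ≤ 1 := by
      have h3 : 2 * M + 5 * D ≤ (6 + 5e9) * Real.sqrt n := by linarith
      calc t / 2 * (5 * D * (2 * M + 5 * D)) ≤ t / 2 * (5 * D * ((6 + 5e9) * Real.sqrt n)) := by
            gcongr
        _ = 5e-11 * 5 * (6 + 5e9) / 2 := by rw [htdef, hX]; field_simp
        _ ≤ 1 := by norm_num
    have h4 := mul_le_mul_of_nonneg_left h1 (half_pos ht).le
    linarith
  set A := {x | g x ≤ m} with hA
  have hAm : MeasurableSet A := measurableSet_le hgc measurable_const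
  have hAw : 1 / 24 ≤ ∫ x, A.indicator w x ∂μ := by
    have hAG : 1 / 8 ≤ μ.real (A ∩ G) := by
      have : μ.real A ≤ μ.real (A ∩ G) + μ.real Gᶜ := by
        refine (measureReal_mono (fun x hx => ?_)).trans (measureReal_union_le _ _)
        by_cases hxG : x ∈ G
        · exact Or.inl ⟨hx, hxG⟩
        · exact Or.inr hxG
      linarith
    calc (1 : ℝ) / 24 ≤ μ.real (A ∩ G) * Real.exp (-1) := by
          calc (1 : ℝ) / 24 = 1 / 8 * (1 / 3) := by norm_num
            _ ≤ _ := mul_le_mul hAG exp_facts.2.2.2 (by norm_num) measureReal_nonneg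
      _ = ∫ x, (A ∩ G).indicator (fun _ => Real.exp (-1)) x ∂μ := by
          rw [integral_indicator (hAm.inter hGm), setIntegral_const, smul_eq_mul]
      _ ≤ _ := by
          refine integral_mono ((integrable_const _).indicator (hAm.inter hGm))
            (iw.indicator hAm) fun x => ?_
          by_cases hx : x ∈ A ∩ G
          · rw [indicator_of_mem hx, indicator_of_mem hx.1]; exact hwG x hx.2
          · rw [indicator_of_notMem hx]; exact indicator_nonneg (fun y _ => (hw0 y).le) x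
  have hZ24 : 1 / 24 ≤ Z := hAw.trans (integral_mono (iw.indicator hAm) iw fun x =>
    indicator_le_self' (fun y _ => (hw0 y).le) x)
  have hZ0 : 0 < Z := by linarith
  -- the damped potential
  set V' := damp V t (Real.log Z - t / 2 * M ^ 2) with hV'
  have hV'c : ContDiff ℝ ∞ V' := contDiff_damp hN.smooth _ _
  have hWV' : ∀ x, wV V' x = Z⁻¹ * (w x * wV V x) := fun x => by
    simp only [hV', damp, wV, hw]
    rw [← Real.exp_add, ← Real.exp_log (inv_pos.2 hZ0), Real.log_inv, ← Real.exp_add]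
    congr 1; ring
  have hint : ∀ F : Euc n → ℝ, ∫ x, F x * wV V' x = Z⁻¹ * ∫ x, F x * w x ∂μ := fun F => by
    rw [hμ, integral_muW hN.smooth, ← integral_const_mul]
    exact integral_congr_ae (Eventually.of_forall fun x => by simp only [hWV']; ring)
  have hI : ∫ x, wV V' x = 1 := by
    have := hint fun _ => 1
    simp only [one_mul] at this
    rw [this, ← hZ, inv_mul_cancel₀ hZ0.ne']
  have hmom : Mom V' 1300 := mom_of_weight hN hwc (fun x => (hw0 x).le) iw2 w240 hZ0
    (by rw [inv_le_comm₀ hZ0 (by norm_num), ← one_div]; exact hZ24) hWV'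
  have hP := poincare_damped hV'c hI ht (by norm_num) (conv_damp hN.smooth hN.conv _ _) hmom
  have hreal : ∀ S : Set (Euc n), MeasurableSet S →
      (muW V').real S = Z⁻¹ * ∫ x, S.indicator w x ∂μ := fun S hS => by
    have h1 : ∫ x, S.indicator (fun _ => (1 : ℝ)) x ∂(muW V') = (muW V').real S := by
      rw [integral_indicator hS, setIntegral_const, smul_eq_mul, mul_one]
    rw [← h1, integral_muW hV'c, hint]
    congr 1
    refine integral_congr_ae (Eventually.of_forall fun x => ?_)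
    by_cases hx : x ∈ S <;> simp [hx]
  have hp0 : (1 / 600 : ℝ) ≤ (muW V').real A := by
    rw [hreal A hAm]
    calc (1 : ℝ) / 600 ≤ 21⁻¹ * (1 / 24) := by norm_num
      _ ≤ Z⁻¹ * ∫ x, A.indicator w x ∂μ :=
        mul_le_mul (inv_anti₀ hZ0 hZ21) hAw (by norm_num) (inv_pos.2 hZ0).le
  have htail := poi_tail hV'c hI (Real.sqrt_pos.2 (div_pos (by norm_num) ht)) hP hg
    (by norm_num : (0 : ℝ) < 1 / 600) hp0 hr
  rw [hreal _ (measurableSet_le measurable_const hgc), inv_mul_le_iff₀ hZ0] at htail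
  refine htail.trans ?_
  set D1 := 1e6 / 3 * Real.sqrt (Real.sqrt X) with hD1d
  have hle : 4 * Real.sqrt (Real.sqrt (1300 / t) / (1 / 600)) ≤ D1 := by
    have e1 : 1300 / t = 26e12 * X := by rw [htdef]; field_simp; ring
    rw [e1, Real.sqrt_mul (by norm_num)]
    have hb1 : Real.sqrt (26e12) ≤ 6e6 := Real.sqrt_le_iff.2 ⟨by norm_num, by norm_num⟩
    have hb : Real.sqrt (26e12) * Real.sqrt X / (1 / 600) ≤ 36e8 * Real.sqrt X := by
      have := mul_le_mul_of_nonneg_right hb1 (Real.sqrt_nonneg X)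
      linarith
    calc 4 * Real.sqrt (Real.sqrt (26e12) * Real.sqrt X / (1 / 600))
        ≤ 4 * Real.sqrt (36e8 * Real.sqrt X) := by gcongr
      _ = 4 * 6e4 * Real.sqrt (Real.sqrt X) := by
          rw [Real.sqrt_mul (by norm_num), show (36e8 : ℝ) = 6e4 ^ 2 by norm_num,
            Real.sqrt_sq (by norm_num)]
          ring
      _ ≤ D1 := by rw [hD1d]; gcongr; norm_num
  calc Z * (2 * Real.exp (-(r / (4 * Real.sqrt (Real.sqrt (1300 / t) / (1 / 600))))))
      ≤ 21 * (2 * Real.exp (-(r / D1))) := by gcongr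
    _ = _ := by ring

/-- Both tails of the norm around its median, cut at `320 √n`. -/
lemma norm_tail (hN : Nice V) (hn : 1 ≤ n) {D M L : ℝ} (hD1 : 1 ≤ D) (hE : ExpTail V D)
    (hM0 : 0 ≤ M) (hM : M ≤ 3 * Real.sqrt n) (hMu : 1 / 2 ≤ (muW V).real {x | ‖x‖ ≤ M})
    (hMl : 1 / 2 ≤ (muW V).real {x | M ≤ ‖x‖}) (hL : 0 ≤ L) (hLn : L ≤ n) :
    (muW V).real {x : Euc n | |‖x‖ - M| ≤ min (D * L) (320 * Real.sqrt n)}ᶜ
      ≤ 16 * Real.exp (-L) := by
  have := hN.prob
  have hn' : (1 : ℝ) ≤ n := by exact_mod_cast hn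
  have hsn : 1 ≤ Real.sqrt (n : ℝ) := Real.one_le_sqrt.2 hn'
  set μ := muW V with hμ
  set q := Real.sqrt (Real.sqrt (n : ℝ)) with hq
  have hqs : q ≤ Real.sqrt n := Real.sqrt_le_iff.2 ⟨by linarith, le_self_pow₀ hsn (by norm_num)⟩
  set k := min (D * L) (320 * Real.sqrt n) with hk
  have hk0 : 0 ≤ k := le_min (by positivity) (by positivity)
  refine (measureReal_mono (s₂ := {x | M + k ≤ ‖x‖} ∪ {x | -M + k ≤ -‖x‖}) ?_).trans ?_
  · intro x hx
    have hx' : ¬|‖x‖ - M| ≤ k := hx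
    rw [abs_le, not_and_or, not_le, not_le] at hx'
    rcases hx' with h | h
    · exact Or.inr (show -M + k ≤ -‖x‖ by linarith)
    · exact Or.inl (show M + k ≤ ‖x‖ by linarith)
  refine (measureReal_union_le _ _).trans ?_
  rcases le_total (D * L) (320 * Real.sqrt n) with h | h
  · have h1 := hE _ lipschitzWith_one_norm M (by linarith) k hk0
    have h2 := hE _ lipschitzWith_one_norm.neg (-M)
      (by simp only [Pi.neg_apply, neg_le_neg_iff]; linarith) k hk0
    simp only [Pi.neg_apply] at h2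
    rw [show k = D * L from min_eq_left h, mul_div_cancel_left₀ _ (by linarith : D ≠ 0)] at h1 h2
    rw [show k = D * L from min_eq_left h]
    linarith
  · rw [show k = 320 * Real.sqrt n from min_eq_right h]
    have h2 : {x : Euc n | -M + 320 * Real.sqrt n ≤ -‖x‖} = ∅ :=
      Set.eq_empty_iff_forall_notMem.2 fun x hx => by
        have hx' : -M + 320 * Real.sqrt n ≤ -‖x‖ := hx
        linarith [norm_nonneg x]
    have h1 : μ.real {x | M + 320 * Real.sqrt n ≤ ‖x‖} ≤ Real.exp (-(n : ℝ)) := by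
      by_contra hc
      have hs := sep_tail hN hn lipschitzWith_one_norm (m := M) (by linarith) (L := n) hn'
        (r := 320 * Real.sqrt n) (by linarith) (not_le.1 hc).le
      have h3 : Real.sqrt ((n : ℝ) * n) = n := Real.sqrt_mul_self (by linarith)
      rw [h3, max_self] at hs
      have h4 : (138 * Real.sqrt n) ^ 2 ≤ (320 * Real.sqrt n - 182 * q) ^ 2 :=
        pow_le_pow_left₀ (by positivity) (by linarith) 2
      rw [mul_pow, Real.sq_sqrt (by linarith)] at h4
      linarith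
    rw [h2, measureReal_empty]
    have h3 : Real.exp (-(n : ℝ)) ≤ Real.exp (-L) := Real.exp_le_exp.2 (by linarith)
    linarith [Real.exp_pos (-L)]

/-- One damping step. -/
theorem expTail_step (hN : Nice V) (hn : 1 ≤ n) {D : ℝ} (hD1 : 1 ≤ D)
    (hDn : D ≤ 10 ^ 9 * Real.sqrt n) (hE : ExpTail V D) :
    ExpTail V (2e6 * Real.sqrt (Real.sqrt (Real.sqrt n * D))) := by
  intro g hg m hm r hr
  have := hN.prob
  have hn' : (1 : ℝ) ≤ n := by exact_mod_cast hn
  have hsn : 1 ≤ Real.sqrt (n : ℝ) := Real.one_le_sqrt.2 hn'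
  have hgc := hg.continuous.measurable
  set μ := muW V with hμ
  set X := Real.sqrt n * D with hX
  have hX1 : 1 ≤ Real.sqrt (Real.sqrt X) :=
    Real.one_le_sqrt.2 (Real.one_le_sqrt.2 (one_le_mul_of_one_le_of_one_le hsn hD1))
  set D1 := 1e6 / 3 * Real.sqrt (Real.sqrt X) with hD1d
  have h400 : 400 ≤ D1 := by rw [hD1d]; nlinarith
  have hD6 : 2e6 * Real.sqrt (Real.sqrt X) = 6 * D1 := by rw [hD1d]; ring
  rw [hD6]
  set L := r / D1 with hL
  have hr6 : r / (6 * D1) = L / 6 := by rw [hL, div_div, mul_comm]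
  rw [hr6]
  have hrL : r = D1 * L := by rw [hL]; field_simp
  obtain ⟨e3, e2, -, -⟩ := exp_facts
  rcases le_or_gt L 10 with h10 | h10
  · refine measureReal_le_one.trans ?_
    have : Real.exp (-2) ≤ Real.exp (-(L / 6)) := Real.exp_le_exp.2 (by linarith)
    linarith
  set B := {x | m + r ≤ g x} with hB
  have hBm : MeasurableSet B := measurableSet_le measurable_const hgc
  set q := Real.sqrt (Real.sqrt (n : ℝ)) with hq
  have hqs : q ≤ Real.sqrt n := Real.sqrt_le_iff.2 ⟨by linarith, le_self_pow₀ hsn (by norm_num)⟩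
  have hqn : q ≤ n := hqs.trans (Real.sqrt_le_iff.2 ⟨by linarith, le_self_pow₀ hn' (by norm_num)⟩)
  rcases lt_or_ge (n : ℝ) L with hLn | hLn
  · by_contra hc
    have hA : Real.exp (-L) ≤ μ.real B := by
      have h1 : Real.exp (-L) ≤ Real.exp (-(L / 6)) := Real.exp_le_exp.2 (by linarith)
      have h2 := Real.exp_pos (-(L / 6))
      linarith [not_le.1 hc]
    have h400L : 400 * L ≤ r := by
      rw [hrL]; exact mul_le_mul_of_nonneg_right h400 (by linarith)
    have hs := sep_tail hN hn hg hm (L := L) (by linarith) (r := r) (by linarith) hA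
    have h3 : max (Real.sqrt (n * L)) L = L := max_eq_right
      (Real.sqrt_le_iff.2 ⟨by linarith, by nlinarith⟩)
    rw [h3] at hs
    have h4 : (218 * L) ^ 2 ≤ (r - 182 * q) ^ 2 :=
      pow_le_pow_left₀ (by linarith) (by linarith) 2
    nlinarith
  obtain ⟨M, hMu, hMl⟩ := exists_median μ (f := fun x : Euc n => ‖x‖) measurable_norm
  have hM0 : 0 ≤ M := by
    by_contra h
    have : {x : Euc n | ‖x‖ ≤ M} = ∅ := Set.eq_empty_iff_forall_notMem.2 fun x hx => by
      have hx' : ‖x‖ ≤ M := hx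
      linarith [norm_nonneg x]
    rw [this, measureReal_empty] at hMu
    norm_num at hMu
  have hM := norm_median_le hN hn hM0 hMl
  have hdt := damped_tail hN hD1 hn hDn hE hM0 hM hMu hMl hg hm hr
  rw [← hX, ← hD1d, ← hL, ← hB] at hdt
  set t := 5e-11 / X with htdef
  have ht : 0 < t := by positivity
  set k := min (D * L) (320 * Real.sqrt n) with hk
  have hk0 : 0 ≤ k := le_min (by positivity) (by positivity)
  set G := {x : Euc n | |‖x‖ - M| ≤ k} with hG
  have hGm : MeasurableSet G := measurableSet_le (by fun_prop) measurable_const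
  have hGc : μ.real Gᶜ ≤ 16 * Real.exp (-L) :=
    norm_tail hN hn hD1 hE hM0 hM hMu hMl (by linarith) hLn
  have hwG : ∀ x ∈ G, 1 ≤ Real.exp (L / 2) * Real.exp (-t / 2 * (‖x‖ ^ 2 - M ^ 2)) := fun x hx => by
    rw [← Real.exp_add]
    refine Real.one_le_exp ?_
    have hx' : |‖x‖ - M| ≤ k := hx
    have h1 : ‖x‖ ^ 2 - M ^ 2 ≤ k * (2 * M + k) := by
      rw [abs_le] at hx'
      nlinarith [norm_nonneg x]
    have h2 : t / 2 * (k * (2 * M + k)) ≤ L / 2 := by
      have h3 : 2 * M + k ≤ 326 * Real.sqrt n := by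
        linarith [min_le_right (D * L) (320 * Real.sqrt n)]
      calc t / 2 * (k * (2 * M + k)) ≤ t / 2 * ((D * L) * (326 * Real.sqrt n)) := by
            gcongr
            exact min_le_left _ _
        _ = 5e-11 * 326 * (L / 2) := by rw [htdef, hX]; field_simp
        _ ≤ L / 2 := by nlinarith
    have h4 := mul_le_mul_of_nonneg_left h1 (half_pos ht).le
    linarith
  have iw : Integrable (B.indicator fun x : Euc n => Real.exp (-t / 2 * (‖x‖ ^ 2 - M ^ 2))) μ := by
    refine (Integrable.of_bound (by fun_prop : Continuous fun x : Euc n =>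
      Real.exp (-t / 2 * (‖x‖ ^ 2 - M ^ 2))).aestronglyMeasurable (Real.exp (t / 2 * M ^ 2))
      (Eventually.of_forall fun x => ?_)).indicator hBm
    rw [Real.norm_eq_abs, abs_of_pos (Real.exp_pos _)]
    refine Real.exp_le_exp.2 ?_
    have := mul_nonneg (half_pos ht).le (sq_nonneg ‖x‖)
    linarith
  have hBG : μ.real (B ∩ G) ≤ Real.exp (L / 2) * (42 * Real.exp (-L)) := by
    refine le_trans ?_ (mul_le_mul_of_nonneg_left hdt (Real.exp_pos _).le)
    rw [← integral_const_mul, show μ.real (B ∩ G)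
      = ∫ x, (B ∩ G).indicator (fun _ => (1 : ℝ)) x ∂μ by
      rw [integral_indicator (hBm.inter hGm), setIntegral_const, smul_eq_mul, mul_one]]
    refine integral_mono ((integrable_const _).indicator (hBm.inter hGm)) (iw.const_mul _)
      fun x => ?_
    by_cases hx : x ∈ B ∩ G
    · rw [indicator_of_mem hx, indicator_of_mem hx.1]; exact hwG x hx.2
    · rw [indicator_of_notMem hx]
      exact mul_nonneg (Real.exp_pos _).le (indicator_nonneg (fun y _ => (Real.exp_pos _).le) x)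
  have hsplit : μ.real B ≤ μ.real (B ∩ G) + μ.real Gᶜ := by
    refine (measureReal_mono (fun x hx => ?_)).trans (measureReal_union_le _ _)
    by_cases hxG : x ∈ G
    · exact Or.inl ⟨hx, hxG⟩
    · exact Or.inr hxG
  have e1 : Real.exp (L / 2) * (42 * Real.exp (-L)) = 42 * Real.exp (-(L / 2)) := by
    rw [mul_left_comm, ← Real.exp_add]; ring_nf
  have e4 : Real.exp (-L) ≤ Real.exp (-(L / 2)) := Real.exp_le_exp.2 (by linarith)
  have e5 : Real.exp (-(L / 2)) ≤ 1 / 8 * Real.exp (-(L / 6)) := by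
    calc Real.exp (-(L / 2)) = Real.exp (-(L / 3)) * Real.exp (-(L / 6)) := by
          rw [← Real.exp_add]; ring_nf
      _ ≤ _ := mul_le_mul_of_nonneg_right
          ((Real.exp_le_exp.2 (by linarith)).trans e3) (Real.exp_pos _).le
  have e6 := Real.exp_pos (-(L / 6))
  linarith

/-- The fixed point of the damping step. -/
theorem expTail_fixed (hN : Nice V) (hn : 1 ≤ n) :
    ExpTail V (10 ^ 9 * (n : ℝ) ^ ((1 : ℝ) / 6)) := by
  have hn' : (1 : ℝ) ≤ n := by exact_mod_cast hn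
  have hn0 : (0 : ℝ) < n := by linarith
  have hss : ∀ p : ℝ, Real.sqrt (Real.sqrt ((n : ℝ) ^ p)) = (n : ℝ) ^ (p / 4) := fun p => by
    rw [Real.sqrt_eq_rpow, Real.sqrt_eq_rpow, ← Real.rpow_mul hn0.le, ← Real.rpow_mul hn0.le]
    congr 1; ring
  set e : ℕ → ℝ := fun k => 1 / 6 + (1 / 4 : ℝ) ^ k / 12 with he
  have key : ∀ k, ExpTail V (10 ^ 9 * (n : ℝ) ^ e k) := by
    intro k
    induction k with
    | zero =>
      have h4 : (n : ℝ) ^ e 0 = Real.sqrt (Real.sqrt n) := by
        have := hss 1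
        rw [Real.rpow_one] at this
        rw [this, he]; norm_num
      rw [h4]
      have hq : 0 < Real.sqrt (Real.sqrt (n : ℝ)) := Real.sqrt_pos.2 (Real.sqrt_pos.2 hn0)
      exact (expTail_base hN hn).mono (by positivity) (by nlinarith)
    | succ k ih =>
      have h1 : (1 / 4 : ℝ) ^ k ≤ 1 := pow_le_one₀ (by norm_num) (by norm_num)
      have h0 : 0 ≤ (1 / 4 : ℝ) ^ k := by positivity
      have he2 : e k ≤ 1 / 2 := by simp only [he]; linarith
      have he0 : 0 ≤ e k := by simp only [he]; linarith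
      have hD1 : 1 ≤ 10 ^ 9 * (n : ℝ) ^ e k :=
        one_le_mul_of_one_le_of_one_le (by norm_num) (Real.one_le_rpow hn' he0)
      have hDn : 10 ^ 9 * (n : ℝ) ^ e k ≤ 10 ^ 9 * Real.sqrt n := by
        rw [Real.sqrt_eq_rpow]
        exact mul_le_mul_of_nonneg_left (Real.rpow_le_rpow_of_exponent_le hn' he2) (by norm_num)
      have hs := expTail_step hN hn hD1 hDn ih
      have e1 : Real.sqrt n * (10 ^ 9 * (n : ℝ) ^ e k) = 10 ^ 9 * (n : ℝ) ^ (1 / 2 + e k) := by
        rw [Real.rpow_add hn0 (1 / 2) (e k), Real.sqrt_eq_rpow]; ring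
      have e2 : (1 / 2 + e k) / 4 = e (k + 1) := by simp only [he, pow_succ]; ring
      rw [e1, Real.sqrt_mul (by norm_num), Real.sqrt_mul (Real.sqrt_nonneg _), hss, e2] at hs
      refine hs.mono (by positivity) ?_
      rw [← mul_assoc]
      refine mul_le_mul_of_nonneg_right ?_ (Real.rpow_nonneg hn0.le _)
      have hb : Real.sqrt (Real.sqrt (10 ^ 9)) ≤ 200 :=
        Real.sqrt_le_iff.2 ⟨by norm_num, Real.sqrt_le_iff.2 ⟨by norm_num, by norm_num⟩⟩
      norm_num at hb ⊢
      linarith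
  intro g hg m hm r hr
  have hlim : Tendsto (fun k => 8 * Real.exp (-(r / (10 ^ 9 * (n : ℝ) ^ e k)))) atTop
      (𝓝 (8 * Real.exp (-(r / (10 ^ 9 * (n : ℝ) ^ ((1 : ℝ) / 6)))))) := by
    have he' : Tendsto e atTop (𝓝 (1 / 6)) := by
      have h := ((tendsto_pow_atTop_nhds_zero_of_lt_one (by norm_num : (0 : ℝ) ≤ 1 / 4)
        (by norm_num)).div_const 12).const_add (1 / 6 : ℝ)
      rw [zero_div, add_zero] at h
      exact h
    have hp : Tendsto (fun k => (n : ℝ) ^ e k) atTop (𝓝 ((n : ℝ) ^ ((1 : ℝ) / 6))) :=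
      ((Real.continuous_const_rpow hn0.ne').tendsto _).comp he'
    exact ((Real.continuous_exp.tendsto _).comp
      ((tendsto_const_nhds.div (hp.const_mul _)
        (mul_pos (by norm_num) (Real.rpow_pos_of_pos hn0 _)).ne').neg)).const_mul 8
  exact ge_of_tendsto hlim (Eventually.of_forall fun k => key k g hg m hm r hr)

end Vale.Agent.P245.Sub
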