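import Mathlib
import Vale.Agent.P245.Sub.Damp

/-!
Gaussian smoothing: removing the smoothness hypothesis from the exponential concentration.
-/

open MeasureTheory Filter Set
open scoped ContDiff RealInnerProductSpace Topology NNReal ENNReal Convolution
open Vale.Agent.P262.Gauss

namespace Vale.Agent.P245.Sub

variable {n : ℕ}

/-- Midpoint Prékopa–Leindler without an upper bound on the functions. -/
lemma pl3 {μ : Measure (Euc n)} (hμ : MidLC μ) {F G H : Euc n → ℝ≥0∞} (hF : Measurable F)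
    (hG : Measurable G) (hH : Measurable H)
    (h : ∀ x y, F x * G y ≤ H ((2 : ℝ)⁻¹ • (x + y)) ^ 2) :
    (∫⁻ x, F x ∂μ) * (∫⁻ x, G x ∂μ) ≤ (∫⁻ x, H x ∂μ) ^ 2 := by
  have key : ∀ N : ℕ, (∫⁻ x, min (F x) N ∂μ) * (∫⁻ x, min (G x) N ∂μ) ≤ (∫⁻ x, H x ∂μ) ^ 2 := by
    intro N
    rcases Nat.eq_zero_or_pos N with rfl | hN
    · simp
    have hN0 : (N : ℝ≥0∞) ≠ 0 := by simp [hN.ne']
    have hNt : (N : ℝ≥0∞) ≠ ⊤ := ENNReal.natCast_ne_top N
    have := hμ (fun x => min (F x) N / N) (fun x => min (G x) N / N) (fun x => min (H x / N) 1)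
      ((hF.min measurable_const).div_const _) ((hG.min measurable_const).div_const _)
      ((hH.div_const _).min measurable_const)
      (fun x => ENNReal.div_le_of_le_mul (by simp))
      (fun x => ENNReal.div_le_of_le_mul (by simp)) (fun x => min_le_right _ _)
      (fun x y => by
        rcases le_total (H ((2 : ℝ)⁻¹ • (x + y)) / N) 1 with h1 | h1
        · rw [min_eq_left h1]
          calc min (F x) N / N * (min (G y) N / N) ≤ F x / N * (G y / N) := by
                gcongr <;> exact min_le_left _ _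
            _ = F x * G y / N / N := by simp only [div_eq_mul_inv]; ring
            _ ≤ H ((2 : ℝ)⁻¹ • (x + y)) ^ 2 / N / N :=
                ENNReal.div_le_div_right (ENNReal.div_le_div_right (h x y) _) _
            _ = (H ((2 : ℝ)⁻¹ • (x + y)) / N) ^ 2 := by simp only [div_eq_mul_inv]; ring
        · rw [min_eq_right h1, one_pow]
          exact mul_le_one' (ENNReal.div_le_of_le_mul (by simp))
            (ENNReal.div_le_of_le_mul (by simp)))
    simp only [div_eq_mul_inv] at this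
    rw [lintegral_mul_const _ (hF.min measurable_const),
      lintegral_mul_const _ (hG.min measurable_const)] at this
    have h2 : ∫⁻ x, min (H x * (N : ℝ≥0∞)⁻¹) 1 ∂μ ≤ (∫⁻ x, H x ∂μ) * (N : ℝ≥0∞)⁻¹ := by
      rw [← lintegral_mul_const _ hH]
      exact lintegral_mono fun x => min_le_left _ _
    have h3 := this.trans (pow_le_pow_left₀ zero_le h2 2)
    have hi : (N : ℝ≥0∞) * (N : ℝ≥0∞)⁻¹ = 1 := ENNReal.mul_inv_cancel hN0 hNt
    calc _ = (∫⁻ x, min (F x) N ∂μ) * (∫⁻ x, min (G x) N ∂μ) *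
          ((N : ℝ≥0∞) * (N : ℝ≥0∞)⁻¹) ^ 2 := by rw [hi, one_pow, mul_one]
      _ = (∫⁻ x, min (F x) N ∂μ) * (N : ℝ≥0∞)⁻¹ *
          ((∫⁻ x, min (G x) N ∂μ) * (N : ℝ≥0∞)⁻¹) * ((N : ℝ≥0∞) * N) := by ring
      _ ≤ ((∫⁻ x, H x ∂μ) * (N : ℝ≥0∞)⁻¹) ^ 2 * ((N : ℝ≥0∞) * N) := by gcongr
      _ = (∫⁻ x, H x ∂μ) ^ 2 * (((N : ℝ≥0∞) * (N : ℝ≥0∞)⁻¹) ^ 2) := by ring
      _ = _ := by rw [hi]; simp
  have hmono : ∀ k : Euc n → ℝ≥0∞, Monotone fun N : ℕ => ∫⁻ x, min (k x) N ∂μ :=
    fun k a b hab => lintegral_mono fun x => min_le_min le_rfl (Nat.cast_le.2 hab)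
  have hsup : ∀ k : Euc n → ℝ≥0∞, Measurable k →
      ∫⁻ x, k x ∂μ = ⨆ N : ℕ, ∫⁻ x, min (k x) N ∂μ := by
    intro k hk
    rw [← lintegral_iSup (f := fun (N : ℕ) x => min (k x) (N : ℝ≥0∞))
      (fun N => hk.min measurable_const)
      (fun a b hab x => min_le_min (le_refl (k x)) (Nat.cast_le.2 hab))]
    refine lintegral_congr fun x => le_antisymm ?_ (iSup_le fun N => min_le_left _ _)
    refine le_of_forall_lt fun r hr => lt_iSup_iff.2 ?_
    obtain ⟨N, hN⟩ := ENNReal.exists_nat_gt (ne_top_of_lt hr)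
    exact ⟨N, lt_min hr hN⟩
  rw [hsup _ hF, hsup _ hG, ENNReal.iSup_mul]
  refine iSup_le fun i => ?_
  rw [ENNReal.mul_iSup]
  refine iSup_le fun j => ?_
  exact (mul_le_mul' (hmono _ (le_max_left i j)) (hmono _ (le_max_right i j))).trans (key _)

/-- Midpoint Prékopa–Leindler for Lebesgue measure, boundedly supported functions. -/
lemma pl_vol {F G H : Euc n → ℝ≥0∞} {R : ℝ} (hF : Measurable F)
    (hG : Measurable G) (hH : Measurable H) (hFR : ∀ x, R < ‖x‖ → F x = 0)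
    (hGR : ∀ x, R < ‖x‖ → G x = 0)
    (h : ∀ x y, F x * G y ≤ H ((2 : ℝ)⁻¹ • (x + y)) ^ 2) :
    (∫⁻ x, F x) * (∫⁻ x, G x) ≤ (∫⁻ x, H x) ^ 2 := by
  have key : ∀ ε : ℝ, 0 < ε → (∫⁻ x, F x) * (∫⁻ x, G x)
      ≤ ENNReal.ofReal (Real.exp (ε * R ^ 2)) * (∫⁻ x, H x) ^ 2 := by
    intro ε hε
    set e := fun x : Euc n => ENNReal.ofReal (Real.exp (-(ε * ‖x‖ ^ 2) / 2)) with he
    set C := gconst n * ENNReal.ofReal (Real.sqrt ε ^ n) with hC
    have hC0 : C ≠ 0 := mul_ne_zero (gconst_ne n).1 (by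
      rw [Ne, ENNReal.ofReal_eq_zero, not_le]; positivity)
    have hCt : C ≠ ⊤ := ENNReal.mul_ne_top (gconst_ne n).2 ENNReal.ofReal_ne_top
    have hconv : ∀ k : Euc n → ℝ≥0∞, Measurable k →
        ∫⁻ x, k x ∂((gam n).map fun x => (Real.sqrt ε)⁻¹ • x) = C * ∫⁻ x, e x * k x := by
      intro k hk
      rw [lintegral_map hk (by fun_prop)]
      exact gam_scale hε hk
    have hp := pl3 (midLC_gam_smul n (Real.sqrt ε)⁻¹) hF hG hH h
    rw [hconv _ hF, hconv _ hG, hconv _ hH, mul_mul_mul_comm, mul_pow, ← sq C] at hp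
    have hp' := (ENNReal.mul_le_mul_iff_right (pow_ne_zero 2 hC0) (ENNReal.pow_ne_top hCt)).1 hp
    set a := ENNReal.ofReal (Real.exp (ε * R ^ 2 / 2)) with ha
    have hlow : ∀ k : Euc n → ℝ≥0∞, (∀ x, R < ‖x‖ → k x = 0) →
        ∫⁻ x, k x ≤ a * ∫⁻ x, e x * k x := by
      intro k hk
      rw [← lintegral_const_mul' _ _ ENNReal.ofReal_ne_top]
      refine lintegral_mono fun x => ?_
      rcases lt_or_ge R ‖x‖ with hx | hx
      · rw [hk x hx]; exact zero_le
      simp only [he]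
      rw [← mul_assoc, ← ENNReal.ofReal_mul (Real.exp_pos _).le, ← Real.exp_add]
      refine le_mul_of_one_le_left zero_le ?_
      rw [← ENNReal.ofReal_one]
      refine ENNReal.ofReal_le_ofReal (Real.one_le_exp ?_)
      have : ‖x‖ ^ 2 ≤ R ^ 2 := pow_le_pow_left₀ (norm_nonneg x) hx 2
      nlinarith
    have hup : ∫⁻ x, e x * H x ≤ ∫⁻ x, H x := lintegral_mono fun x => by
      refine mul_le_of_le_one_left zero_le ?_
      simp only [he]
      rw [ENNReal.ofReal_le_one, Real.exp_le_one_iff]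
      have : 0 ≤ ε * ‖x‖ ^ 2 := by positivity
      linarith
    calc (∫⁻ x, F x) * (∫⁻ x, G x) ≤ (a * ∫⁻ x, e x * F x) * (a * ∫⁻ x, e x * G x) :=
          mul_le_mul' (hlow F hFR) (hlow G hGR)
      _ = a * a * ((∫⁻ x, e x * F x) * ∫⁻ x, e x * G x) := by ring
      _ ≤ a * a * (∫⁻ x, H x) ^ 2 :=
          mul_le_mul' le_rfl (hp'.trans (pow_le_pow_left₀ zero_le hup 2))
      _ = _ := by
          rw [ha, ← ENNReal.ofReal_mul (Real.exp_pos _).le, ← Real.exp_add]; ring_nf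
  have hlim : Tendsto (fun k : ℕ => ENNReal.ofReal (Real.exp (1 / ((k : ℝ) + 1) * R ^ 2))
      * (∫⁻ x, H x) ^ 2) atTop (𝓝 (1 * (∫⁻ x, H x) ^ 2)) := by
    refine ENNReal.Tendsto.mul_const ?_ (Or.inl one_ne_zero)
    have h0 := ((Real.continuous_exp.tendsto _).comp
      ((tendsto_one_div_add_atTop_nhds_zero_nat (𝕜 := ℝ)).mul_const (R ^ 2)))
    rw [zero_mul, Real.exp_zero] at h0
    rw [← ENNReal.ofReal_one]
    exact ENNReal.tendsto_ofReal h0
  rw [← one_mul ((∫⁻ x, H x) ^ 2)]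
  exact ge_of_tendsto hlim (Eventually.of_forall fun k => key _ (by positivity))

/-- The Gaussian kernel of variance `1 / τ`. -/
noncomputable def gker (n : ℕ) (τ : ℝ) (z : Euc n) : ℝ :=
  (Real.sqrt (2 * Real.pi))⁻¹ ^ n * Real.sqrt τ ^ n * Real.exp (-(τ * ‖z‖ ^ 2) / 2)

/-- Gaussian smoothing of a density. -/
noncomputable def pS (f : Euc n → ℝ) (τ : ℝ) (x : Euc n) : ℝ := ∫ y, gker n τ (x - y) * f y

lemma gker_pos {τ : ℝ} (hτ : 0 < τ) (z : Euc n) : 0 < gker n τ z := by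
  unfold gker; positivity

lemma contDiff_gker (τ : ℝ) : ContDiff ℝ ∞ (gker n τ) :=
  contDiff_const.mul (Real.contDiff_exp.comp
    (((contDiff_const.mul (contDiff_norm_sq ℝ)).neg).div_const 2))

lemma gker_le {τ : ℝ} (hτ : 0 < τ) (z : Euc n) :
    gker n τ z ≤ (Real.sqrt (2 * Real.pi))⁻¹ ^ n * Real.sqrt τ ^ n := by
  refine mul_le_of_le_one_right (by positivity) (Real.exp_le_one_iff.2 ?_)
  have : 0 ≤ τ * ‖z‖ ^ 2 := by positivity
  linarith

lemma gker_mid {τ : ℝ} (hτ : 0 < τ) (a b : Euc n) :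
    gker n τ a * gker n τ b ≤ gker n τ ((2 : ℝ)⁻¹ • (a + b)) ^ 2 := by
  unfold gker
  set c := (Real.sqrt (2 * Real.pi))⁻¹ ^ n * Real.sqrt τ ^ n with hc
  rw [mul_pow, sq (Real.exp _), ← Real.exp_add,
    show c * Real.exp (-(τ * ‖a‖ ^ 2) / 2) * (c * Real.exp (-(τ * ‖b‖ ^ 2) / 2))
      = c ^ 2 * (Real.exp (-(τ * ‖a‖ ^ 2) / 2) * Real.exp (-(τ * ‖b‖ ^ 2) / 2)) by ring,
    ← Real.exp_add]
  refine mul_le_mul_of_nonneg_left (Real.exp_le_exp.2 ?_) (sq_nonneg _)
  have h : ‖(2 : ℝ)⁻¹ • (a + b)‖ ^ 2 * 4 ≤ 2 * (‖a‖ ^ 2 + ‖b‖ ^ 2) := by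
    rw [norm_smul, Real.norm_eq_abs, mul_pow, sq_abs]
    have h1 := parallelogram_law_with_norm ℝ a b
    nlinarith [sq_nonneg ‖a - b‖]
  nlinarith [mul_le_mul_of_nonneg_left h hτ.le]

lemma lintegral_gker {τ : ℝ} (hτ : 0 < τ) {k : Euc n → ℝ≥0∞} (hk : Measurable k) :
    ∫⁻ z, ENNReal.ofReal (gker n τ z) * k z = ∫⁻ z, k ((Real.sqrt τ)⁻¹ • z) ∂(gam n) := by
  rw [gam_scale hτ hk, gconst, ← ENNReal.ofReal_mul (by positivity),
    ← lintegral_const_mul' _ _ ENNReal.ofReal_ne_top]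
  refine lintegral_congr fun z => ?_
  rw [← mul_assoc, ← ENNReal.ofReal_mul (by positivity)]
  rfl

/-- A boundedly supported log-concave probability density. -/
structure Cut (f : Euc n → ℝ) (R : ℝ) : Prop where
  meas : Measurable f
  nonneg : ∀ x, 0 ≤ f x
  int : Integrable f
  mass : ∫ x, f x = 1
  supp : ∀ x, R < ‖x‖ → f x = 0
  rad : 0 ≤ R
  mid : ∀ x y, f x * f y ≤ f ((2 : ℝ)⁻¹ • (x + y)) ^ 2

variable {f : Euc n → ℝ} {R τ : ℝ} (hf : Cut f R) (hτ : 0 < τ)
include hf hτ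

lemma integrable_pS (x : Euc n) : Integrable fun y => gker n τ (x - y) * f y :=
  hf.int.bdd_mul (((contDiff_gker τ).continuous.comp
    (continuous_const.sub continuous_id)).aestronglyMeasurable)
    (Eventually.of_forall fun y => by
      rw [Real.norm_eq_abs, abs_of_pos (gker_pos hτ _)]; exact gker_le hτ _)

lemma pS_pos (x : Euc n) : 0 < pS f τ x := by
  rw [pS, integral_pos_iff_support_of_nonneg
    (fun y => mul_nonneg (gker_pos hτ _).le (hf.nonneg y)) (integrable_pS hf hτ x)]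
  have e : Function.support (fun y => gker n τ (x - y) * f y) = Function.support f := by
    ext y; simp [(gker_pos hτ (x - y)).ne']
  rw [e, ← integral_pos_iff_support_of_nonneg hf.nonneg hf.int, hf.mass]
  exact one_pos

lemma contDiff_pS : ContDiff ℝ ∞ (pS f τ) := by
  rw [contDiff_iff_contDiffAt]
  intro x0
  have hR := hf.rad
  let b : ContDiffBump (0 : Euc n) := ⟨‖x0‖ + R + 2, ‖x0‖ + R + 3,
    by linarith [norm_nonneg x0], by linarith⟩
  set K := fun z => b z * gker n τ z with hK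
  have hq : ContDiff ℝ ∞ (K ⋆[ContinuousLinearMap.lsmul ℝ ℝ, volume] f) :=
    HasCompactSupport.contDiff_convolution_left _ b.hasCompactSupport.mul_right
      (b.contDiff.mul (contDiff_gker τ)) hf.int.locallyIntegrable
  refine hq.contDiffAt.congr_of_eventuallyEq ?_
  filter_upwards [Metric.ball_mem_nhds x0 one_pos] with x hx
  rw [convolution_eq_swap]
  refine integral_congr_ae (Eventually.of_forall fun y => ?_)
  simp only [ContinuousLinearMap.lsmul_apply, smul_eq_mul, hK]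
  rcases lt_or_ge R ‖y‖ with hy | hy
  · simp [hf.supp y hy]
  · rw [b.one_of_mem_closedBall, one_mul]
    rw [Metric.mem_closedBall, dist_zero_right]
    rw [Metric.mem_ball, dist_eq_norm] at hx
    show ‖x - y‖ ≤ ‖x0‖ + R + 2
    have h1 := norm_sub_le x y
    have h2 := norm_le_norm_add_norm_sub' x x0
    linarith

lemma ofReal_pS (x : Euc n) :
    ENNReal.ofReal (pS f τ x) = ∫⁻ y, ENNReal.ofReal (gker n τ (x - y) * f y) :=
  ofReal_integral_eq_lintegral_ofReal (integrable_pS hf hτ x)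
    (Eventually.of_forall fun y => mul_nonneg (gker_pos hτ _).le (hf.nonneg y))

lemma pS_mid (x x' : Euc n) : pS f τ x * pS f τ x' ≤ pS f τ ((2 : ℝ)⁻¹ • (x + x')) ^ 2 := by
  have hg : Continuous (gker n τ) := (contDiff_gker τ).continuous
  have hm : ∀ z : Euc n, Measurable fun y => ENNReal.ofReal (gker n τ (z - y) * f y) := fun z =>
    ((hg.comp (continuous_const.sub continuous_id)).measurable.mul hf.meas).ennreal_ofReal
  have h0 : ∀ z y : Euc n, 0 ≤ gker n τ (z - y) * f y := fun z y =>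
    mul_nonneg (gker_pos hτ _).le (hf.nonneg y)
  have h := pl_vol (R := R) (hm x) (hm x') (hm ((2 : ℝ)⁻¹ • (x + x')))
    (fun y hy => by simp [hf.supp y hy]) (fun y hy => by simp [hf.supp y hy]) fun y y' => by
      rw [← ENNReal.ofReal_mul (h0 _ _), ← ENNReal.ofReal_pow (h0 _ _)]
      refine ENNReal.ofReal_le_ofReal ?_
      rw [mul_pow, mul_mul_mul_comm, show (2 : ℝ)⁻¹ • (x + x') - (2 : ℝ)⁻¹ • (y + y')
        = (2 : ℝ)⁻¹ • ((x - y) + (x' - y')) by module]
      exact mul_le_mul (gker_mid hτ _ _) (hf.mid y y') (mul_nonneg (hf.nonneg _) (hf.nonneg _))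
        (sq_nonneg _)
  simp only [← ofReal_pS hf hτ] at h
  rwa [← ENNReal.ofReal_mul (pS_pos hf hτ x).le, ← ENNReal.ofReal_pow (pS_pos hf hτ _).le,
    ENNReal.ofReal_le_ofReal_iff (sq_nonneg _)] at h

/-- The smoothed potential. -/
noncomputable def potS (f : Euc n → ℝ) (τ : ℝ) (x : Euc n) : ℝ := -Real.log (pS f τ x)

lemma wV_potS (x : Euc n) : wV (potS f τ) x = pS f τ x := by
  rw [wV, potS, neg_neg, Real.exp_log (pS_pos hf hτ x)]

lemma lintegral_potS {F : Euc n → ℝ≥0∞} (hF : Measurable F) :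
    ∫⁻ x, F x ∂(muW (potS f τ))
      = ∫⁻ y, ENNReal.ofReal (f y) * ∫⁻ z, F ((Real.sqrt τ)⁻¹ • z + y) ∂(gam n) := by
  have hg : Continuous (gker n τ) := (contDiff_gker τ).continuous
  have hpm : Measurable fun x => ENNReal.ofReal (wV (potS f τ) x) := by
    simp only [wV_potS hf hτ]
    exact (contDiff_pS hf hτ).continuous.measurable.ennreal_ofReal
  have hj : Measurable fun p : Euc n × Euc n =>
      ENNReal.ofReal (gker n τ (p.1 - p.2) * f p.2) * F p.1 :=
    (((hg.comp (continuous_fst.sub continuous_snd)).measurable.mul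
      (hf.meas.comp measurable_snd)).ennreal_ofReal).mul (hF.comp measurable_fst)
  rw [muW, lintegral_withDensity_eq_lintegral_mul _ hpm hF]
  simp only [Pi.mul_apply, wV_potS hf hτ, ofReal_pS hf hτ]
  have e1 : ∀ x, (∫⁻ y, ENNReal.ofReal (gker n τ (x - y) * f y)) * F x
      = ∫⁻ y, ENNReal.ofReal (gker n τ (x - y) * f y) * F x := fun x =>
    (lintegral_mul_const _ ((hg.comp (continuous_const.sub continuous_id)).measurable.mul
      hf.meas).ennreal_ofReal).symm
  simp only [e1]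
  rw [lintegral_lintegral_swap hj.aemeasurable]
  refine lintegral_congr fun y => ?_
  have hs : Measurable fun z => F (z + y) := hF.comp (measurable_add_const y)
  rw [← lintegral_gker hτ hs, ← lintegral_const_mul' _ _ ENNReal.ofReal_ne_top,
    ← lintegral_add_right_eq_self
      (fun x => ENNReal.ofReal (gker n τ (x - y) * f y) * F x) y]
  refine lintegral_congr fun z => ?_
  rw [add_sub_cancel_right, ENNReal.ofReal_mul (gker_pos hτ _).le]
  ring

omit hf hτ in
lemma conv_zero_of_mid {V : Euc n → ℝ} (hV : ContDiff ℝ ∞ V)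
    (hmid : ∀ x y, wV V x * wV V y ≤ wV V ((2 : ℝ)⁻¹ • (x + y)) ^ 2) : Conv V 0 := by
  intro x v
  rw [zero_mul]
  set ve : Euc n := ∑ i, v i • bas i with hve
  have hcurve : ∀ (F : Euc n → ℝ), ContDiff ℝ ∞ F → ∀ s : ℝ,
      HasDerivAt (fun s : ℝ => F (x + s • ve)) (∑ i, v i * pd i F (x + s • ve)) s := by
    intro F hF s
    have hl : HasDerivAt (fun s : ℝ => x + s • ve) ve s := by
      simpa using ((hasDerivAt_id s).smul_const ve).const_add x
    have h := (differentiable_of hF (x + s • ve)).hasFDerivAt.comp_hasDerivAt s hl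
    have e : fderiv ℝ F (x + s • ve) ve = ∑ i, v i * pd i F (x + s • ve) := by
      rw [hve, map_sum]
      exact Finset.sum_congr rfl fun i _ => by simp [pd]
    rw [e] at h
    exact h
  set D1 := fun s : ℝ => ∑ i, v i * pd i V (x + s • ve) with hD1
  set D2 := fun s : ℝ => ∑ i, v i * ∑ j, v j * pd j (pd i V) (x + s • ve) with hD2
  have h2 : ∀ s, HasDerivAt D1 (D2 s) s := fun s => by
    simp only [hD1, hD2]
    exact HasDerivAt.fun_sum fun i _ => (hcurve _ (contDiff_pd hV i) s).const_mul (v i)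
  set φ := fun s : ℝ => V (x + s • ve) + V (x + (-s) • ve) with hφ
  have hneg : ∀ s : ℝ, HasDerivAt (fun s : ℝ => -s) (-1) s := fun s => (hasDerivAt_id s).neg
  have hd1 : ∀ s, HasDerivAt φ (D1 s - D1 (-s)) s := fun s => by
    have := (hcurve V hV s).add ((hcurve V hV (-s)).comp s (hneg s))
    simp only [mul_neg, mul_one, ← sub_eq_add_neg] at this
    exact this
  have hderiv : deriv φ = fun s => D1 s - D1 (-s) := funext fun s => (hd1 s).deriv
  have hdd : deriv (deriv φ) 0 = 2 * D2 0 := by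
    rw [hderiv]
    refine (((h2 0).sub ((h2 (-0)).comp 0 (hneg 0))).congr_deriv ?_).deriv
    simp; ring
  have hmin : IsLocalMin φ 0 := Eventually.of_forall fun s => by
    have h := hmid (x + s • ve) (x + (-s) • ve)
    rw [show (2 : ℝ)⁻¹ • ((x + s • ve) + (x + (-s) • ve)) = x by module, sq, wV, wV, wV,
      ← Real.exp_add, ← Real.exp_add, Real.exp_le_exp] at h
    simp only [hφ, neg_zero, zero_smul, add_zero]
    linarith
  have hD20 : 0 ≤ D2 0 := by
    by_contra hc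
    have hmax : IsLocalMax φ 0 := isLocalMax_of_deriv_deriv_neg (by rw [hdd]; linarith)
      (by rw [hderiv]; simp) (hd1 0).continuousAt
    have hconst : φ =ᶠ[𝓝 0] fun _ => φ 0 := by
      filter_upwards [hmin, hmax] with s h1 h3
      exact le_antisymm h3 h1
    have : deriv (deriv φ) 0 = 0 := by
      rw [hconst.deriv.deriv_eq]; simp
    linarith
  refine hD20.trans (le_of_eq ?_)
  simp only [hD2, zero_smul, add_zero, Finset.mul_sum]
  rw [Finset.sum_comm]
  exact Finset.sum_congr rfl fun i _ => Finset.sum_congr rfl fun j _ => by ring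

/-- The smoothed measure is nice, if the smoothing is small. -/
lemma nice_potS {b : ℝ} (hb : b ≤ 8 / 5)
    (hsub : ∀ θ : Euc n, ‖θ‖ = 1 →
      ∫⁻ y, ENNReal.ofReal (f y) * ENNReal.ofReal (Real.exp (⟪y, θ⟫ ^ 2 / 2)) ≤ ENNReal.ofReal b)
    (hb0 : 0 ≤ b) (hτn : 10 * (n : ℝ) + 4 ≤ τ) : Nice (potS f τ) := by
  have hp : ∀ x, wV (potS f τ) x = pS f τ x := wV_potS hf hτ
  have hs : ContDiff ℝ ∞ (potS f τ) :=
    ((contDiff_pS hf hτ).log fun x => (pS_pos hf hτ x).ne').neg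
  have hmid : ∀ x y, wV (potS f τ) x * wV (potS f τ) y
      ≤ wV (potS f τ) ((2 : ℝ)⁻¹ • (x + y)) ^ 2 := fun x y => by
    simp only [hp]; exact pS_mid hf hτ x y
  have hgp : IsProbabilityMeasure (gam n) := by
    unfold gam; exact Measure.isProbabilityMeasure_map (measurable_toLp' n).aemeasurable
  refine ⟨hs, ?_, hmid, conv_zero_of_mid hs hmid, fun θ hθ => ?_⟩
  · have h := lintegral_potS hf hτ (F := fun _ => 1) measurable_const
    simp only [lintegral_one, measure_univ, mul_one] at h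
    rw [← ofReal_integral_eq_lintegral_ofReal hf.int (Eventually.of_forall hf.nonneg), hf.mass,
      ENNReal.ofReal_one, muW, withDensity_apply _ MeasurableSet.univ, Measure.restrict_univ] at h
    rw [integral_eq_lintegral_of_nonneg_ae (Eventually.of_forall fun x => (wV_pos _ x).le)
      (contDiff_wV hs).continuous.aestronglyMeasurable, h, ENNReal.toReal_one]
  · have hFc : Continuous fun x : Euc n => Real.exp (⟪x, θ⟫ ^ 2 / 2 ^ 2) := by fun_prop
    rw [lintegral_potS hf hτ hFc.measurable.ennreal_ofReal]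
    set s := (Real.sqrt τ)⁻¹ with hsd
    have hs2 : s ^ 2 = τ⁻¹ := by rw [hsd, inv_pow, Real.sq_sqrt hτ.le]
    have hτ0 : τ⁻¹ / 2 ≤ 1 / 4 := by
      rw [div_le_iff₀ two_pos, inv_le_comm₀ hτ (by norm_num)]
      linarith [(n.cast_nonneg : (0 : ℝ) ≤ n)]
    set E := ∫⁻ z, ENNReal.ofReal (Real.exp (τ⁻¹ / 2 * ‖z‖ ^ 2)) ∂(gam n) with hE
    have hE5 : E ≤ ENNReal.ofReal (5 / 4) := by
      refine (gam_exp_sq (by positivity) hτ0).trans (ENNReal.ofReal_le_ofReal ?_)
      have hq : 2 * ((n : ℝ) * (τ⁻¹ / 2)) ≤ 1 / 10 := by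
        rw [show 2 * ((n : ℝ) * (τ⁻¹ / 2)) = n / τ by ring, div_le_iff₀ hτ]
        linarith
      refine (Real.exp_le_exp.2 hq).trans ?_
      have := Real.exp_bound_div_one_sub_of_interval (x := 1 / 10) (by norm_num) (by norm_num)
      linarith
    have hpt : ∀ y z, ENNReal.ofReal (Real.exp (⟪s • z + y, θ⟫ ^ 2 / 2 ^ 2))
        ≤ ENNReal.ofReal (Real.exp (⟪y, θ⟫ ^ 2 / 2))
          * ENNReal.ofReal (Real.exp (τ⁻¹ / 2 * ‖z‖ ^ 2)) := fun y z => by
      rw [← ENNReal.ofReal_mul (Real.exp_pos _).le, ← Real.exp_add]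
      refine ENNReal.ofReal_le_ofReal (Real.exp_le_exp.2 ?_)
      rw [inner_add_left, real_inner_smul_left, ← hs2]
      have h1 : ⟪z, θ⟫ ^ 2 ≤ ‖z‖ ^ 2 := by
        have := abs_real_inner_le_norm z θ
        rw [hθ, mul_one] at this
        rw [← sq_abs]
        exact pow_le_pow_left₀ (abs_nonneg _) this 2
      have h3 := mul_le_mul_of_nonneg_left h1 (sq_nonneg s)
      have h4 := sq_nonneg (s * ⟪z, θ⟫ - ⟪y, θ⟫)
      nlinarith
    calc ∫⁻ y, ENNReal.ofReal (f y) *
          ∫⁻ z, ENNReal.ofReal (Real.exp (⟪s • z + y, θ⟫ ^ 2 / 2 ^ 2)) ∂(gam n)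
        ≤ ∫⁻ y, ENNReal.ofReal (f y) * ENNReal.ofReal (Real.exp (⟪y, θ⟫ ^ 2 / 2)) * E := by
          refine lintegral_mono fun y => ?_
          rw [mul_assoc]
          refine mul_le_mul' le_rfl ?_
          rw [hE, ← lintegral_const_mul' _ _ ENNReal.ofReal_ne_top]
          exact lintegral_mono (hpt y)
      _ ≤ ENNReal.ofReal b * ENNReal.ofReal (5 / 4) := by
          rw [lintegral_mul_const' _ _ (ne_top_of_le_ne_top ENNReal.ofReal_ne_top hE5)]
          exact mul_le_mul' (hsub θ hθ) hE5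
      _ ≤ 2 := by
          rw [← ENNReal.ofReal_mul hb0]
          exact (ENNReal.ofReal_le_ofReal (by linarith)).trans (le_of_eq (ENNReal.ofReal_ofNat 2))

/-- Moving a set by less than the typical size of the noise. -/
lemma potS_real_ge {S T : Set (Euc n)} (hS : MeasurableSet S) (hT : MeasurableSet T) {d : ℝ}
    (hsub : ∀ y ∈ S, ∀ w : Euc n, ‖w‖ ≤ d → w + y ∈ T) :
    (∫⁻ y in S, ENNReal.ofReal (f y)) * gam n {z | ‖(Real.sqrt τ)⁻¹ • z‖ ≤ d}
      ≤ muW (potS f τ) T := by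
  have hG : MeasurableSet {z : Euc n | ‖(Real.sqrt τ)⁻¹ • z‖ ≤ d} :=
    measurableSet_le (by fun_prop) measurable_const
  rw [← lintegral_indicator_one hT, lintegral_potS hf hτ (measurable_one.indicator hT),
    ← lintegral_mul_const _ hf.meas.ennreal_ofReal, ← lintegral_indicator hS]
  refine lintegral_mono fun y => ?_
  by_cases hy : y ∈ S
  · rw [indicator_of_mem hy, ← lintegral_indicator_one hG]
    refine mul_le_mul' le_rfl (lintegral_mono fun z => ?_)
    by_cases hz : z ∈ {z : Euc n | ‖(Real.sqrt τ)⁻¹ • z‖ ≤ d}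
    · rw [indicator_of_mem hz, indicator_of_mem (hsub y hy _ hz)]; rfl
    · rw [indicator_of_notMem hz]; exact zero_le
  · rw [indicator_of_notMem hy]; exact zero_le

end Vale.Agent.P245.Sub
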