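import Mathlib
import Vale.Agent.P245.Sub.Smooth

/-!
Exponential concentration at scale `a n^(1/6)` for every linearly subgaussian log-concave density.
-/

open MeasureTheory Filter Set
open scoped ContDiff RealInnerProductSpace Topology NNReal ENNReal

namespace Vale.Agent.P245.Sub

variable {n : ℕ}

lemma isProbability_gam (n : ℕ) : IsProbabilityMeasure (gam n) := by
  unfold gam; exact Measure.isProbabilityMeasure_map (measurable_toLp' n).aemeasurable

lemma exists_small_noise (n : ℕ) {η : ℝ} (hη : 0 < η) {p : ℝ≥0∞} (hp : p < 1) :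
    ∃ τ : ℝ, 10 * (n : ℝ) + 4 ≤ τ ∧ p ≤ gam n {z | ‖(Real.sqrt τ)⁻¹ • z‖ ≤ η} := by
  have := isProbability_gam n
  have hU : (⋃ k : ℕ, {z : Euc n | ‖z‖ ≤ (k : ℝ)}) = Set.univ :=
    Set.eq_univ_of_forall fun x => by
      obtain ⟨k, hk⟩ := exists_nat_ge ‖x‖
      exact Set.mem_iUnion.2 ⟨k, hk⟩
  have h1 := tendsto_measure_iUnion_atTop (μ := gam n) (s := fun k : ℕ => {z : Euc n | ‖z‖ ≤ (k : ℝ)})
    fun i j hij x hx => le_trans (show ‖x‖ ≤ (i : ℝ) from hx) (Nat.cast_le.2 hij)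
  rw [hU, measure_univ] at h1
  obtain ⟨k, hk⟩ := (h1.eventually (lt_mem_nhds hp)).exists
  refine ⟨max (10 * (n : ℝ) + 4) ((((k : ℝ) + 1) / η) ^ 2), le_max_left _ _,
    hk.le.trans (measure_mono fun z hz => ?_)⟩
  have hz' : ‖z‖ ≤ (k : ℝ) := hz
  set τ := max (10 * (n : ℝ) + 4) ((((k : ℝ) + 1) / η) ^ 2) with hτ
  have hs : ((k : ℝ) + 1) / η ≤ Real.sqrt τ := Real.le_sqrt_of_sq_le (le_max_right _ _)
  have hs0 : 0 < Real.sqrt τ := lt_of_lt_of_le (by positivity) hs
  rw [div_le_iff₀ hη] at hs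
  show ‖(Real.sqrt τ)⁻¹ • z‖ ≤ η
  rw [norm_smul, norm_inv, Real.norm_eq_abs, abs_of_pos hs0, inv_mul_le_iff₀ hs0]
  linarith

variable {ρ : Euc n → ℝ} (hρm : Measurable ρ) (hρ0 : ∀ x, 0 ≤ ρ x)
  (hmid : ∀ x y, ρ x * ρ y ≤ ρ ((2 : ℝ)⁻¹ • (x + y)) ^ 2)
  {μ : Measure (Euc n)} (hμ : μ = volume.withDensity fun x => ENNReal.ofReal (ρ x))
  [IsProbabilityMeasure μ]
  (hsub : ∀ θ : Euc n, ‖θ‖ = 1 → ∫⁻ x, ENNReal.ofReal (Real.exp (⟪x, θ⟫ ^ 2)) ∂μ ≤ 2)
include hρm hρ0 hmid hμ hsub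

/-- The tail of the original measure through a smoothed cut-off. -/
lemma approx_tail (hn : 1 ≤ n) {g : Euc n → ℝ} (hg : LipschitzWith 1 g) {m : ℝ}
    (hm : 1 / 2 ≤ μ.real {x | g x ≤ m}) {r η : ℝ} (hη : 0 < η) (hη1 : η ≤ 1 / 10)
    (hr : 2 * η ≤ r) :
    μ.real {x | m + r ≤ g x}
      ≤ 8 * Real.exp (-((r - 2 * η) / (10 ^ 9 * (n : ℝ) ^ ((1 : ℝ) / 6)))) / (1 - η) + η := by
  have hgc := hg.continuous.measurable
  have hgd : ∀ w y : Euc n, |g (w + y) - g y| ≤ ‖w‖ := fun w y => by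
    have := hg.dist_le_mul (w + y) y
    rwa [Real.dist_eq, dist_eq_norm, NNReal.coe_one, one_mul, add_sub_cancel_right] at this
  -- the cut-off radius
  have hU : (⋃ k : ℕ, {z : Euc n | ‖z‖ ≤ (k : ℝ)}) = Set.univ :=
    Set.eq_univ_of_forall fun x => by
      obtain ⟨k, hk⟩ := exists_nat_ge ‖x‖
      exact Set.mem_iUnion.2 ⟨k, hk⟩
  have h1 := tendsto_measure_iUnion_atTop (μ := μ) (s := fun k : ℕ => {z : Euc n | ‖z‖ ≤ (k : ℝ)})
    fun i j hij x hx => le_trans (show ‖x‖ ≤ (i : ℝ) from hx) (Nat.cast_le.2 hij)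
  rw [hU, measure_univ] at h1
  obtain ⟨k, hk⟩ := (h1.eventually (lt_mem_nhds (show ENNReal.ofReal (1 - η) < 1 by
    rw [ENNReal.ofReal_lt_one]; linarith))).exists
  set K := {z : Euc n | ‖z‖ ≤ (k : ℝ)} with hK
  have hKm : MeasurableSet K := measurableSet_le measurable_norm measurable_const
  set c := μ.real K with hc
  have hc1 : 1 - η ≤ c := by
    rw [hc, Measure.real, ← ENNReal.toReal_ofReal (show 0 ≤ 1 - η by linarith)]
    exact (ENNReal.toReal_le_toReal ENNReal.ofReal_ne_top (measure_ne_top _ _)).2 hk.le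
  have hc0 : 0 < c := by linarith
  have hcle : c ≤ 1 := measureReal_le_one
  set f := fun x => K.indicator ρ x / c with hfdef
  have hfm : Measurable f := (hρm.indicator hKm).div_const c
  have hf0 : ∀ x, 0 ≤ f x := fun x => div_nonneg (indicator_nonneg (fun y _ => hρ0 y) x) hc0.le
  have hρint : Integrable ρ := by
    refine ⟨hρm.aestronglyMeasurable, (hasFiniteIntegral_iff_ofReal (Eventually.of_forall hρ0)).2 ?_⟩
    have : ∫⁻ x, ENNReal.ofReal (ρ x) = μ univ := by
      rw [hμ, withDensity_apply _ MeasurableSet.univ, Measure.restrict_univ]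
    rw [this]; exact measure_lt_top _ _
  have hfS : ∀ S : Set (Euc n), MeasurableSet S → ∫⁻ y in S, ENNReal.ofReal (f y)
      = μ (S ∩ K) / ENNReal.ofReal c := fun S hS => by
    have e : ∀ y, ENNReal.ofReal (f y)
        = K.indicator (fun y => ENNReal.ofReal (ρ y)) y * (ENNReal.ofReal c)⁻¹ := fun y => by
      simp only [hfdef]
      rw [ENNReal.ofReal_div_of_pos hc0, div_eq_mul_inv]
      by_cases hy : y ∈ K <;> simp [hy]
    simp only [e]
    rw [lintegral_mul_const _ (hρm.ennreal_ofReal.indicator hKm), setLIntegral_indicator hKm,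
      hμ, withDensity_apply _ (hS.inter hKm), Set.inter_comm S K, div_eq_mul_inv]
  have hfint : Integrable f := (hρint.indicator hKm).div_const c
  have hcE : μ K = ENNReal.ofReal c := (ofReal_measureReal).symm
  have hmass : ∫ x, f x = 1 := by
    rw [integral_eq_lintegral_of_nonneg_ae (Eventually.of_forall hf0) hfm.aestronglyMeasurable,
      ← setLIntegral_univ, hfS _ MeasurableSet.univ, Set.univ_inter, hcE,
      ENNReal.div_self (by simpa using hc0) ENNReal.ofReal_ne_top, ENNReal.toReal_one]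
  have hcut : Cut f k := by
    refine ⟨hfm, hf0, hfint, hmass, fun x hx => ?_, k.cast_nonneg, fun x y => ?_⟩
    · simp only [hfdef]
      rw [indicator_of_notMem (show x ∉ K from not_le.2 hx), zero_div]
    · by_cases hx : x ∈ K
      swap
      · simp only [hfdef, indicator_of_notMem hx, zero_div, zero_mul]; positivity
      by_cases hy : y ∈ K
      swap
      · simp only [hfdef, indicator_of_notMem hy, zero_div, mul_zero]; positivity
      have hxy : (2 : ℝ)⁻¹ • (x + y) ∈ K := by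
        have hx' : ‖x‖ ≤ (k : ℝ) := hx
        have hy' : ‖y‖ ≤ (k : ℝ) := hy
        show ‖(2 : ℝ)⁻¹ • (x + y)‖ ≤ (k : ℝ)
        rw [norm_smul, norm_inv, Real.norm_ofNat]
        linarith [norm_add_le x y]
      simp only [hfdef, indicator_of_mem hx, indicator_of_mem hy, indicator_of_mem hxy]
      rw [div_mul_div_comm, div_pow, ← sq c]
      exact div_le_div_of_nonneg_right (hmid x y) (sq_nonneg _)
  have hsubf : ∀ θ : Euc n, ‖θ‖ = 1 →
      ∫⁻ y, ENNReal.ofReal (f y) * ENNReal.ofReal (Real.exp (⟪y, θ⟫ ^ 2 / 2))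
        ≤ ENNReal.ofReal (8 / 5) := by
    intro θ hθ
    have hpt : ∀ y, ENNReal.ofReal (f y) * ENNReal.ofReal (Real.exp (⟪y, θ⟫ ^ 2 / 2))
        ≤ ENNReal.ofReal c⁻¹ * (ENNReal.ofReal (ρ y) *
          (ENNReal.ofReal (1 / 3) * ENNReal.ofReal (Real.exp (⟪y, θ⟫ ^ 2)) + ENNReal.ofReal (3 / 4))) := by
      intro y
      rw [← ENNReal.ofReal_mul (by norm_num : (0 : ℝ) ≤ 1 / 3),
        ← ENNReal.ofReal_add (by positivity) (by norm_num), ← ENNReal.ofReal_mul (hρ0 y),
        ← ENNReal.ofReal_mul (inv_pos.2 hc0).le, ← ENNReal.ofReal_mul (hf0 y)]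
      refine ENNReal.ofReal_le_ofReal ?_
      have hE : Real.exp (⟪y, θ⟫ ^ 2) = Real.exp (⟪y, θ⟫ ^ 2 / 2) ^ 2 := by
        rw [← Real.exp_nat_mul]; ring_nf
      have hq : Real.exp (⟪y, θ⟫ ^ 2 / 2) ≤ 1 / 3 * Real.exp (⟪y, θ⟫ ^ 2) + 3 / 4 := by
        rw [hE]; linarith [sq_nonneg (Real.exp (⟪y, θ⟫ ^ 2 / 2) - 3 / 2)]
      have hfle : f y ≤ c⁻¹ * ρ y := by
        simp only [hfdef]
        rw [div_eq_inv_mul]
        exact mul_le_mul_of_nonneg_left (indicator_le_self' (fun z _ => hρ0 z) y) (inv_pos.2 hc0).le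
      rw [← mul_assoc]
      exact mul_le_mul hfle hq (Real.exp_pos _).le (mul_nonneg (inv_pos.2 hc0).le (hρ0 y))
    refine (lintegral_mono hpt).trans ?_
    rw [lintegral_const_mul' _ _ ENNReal.ofReal_ne_top]
    have hFm : Measurable fun y : Euc n => ENNReal.ofReal (Real.exp (⟪y, θ⟫ ^ 2)) :=
      (by fun_prop : Continuous fun y : Euc n => Real.exp (⟪y, θ⟫ ^ 2)).measurable.ennreal_ofReal
    have e : ∫⁻ y, ENNReal.ofReal (ρ y) *
          (ENNReal.ofReal (1 / 3) * ENNReal.ofReal (Real.exp (⟪y, θ⟫ ^ 2)) + ENNReal.ofReal (3 / 4))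
        = ∫⁻ y, (ENNReal.ofReal (1 / 3) * ENNReal.ofReal (Real.exp (⟪y, θ⟫ ^ 2))
          + ENNReal.ofReal (3 / 4)) ∂μ := by
      rw [hμ, lintegral_withDensity_eq_lintegral_mul _ hρm.ennreal_ofReal
        ((hFm.const_mul _).add_const _)]
      rfl
    rw [e, lintegral_add_left (hFm.const_mul _), lintegral_const_mul _ hFm, lintegral_const,
      measure_univ, mul_one]
    calc ENNReal.ofReal c⁻¹ * (ENNReal.ofReal (1 / 3)
          * ∫⁻ y, ENNReal.ofReal (Real.exp (⟪y, θ⟫ ^ 2)) ∂μ + ENNReal.ofReal (3 / 4))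
        ≤ ENNReal.ofReal c⁻¹ * (ENNReal.ofReal (1 / 3) * 2 + ENNReal.ofReal (3 / 4)) := by
          gcongr; exact hsub θ hθ
      _ = ENNReal.ofReal (c⁻¹ * (17 / 12)) := by
          rw [← ENNReal.ofReal_ofNat 2, ← ENNReal.ofReal_mul (by norm_num),
            ← ENNReal.ofReal_add (by norm_num) (by norm_num), ← ENNReal.ofReal_mul (inv_pos.2 hc0).le]
          norm_num
      _ ≤ _ := by
          refine ENNReal.ofReal_le_ofReal ?_
          rw [inv_mul_le_iff₀ hc0]
          linarith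
  -- the noise
  obtain ⟨τ, hτn, hP⟩ := exists_small_noise n hη (p := ENNReal.ofReal (1 - η)) (by
    rw [ENNReal.ofReal_lt_one]; linarith)
  have hτ : 0 < τ := lt_of_lt_of_le (by positivity) hτn
  have hN := nice_potS hcut hτ (b := 8 / 5) le_rfl hsubf (by norm_num) hτn
  have := hN.prob
  set P := gam n {z | ‖(Real.sqrt τ)⁻¹ • z‖ ≤ η} with hPdef
  set ν := muW (potS f τ) with hν
  have := isProbability_gam n
  have hP1 : 1 - η ≤ P.toReal := by
    rw [← ENNReal.toReal_ofReal (show 0 ≤ 1 - η by linarith)]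
    exact (ENNReal.toReal_le_toReal ENNReal.ofReal_ne_top (measure_ne_top _ _)).2 hP
  have move : ∀ S T : Set (Euc n), MeasurableSet S → MeasurableSet T →
      (∀ y ∈ S, ∀ w : Euc n, ‖w‖ ≤ η → w + y ∈ T) →
      μ.real (S ∩ K) / c * P.toReal ≤ ν.real T := fun S T hS hT hST => by
    have h := potS_real_ge hcut hτ hS hT hST
    rw [hfS S hS] at h
    have := ENNReal.toReal_mono (measure_ne_top _ _) h
    rwa [ENNReal.toReal_mul, ENNReal.toReal_div, ENNReal.toReal_ofReal hc0.le] at this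
  have hout : μ.real Kᶜ ≤ η := by
    rw [probReal_compl_eq_one_sub hKm]; linarith
  have hsplit : ∀ S : Set (Euc n), μ.real S ≤ μ.real (S ∩ K) + η := fun S => by
    refine le_trans ?_ (add_le_add le_rfl hout)
    refine (measureReal_mono (fun x hx => ?_)).trans (measureReal_union_le _ _)
    by_cases hxK : x ∈ K
    · exact Or.inl ⟨hx, hxK⟩
    · exact Or.inr hxK
  have hmS : MeasurableSet {x | g x ≤ m} := measurableSet_le hgc measurable_const
  have hmed : 1 / 4 ≤ ν.real {x | g x ≤ m + η} := by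
    refine le_trans ?_ (move _ _ hmS (measurableSet_le hgc measurable_const) fun y hy w hw => by
      have hy' : g y ≤ m := hy
      show g (w + y) ≤ m + η
      linarith [(abs_le.1 (hgd w y)).2])
    have h3 := hsplit {x | g x ≤ m}
    have h5 : 2 / 5 ≤ μ.real ({x | g x ≤ m} ∩ K) / c := by
      rw [le_div_iff₀ hc0]; linarith
    have h6 : (9 : ℝ) / 10 ≤ P.toReal := by linarith
    have h7 := mul_le_mul h5 h6 (by norm_num) (by positivity)
    linarith
  have htail := expTail_fixed hN hn g hg (m + η) hmed (r - 2 * η) (by linarith)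
  rw [← hν] at htail
  have hA := move {x | m + r ≤ g x} {x | m + η + (r - 2 * η) ≤ g x}
    (measurableSet_le measurable_const hgc) (measurableSet_le measurable_const hgc) fun y hy w hw => by
      have hy' : m + r ≤ g y := hy
      show m + η + (r - 2 * η) ≤ g (w + y)
      linarith [(abs_le.1 (hgd w y)).1]
  set A := μ.real ({x | m + r ≤ g x} ∩ K) with hAd
  have hA0 : 0 ≤ A := measureReal_nonneg
  have h8 : A * (1 - η) ≤ A / c * P.toReal :=
    mul_le_mul (le_div_self hA0 hc0 hcle) hP1 (by linarith) (by positivity)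
  have h9 : A ≤ 8 * Real.exp (-((r - 2 * η) / (10 ^ 9 * (n : ℝ) ^ ((1 : ℝ) / 6)))) / (1 - η) := by
    rw [le_div_iff₀ (by linarith)]; linarith
  linarith [hsplit {x | m + r ≤ g x}]

/-- Exponential concentration at scale `n^(1/6)`. -/
theorem exp_tail_one (hn : 1 ≤ n) {g : Euc n → ℝ} (hg : LipschitzWith 1 g) {m : ℝ}
    (hm : 1 / 2 ≤ μ.real {x | g x ≤ m}) {r : ℝ} (hr : 0 ≤ r) :
    μ.real {x | m + r ≤ g x}
      ≤ 8 * Real.exp (-(r / (10 ^ 9 * (n : ℝ) ^ ((1 : ℝ) / 6)))) := by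
  rcases hr.eq_or_lt with rfl | hr0
  · refine measureReal_le_one.trans ?_; simp
  set D := 10 ^ 9 * (n : ℝ) ^ ((1 : ℝ) / 6) with hD
  set F := fun η : ℝ => 8 * Real.exp (-((r - 2 * η) / D)) / (1 - η) + η with hF
  have hη : Tendsto (fun k : ℕ => 1 / ((k : ℝ) + 1)) atTop (𝓝 0) :=
    tendsto_one_div_add_atTop_nhds_zero_nat
  have hcont : ContinuousAt F 0 := by
    rw [hF]
    refine (ContinuousAt.div (by fun_prop) (by fun_prop) (by norm_num)).add continuousAt_id
  have hlim : Tendsto (fun k : ℕ => F (1 / ((k : ℝ) + 1))) atTop (𝓝 (F 0)) := hcont.tendsto.comp hη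
  have h0 : F 0 = 8 * Real.exp (-(r / D)) := by simp [hF]
  rw [← h0]
  refine ge_of_tendsto hlim ?_
  filter_upwards [hη.eventually (gt_mem_nhds (by positivity : 0 < r / 2)),
    hη.eventually (gt_mem_nhds (by norm_num : (0 : ℝ) < 1 / 10))] with k h1 h2
  exact approx_tail hρm hρ0 hmid hμ hsub hn hg hm (by positivity) h2.le (by linarith)

omit hsub in
/-- Exponential concentration at scale `a n^(1/6)`. -/
theorem exp_tail (hn : 1 ≤ n) {a : ℝ} (ha : 0 < a)
    (hsuba : ∀ θ : Euc n, ‖θ‖ = 1 →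
      ∫⁻ x, ENNReal.ofReal (Real.exp (⟪x, θ⟫ ^ 2 / a ^ 2)) ∂μ ≤ 2)
    {g : Euc n → ℝ} (hg : LipschitzWith 1 g) {m : ℝ} (hm : 1 / 2 ≤ μ.real {x | g x ≤ m})
    {r : ℝ} (hr : 0 ≤ r) :
    μ.real {x | m + r ≤ g x}
      ≤ 8 * Real.exp (-(r / (10 ^ 9 * a * (n : ℝ) ^ ((1 : ℝ) / 6)))) := by
  have hsm : Measurable fun x : Euc n => a⁻¹ • x := by fun_prop
  have hsa : Measurable fun x : Euc n => a • x := by fun_prop
  set μ' := μ.map fun x : Euc n => a⁻¹ • x with hμ'
  have : IsProbabilityMeasure μ' := Measure.isProbabilityMeasure_map hsm.aemeasurable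
  set ρ' := fun x : Euc n => a ^ n * ρ (a • x) with hρ'
  have hρ'm : Measurable ρ' := (hρm.comp hsa).const_mul _
  have hmap := Measure.map_addHaar_smul (volume : Measure (Euc n)) ha.ne'
  have e1 : μ' = volume.withDensity fun x => ENNReal.ofReal (ρ' x) := by
    ext S hS
    rw [hμ', Measure.map_apply hsm hS, hμ, withDensity_apply _ (hsm hS), withDensity_apply _ hS,
      ← lintegral_indicator (hsm hS), ← lintegral_indicator hS]
    have h := lintegral_map (μ := (volume : Measure (Euc n)))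
      (f := ((fun x : Euc n => a⁻¹ • x) ⁻¹' S).indicator fun x => ENNReal.ofReal (ρ x))
      (hρm.ennreal_ofReal.indicator (hsm hS)) hsa
    rw [hmap, lintegral_smul_measure, finrank_euclideanSpace_fin,
      abs_of_pos (by positivity : 0 < (a ^ n)⁻¹), smul_eq_mul] at h
    have e : ∀ x, S.indicator (fun x => ENNReal.ofReal (ρ' x)) x = ENNReal.ofReal (a ^ n)
        * ((fun x : Euc n => a⁻¹ • x) ⁻¹' S).indicator (fun x => ENNReal.ofReal (ρ x)) (a • x) := by
      intro x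
      have hx : a • x ∈ (fun x : Euc n => a⁻¹ • x) ⁻¹' S ↔ x ∈ S := by
        simp [smul_smul, ha.ne']
      by_cases hxS : x ∈ S
      · rw [indicator_of_mem hxS, indicator_of_mem (hx.2 hxS), hρ',
          ENNReal.ofReal_mul (by positivity)]
      · rw [indicator_of_notMem hxS, indicator_of_notMem (fun h => hxS (hx.1 h)), mul_zero]
    simp only [e]
    rw [lintegral_const_mul' _ _ ENNReal.ofReal_ne_top, ← h, ← mul_assoc,
      ← ENNReal.ofReal_mul (by positivity), mul_inv_cancel₀ (by positivity), ENNReal.ofReal_one,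
      one_mul]
  have e2 : ∀ x y, ρ' x * ρ' y ≤ ρ' ((2 : ℝ)⁻¹ • (x + y)) ^ 2 := fun x y => by
    simp only [hρ']
    rw [mul_mul_mul_comm, mul_pow, ← sq]
    refine mul_le_mul_of_nonneg_left ?_ (sq_nonneg _)
    rw [smul_comm a ((2 : ℝ)⁻¹), smul_add]
    exact hmid _ _
  have e3 : ∀ θ : Euc n, ‖θ‖ = 1 → ∫⁻ x, ENNReal.ofReal (Real.exp (⟪x, θ⟫ ^ 2)) ∂μ' ≤ 2 := by
    intro θ hθ
    rw [hμ', lintegral_map (by fun_prop) hsm]
    refine le_of_eq_of_le (lintegral_congr fun x => ?_) (hsuba θ hθ)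
    rw [real_inner_smul_left, mul_pow, inv_pow, div_eq_inv_mul]
  set g' := fun x : Euc n => a⁻¹ * g (a • x) with hg'
  have hgl : LipschitzWith 1 g' := LipschitzWith.of_dist_le_mul fun x y => by
    simp only [hg', Real.dist_eq, NNReal.coe_one, one_mul, ← mul_sub, abs_mul,
      abs_of_pos (inv_pos.2 ha)]
    have h := hg.dist_le_mul (a • x) (a • y)
    rw [Real.dist_eq, dist_eq_norm, NNReal.coe_one, one_mul, ← smul_sub, norm_smul,
      Real.norm_eq_abs, abs_of_pos ha] at h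
    rw [dist_eq_norm, inv_mul_le_iff₀ ha]
    exact h
  have hgm : Measurable g' := hgl.continuous.measurable
  have e4 : ∀ x, g' (a⁻¹ • x) = a⁻¹ * g x := fun x => by simp [hg', smul_smul, ha.ne']
  have hm' : 1 / 2 ≤ μ'.real {x | g' x ≤ a⁻¹ * m} := by
    rw [hμ', map_measureReal_apply hsm (measurableSet_le hgm measurable_const)]
    refine hm.trans (measureReal_mono fun x hx => ?_)
    show g' (a⁻¹ • x) ≤ a⁻¹ * m
    rw [e4]
    exact mul_le_mul_of_nonneg_left hx (inv_pos.2 ha).le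
  have h := exp_tail_one hρ'm (fun x => mul_nonneg (by positivity) (hρ0 _)) e2 e1 e3 hn hgl hm'
    (r := a⁻¹ * r) (mul_nonneg (inv_pos.2 ha).le hr)
  rw [hμ', map_measureReal_apply hsm (measurableSet_le measurable_const hgm)] at h
  refine ((measureReal_mono fun x hx => ?_).trans h).trans (le_of_eq ?_)
  · show a⁻¹ * m + a⁻¹ * r ≤ g' (a⁻¹ • x)
    rw [e4, ← mul_add]
    exact mul_le_mul_of_nonneg_left hx (inv_pos.2 ha).le
  · congr 3
    field_simp

end Vale.Agent.P245.Sub
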