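import Mathlib
import Vale.Agent.P245.Core

open MeasureTheory
open scoped ENNReal RealInnerProductSpace

namespace Vale.Agent.P245.Sub

/-- The quartic regime. -/
lemma quartic (n : ℕ) (ρ : EuclideanSpace ℝ (Fin n) → ℝ) (a : ℝ)
    (hρm : Measurable ρ) (hρ0 : ∀ x, 0 ≤ ρ x)
    (hmid : ∀ x y, ρ x * ρ y ≤ ρ ((2 : ℝ)⁻¹ • (x + y)) ^ 2)
    (μ : Measure (EuclideanSpace ℝ (Fin n)))
    (hμ : μ = volume.withDensity fun x => ENNReal.ofReal (ρ x))
    (hμ1 : μ Set.univ = 1) (ha : 0 < a)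
    (hsub : ∀ θ : EuclideanSpace ℝ (Fin n), ‖θ‖ = 1 →
      ∫⁻ x, ENNReal.ofReal (Real.exp (⟪x, θ⟫ ^ 2 / a ^ 2)) ∂μ ≤ 2)
    (g : EuclideanSpace ℝ (Fin n) → ℝ) (hg : LipschitzWith 1 g)
    (m : ℝ) (hm : 1 / 2 ≤ μ {x | g x ≤ m}) (r : ℝ) (hr : 0 ≤ r) :
    μ {x | m + r ≤ g x} ≤ ENNReal.ofReal
      (Real.exp (1 - min (r ^ 4 / (n * a ^ 4)) (r ^ 2 / a ^ 2) / 10 ^ 8)) := by
  have : IsProbabilityMeasure μ := ⟨hμ1⟩
  set Λ := min (r ^ 4 / (n * a ^ 4)) (r ^ 2 / a ^ 2) with hΛ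
  set A := {x | m + r ≤ g x}
  rcases le_or_gt Λ (10 ^ 8) with h1 | h1
  · calc μ A ≤ 1 := prob_le_one
      _ ≤ ENNReal.ofReal (Real.exp (1 - Λ / 10 ^ 8)) := by
        rw [← ENNReal.ofReal_one]
        refine ENNReal.ofReal_le_ofReal (Real.one_le_exp ?_)
        rw [sub_nonneg, div_le_one (by positivity)]; exact h1
  have hn : 1 ≤ n := by
    rcases Nat.eq_zero_or_pos n with rfl | h
    · exfalso
      have : Λ ≤ r ^ 4 / (((0 : ℕ) : ℝ) * a ^ 4) := min_le_left _ _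
      simp at this
      linarith
    · exact h
  set L := Λ / 10 ^ 8 with hLdef
  have hL : 1 ≤ L := by rw [hLdef, le_div_iff₀ (by positivity)]; linarith
  by_contra hcon
  have hA : ENNReal.ofReal (Real.exp (-L)) ≤ μ A :=
    le_trans (ENNReal.ofReal_le_ofReal (Real.exp_le_exp.2 (by linarith))) (not_le.1 hcon).le
  have hgc := hg.continuous.measurable
  have hsep : ∀ x ∈ A, ∀ y ∈ {x | g x ≤ m}, r ≤ ‖x - y‖ := by
    intro x hx y hy
    have h : g x - g y ≤ ‖x - y‖ := by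
      have := hg.dist_le_mul x y
      rw [Real.dist_eq, dist_eq_norm, NNReal.coe_one, one_mul] at this
      exact (le_abs_self _).trans this
    have hx' : m + r ≤ g x := hx
    have hy' : g y ≤ m := hy
    linarith
  have key := Vale.Agent.P245.separation hρm hρ0 hmid hμ ha hsub hn hL
    (measurableSet_le measurable_const hgc) (measurableSet_le hgc measurable_const) hA hm hr hsep
  have hn' : (0 : ℝ) < n := by exact_mod_cast hn
  set S := r ^ 2 / a ^ 2 with hS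
  have hS0 : 0 ≤ S := by positivity
  have hS1 : 10 ^ 8 < S := h1.trans_le (min_le_right _ _)
  have hkey : S ≤ 4096 * max (Real.sqrt (n * L)) L := by
    rw [hS, div_le_iff₀ (by positivity)]
    linarith
  have hq : Real.sqrt (n * L) ≤ S / 10 ^ 4 := by
    refine Real.sqrt_le_iff.2 ⟨by positivity, ?_⟩
    have h3 : Λ * n ≤ r ^ 4 / a ^ 4 := by
      calc Λ * n ≤ r ^ 4 / (n * a ^ 4) * n := mul_le_mul_of_nonneg_right (min_le_left _ _) hn'.le
        _ = _ := by field_simp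
    have h4 : r ^ 4 / a ^ 4 = S ^ 2 := by rw [hS]; ring
    rw [hLdef]
    linarith
  have hl : L ≤ S / 10 ^ 8 := by
    rw [hLdef]; gcongr; exact min_le_right _ _
  have : max (Real.sqrt (n * L)) L ≤ S / 10 ^ 4 := max_le hq (by linarith)
  linarith

end Vale.Agent.P245.Sub
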