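import Mathlib
import Vale.Agent.P245.Sub.Final
import Vale.Agent.P245.Sub.Quartic

open MeasureTheory
open scoped ENNReal RealInnerProductSpace

namespace Vale.Agent.P245.Sub

/-- Concentration of Lipschitz functions for linearly subgaussian log-concave measures: Gaussian
with variance proxy `a^2 n^(4/9)`, exponential at scale `a n^(1/6)`, and quartic at large scales. -/
theorem combined (n : ℕ) (ρ : EuclideanSpace ℝ (Fin n) → ℝ) (a : ℝ)
    (hρm : Measurable ρ) (hρ0 : ∀ x, 0 ≤ ρ x)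
    (hmid : ∀ x y, ρ x * ρ y ≤ ρ ((2 : ℝ)⁻¹ • (x + y)) ^ 2)
    (μ : Measure (EuclideanSpace ℝ (Fin n)))
    (hμ : μ = volume.withDensity fun x => ENNReal.ofReal (ρ x))
    (hμ1 : μ Set.univ = 1) (ha : 0 < a)
    (hsub : ∀ θ : EuclideanSpace ℝ (Fin n), ‖θ‖ = 1 →
      ∫⁻ x, ENNReal.ofReal (Real.exp (⟪x, θ⟫ ^ 2 / a ^ 2)) ∂μ ≤ 2)
    (g : EuclideanSpace ℝ (Fin n) → ℝ) (hg : LipschitzWith 1 g)
    (m : ℝ) (hm : 1 / 2 ≤ μ {x | g x ≤ m}) (r : ℝ) (hr : 0 ≤ r) :
    μ {x | m + r ≤ g x} ≤ ENNReal.ofReal (Real.exp (1 -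
      max (max (r ^ 2 / (a ^ 2 * (n : ℝ) ^ ((4 : ℝ) / 9))) (r / (a * (n : ℝ) ^ ((1 : ℝ) / 6))))
        (min (r ^ 4 / (n * a ^ 4)) (r ^ 2 / a ^ 2)) / (3 * 10 ^ 9))) := by
  have : IsProbabilityMeasure μ := ⟨hμ1⟩
  set Q := r ^ 2 / (a ^ 2 * (n : ℝ) ^ ((4 : ℝ) / 9)) with hQ
  set E := r / (a * (n : ℝ) ^ ((1 : ℝ) / 6)) with hE
  set Λ := min (r ^ 4 / (n * a ^ 4)) (r ^ 2 / a ^ 2) with hΛ
  have h4 : μ {x | m + r ≤ g x} ≤ ENNReal.ofReal (Real.exp (1 - Λ / 10 ^ 8)) :=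
    Vale.Agent.P245.Sub.quartic n ρ a hρm hρ0 hmid μ hμ hμ1 ha hsub g hg m hm r hr
  have hE0 : 0 ≤ E := by positivity
  have hQ0 : 0 ≤ Q := by positivity
  have hΛ0 : 0 ≤ Λ := le_min (by positivity) (by positivity)
  rcases le_or_gt (max Q E) Λ with h | h
  · refine h4.trans (ENNReal.ofReal_le_ofReal (Real.exp_le_exp.2 ?_))
    rw [max_eq_right h]
    linarith
  rw [max_eq_left h.le]
  rcases Nat.eq_zero_or_pos n with rfl | hn
  · exfalso
    have h1 : Q = 0 := by simp [hQ, Real.zero_rpow]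
    have h2 : E = 0 := by simp [hE, Real.zero_rpow]
    rw [h1, h2, max_self] at h
    linarith
  have hn1 : (1 : ℝ) ≤ n := by exact_mod_cast hn
  have hn0 : (0 : ℝ) < n := by linarith
  set u := r / a with hu
  have hu0 : 0 ≤ u := by positivity
  have hEu : E = u / (n : ℝ) ^ ((1 : ℝ) / 6) := by rw [hE, hu, div_div]
  have hQu : Q = u ^ 2 / (n : ℝ) ^ ((4 : ℝ) / 9) := by rw [hQ, hu, div_pow, div_div]
  -- beyond the crossover the quartic term dominates
  have hQE : Q ≤ max E Λ := by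
    rcases le_or_gt u ((n : ℝ) ^ ((5 : ℝ) / 18)) with h1 | h1
    · refine le_max_of_le_left ?_
      rw [hEu, hQu, div_le_div_iff₀ (by positivity) (by positivity)]
      calc u ^ 2 * (n : ℝ) ^ ((1 : ℝ) / 6)
          ≤ u * (n : ℝ) ^ ((5 : ℝ) / 18) * (n : ℝ) ^ ((1 : ℝ) / 6) := by
            rw [sq]; gcongr
        _ = u * (n : ℝ) ^ ((4 : ℝ) / 9) := by
            rw [mul_assoc, ← Real.rpow_add hn0]; norm_num
    · refine le_max_of_le_right (le_min ?_ ?_)
      · have h2 : (n : ℝ) ^ ((5 : ℝ) / 9) ≤ u ^ 2 := by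
          have := pow_le_pow_left₀ (by positivity) h1.le 2
          rw [← Real.rpow_natCast, ← Real.rpow_mul hn0.le] at this
          norm_num at this ⊢
          exact this
        have h3 : r ^ 4 / (n * a ^ 4) = u ^ 2 * u ^ 2 / n := by
          rw [hu]; field_simp
        rw [hQu, h3, div_le_div_iff₀ (by positivity) hn0]
        calc u ^ 2 * n = u ^ 2 * ((n : ℝ) ^ ((5 : ℝ) / 9) * (n : ℝ) ^ ((4 : ℝ) / 9)) := by
              rw [← Real.rpow_add hn0]; norm_num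
          _ ≤ u ^ 2 * (u ^ 2 * (n : ℝ) ^ ((4 : ℝ) / 9)) := by gcongr
          _ = _ := by ring
      · rw [hQu, ← div_pow]
        exact div_le_self (sq_nonneg _) (Real.one_le_rpow hn1 (by norm_num))
  have hmax : max Q E ≤ E := by
    rcases le_total E Λ with h' | h'
    · rw [max_eq_right h'] at hQE
      exfalso
      exact absurd (max_le hQE h') (not_le.2 h)
    · rw [max_eq_left h'] at hQE
      exact max_le hQE le_rfl
  have hT := Vale.Agent.P245.Sub.exp_tail hρm hρ0 hmid hμ hn ha hsub hg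
    (m := m) (by
      have := ENNReal.toReal_mono (measure_ne_top μ _) hm
      simpa [Measure.real] using this) hr
  rw [← ofReal_measureReal (μ := μ)]
  refine ENNReal.ofReal_le_ofReal ?_
  set x := r / (10 ^ 9 * a * (n : ℝ) ^ ((1 : ℝ) / 6)) with hx
  have hxE : E / (3 * 10 ^ 9) = x / 3 := by rw [hx, hE]; field_simp
  have hle : 1 - x / 3 ≤ 1 - max Q E / (3 * 10 ^ 9) := by rw [← hxE]; gcongr
  refine le_trans ?_ (Real.exp_le_exp.2 hle)
  rcases le_or_gt x 3 with h5 | h5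
  · exact measureReal_le_one.trans (Real.one_le_exp (by linarith))
  · refine hT.trans ?_
    have h6 : (8 : ℝ) ≤ Real.exp (1 + 2 * x / 3) := by
      have h7 := Real.exp_one_gt_d9
      have h8 := Real.add_one_le_exp (2 * x / 3)
      rw [Real.exp_add]
      nlinarith
    calc 8 * Real.exp (-x) ≤ Real.exp (1 + 2 * x / 3) * Real.exp (-x) :=
          mul_le_mul_of_nonneg_right h6 (Real.exp_pos _).le
      _ = _ := by rw [← Real.exp_add]; ring_nf

end Vale.Agent.P245.Sub
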